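import Claimed.Agent.R285.Ker.Ed

/-!
# ROW 285, leaf L53-K8 (`B8.cac_diag`): the diagonal of `Γ A Γ`, `Γ = C_{≥ u}` the terminal covariance of the entry family on a torus  (helper117)

`(Γ A Γ)(v,v) = log (M/u)/(2π) + O(1)`, uniformly in `1 ≤ u`, `2u ≤ M`.
* `kcac_gag_mul`: `Γ A Γ` has the multiplier `q_u · tm` (`q_u = termP`, `tm = q_u/x`, `0` at `0`).
* `kcac_sym`: `0 ≤ tm - q_u tm = q_u (1 - q_u)/x ≤ 512 u²/(1 + u² x)²` (`ker_qe_one_sub_le`, `ker_qe_mul_pow_le`).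
* `kcac_diff`: `0 ≤ Γ(v,v) - (Γ A Γ)(v,v) ≤ C` (`ker_diag_formula`, `ker_master`).
* `kcac_term_diag`: `Γ(v,v) = log (M/u)/(2π) + O(1)`: one shell `u → S = 2^n u` with `64 S < M ≤ 128 S` (`ker_entry_diag`, constants independent of `n`), `ker_terminal_split`, `ker_terminal_diag` at the scale `S`.
-/

set_option autoImplicit false

namespace Claimed.Agent.R285.Ker

open scoped BigOperators
open Polynomial
open Claimed.Agent.R285.RG

/-- `Γ A Γ` has a multiplier -/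
theorem kcac_gag_mul {G : Geom} {u : ℕ} {Γ : Matrix G.V G.V ℝ} (hT : IsTerminal G Fam.entry u Γ) :
    HasMul G (Γ * lap G * Γ) (fun t => (Fam.entry.termP u).eval t * tm Fam.entry u t) := by
  have hΓ := ker_terminal_mul ker_entry_adm u hT
  have h1 := ker_mul_lap hΓ
  have h2 := ker_mul_sub (ker_cov_mul G (Fam.entry.termP u)) (ker_cmat_mul G ((Fam.entry.termP u).eval 0))
  have h3 : lap G * Γ = cov G (Fam.entry.termP u) - cmat G ((Fam.entry.termP u).eval 0) :=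
    ker_mul_ext h1 h2 (fun k => by
      unfold tm
      by_cases hk : lam (per G) k = 0
      · simp [hk]
      · simp only [if_neg hk]
        field_simp
        ring)
  have h4 : Γ * cmat G ((Fam.entry.termP u).eval 0) = 0 := by
    ext v w
    have h := congrFun hT.const v
    have h' : ∑ z, Γ v z = 0 := by simpa [Matrix.mulVec, dotProduct] using h
    simp only [Matrix.mul_apply, cmat, Matrix.zero_apply]
    rw [← Finset.sum_mul, h', zero_mul]
  have hs := ker_mul_symm hΓ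
  have hc := ker_mul_symm (ker_cov_mul G (Fam.entry.termP u))
  have h5 := ker_mul_cov hΓ (Fam.entry.termP u)
  have h6 : Γ * cov G (Fam.entry.termP u) = cov G (Fam.entry.termP u) * Γ := by
    have h := ker_mul_symm h5
    rw [Matrix.transpose_mul, hs, hc] at h
    exact h
  rw [Matrix.mul_assoc, h3, Matrix.mul_sub, h4, sub_zero, h6]
  exact h5

/-- the symbol of `Γ - Γ A Γ` -/
theorem kcac_sym (u : ℕ) (hu : 1 ≤ u) (x : ℝ) (h0 : 0 ≤ x) (h8 : x ≤ 8) :
    0 ≤ tm Fam.entry u x - (Fam.entry.termP u).eval x * tm Fam.entry u x ∧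
      tm Fam.entry u x - (Fam.entry.termP u).eval x * tm Fam.entry u x
        ≤ 512 * ((u : ℝ) ^ 2 / (1 + (u : ℝ) ^ 2 * x) ^ 2) := by
  have hq0 := ker_qq_nonneg 64 u x
  have hq1 := ker_qe_le_one u hu x h0 (by linarith)
  have hq2 := ker_qe_one_sub_le u hu x h0 (by linarith)
  have hq3 := ker_qe_mul_pow_le u hu x h0 (by linarith) 1 (by norm_num)
  have hT : (Fam.entry.termP u).eval x = qq 64 u x := by
    rw [ker_termP_eval]
    simp [Fam.entry]
  by_cases hx : x = 0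
  · subst hx
    simp only [tm, if_true, mul_zero, sub_zero, le_refl, true_and]
    positivity
  · have hxpos : 0 < x := lt_of_le_of_ne h0 (Ne.symm hx)
    simp only [tm, hx, if_false, hT]
    set q := qq 64 u x with hq
    have e : q / x - q * (q / x) = q * (1 - q) / x := by ring
    rw [e]
    refine ⟨div_nonneg (mul_nonneg hq0 (by linarith)) h0, ?_⟩
    rw [div_le_iff₀ hxpos]
    set y := (u : ℝ) ^ 2 * x with hy
    have hy0 : 0 < y := by positivity
    have e2 : 512 * ((u : ℝ) ^ 2 / (1 + y) ^ 2) * x = 512 * y / (1 + y) ^ 2 := by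
      rw [hy]; ring
    rw [e2, le_div_iff₀ (by positivity)]
    rw [pow_one] at hq3
    have hqy : q * y ≤ 128 := by
      have : q * (y / 128) = q * y / 128 := by ring
      rw [this, div_le_one (by norm_num)] at hq3
      exact hq3
    rcases le_total y 1 with hy1 | hy1
    · have a1 : q * (1 - q) ≤ y := by nlinarith
      have a2 : (1 + y) ^ 2 ≤ 4 := by nlinarith
      have a3 : 0 ≤ q * (1 - q) := mul_nonneg hq0 (by linarith)
      nlinarith
    · have a1 : q * (1 - q) ≤ q := by nlinarith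
      have a2 : (1 + y) ^ 2 ≤ 4 * y ^ 2 := by nlinarith
      calc q * (1 - q) * (1 + y) ^ 2 ≤ q * (4 * y ^ 2) := mul_le_mul a1 a2 (by positivity) hq0
        _ = 4 * y * (q * y) := by ring
        _ ≤ 4 * y * 128 := mul_le_mul_of_nonneg_left hqy (by positivity)
        _ = 512 * y := by ring

/-- `0 ≤ Γ(v,v) - (Γ A Γ)(v,v) ≤ C` -/
theorem kcac_diff : ∃ C : ℝ, 0 ≤ C ∧ ∀ (G : Geom), G.bc = BC.per → ∀ u : ℕ, 1 ≤ u → u ≤ G.M →
    ∀ Γ, IsTerminal G Fam.entry u Γ → ∀ v,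
      0 ≤ Γ v v - (Γ * lap G * Γ) v v ∧ Γ v v - (Γ * lap G * Γ) v v ≤ C := by
  obtain ⟨C2, hC2, h2⟩ := ker_master
  refine ⟨512 * C2, by positivity, ?_⟩
  intro G hG u hu huM Γ hΓ v
  have h1 := ker_mul_sub (ker_terminal_mul ker_entry_adm u hΓ) (kcac_gag_mul hΓ)
  have h3 := ker_diag_formula h1 v
  rw [Matrix.sub_apply] at h3
  rw [h3]
  obtain ⟨bc, M, hM⟩ := G
  simp only at hG
  subst hG
  show 0 ≤ ((M : ℝ) ^ 2)⁻¹ * ∑ k : Fin M × Fin M,
        (tm Fam.entry u (lam M k) - (Fam.entry.termP u).eval (lam M k) * tm Fam.entry u (lam M k)) * ((1 : ℝ) * 1) ∧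
      ((M : ℝ) ^ 2)⁻¹ * ∑ k : Fin M × Fin M,
        (tm Fam.entry u (lam M k) - (Fam.entry.termP u).eval (lam M k) * tm Fam.entry u (lam M k)) * ((1 : ℝ) * 1)
        ≤ 512 * C2
  simp only [mul_one]
  have hN0 : (0 : ℝ) ≤ ((M : ℝ) ^ 2)⁻¹ := by positivity
  refine ⟨mul_nonneg hN0 (Finset.sum_nonneg fun k _ => (kcac_sym u hu _ (ker_lam_nonneg M k) (ker_lam_le M k)).1), ?_⟩
  have hsum := Finset.sum_le_sum (fun k (_ : k ∈ (Finset.univ : Finset (Fin M × Fin M))) =>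
    (kcac_sym u hu _ (ker_lam_nonneg M k) (ker_lam_le M k)).2)
  rw [← Finset.mul_sum] at hsum
  have hm := h2 M u hu huM
  calc ((M : ℝ) ^ 2)⁻¹ * ∑ k : Fin M × Fin M,
        (tm Fam.entry u (lam M k) - (Fam.entry.termP u).eval (lam M k) * tm Fam.entry u (lam M k))
      ≤ ((M : ℝ) ^ 2)⁻¹ * (512 * ∑ k : Fin M × Fin M, (u : ℝ) ^ 2 / (1 + (u : ℝ) ^ 2 * lam M k) ^ 2) :=
        mul_le_mul_of_nonneg_left hsum hN0
    _ = 512 * (((M : ℝ) ^ 2)⁻¹ * ∑ k : Fin M × Fin M, (u : ℝ) ^ 2 / (1 + (u : ℝ) ^ 2 * lam M k) ^ 2) := by ring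
    _ ≤ 512 * C2 := mul_le_mul_of_nonneg_left hm (by norm_num)

/-- `Γ(v,v) = log (M/u)/(2π) + O(1)` -/
theorem kcac_term_diag : ∃ C : ℝ, ∀ (G : Geom), G.bc = BC.per → ∀ u : ℕ, 1 ≤ u → 2 * u ≤ G.M →
    ∀ Γ, IsTerminal G Fam.entry u Γ → ∀ v, |Γ v v - Real.log ((G.M : ℝ) / u) / (2 * Real.pi)| ≤ C := by
  obtain ⟨Ce, hCe⟩ := ker_entry_diag
  obtain ⟨Ct, hCt⟩ := ker_terminal_diag 1 1 64 0
  refine ⟨|Ce| + |Ct| * (1 + Real.log 128) + 1 + Real.log 128, ?_⟩
  intro G hG u hu huM Γ hΓ v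
  have hM : (0 : ℝ) < (G.M : ℝ) := by exact_mod_cast G.hM
  have hu0 : (0 : ℝ) < (u : ℝ) := by exact_mod_cast hu
  have hpi : (1 : ℝ) ≤ 2 * Real.pi := by nlinarith [Real.pi_gt_three]
  have hl128 : 0 ≤ Real.log 128 := Real.log_nonneg (by norm_num)
  have hc64 : Fam.entry.c ≤ 64 := by norm_num [Fam.entry]
  -- a logarithm in `[0, log 128]`, divided by `2π`
  have hdiv : ∀ t : ℝ, 0 ≤ t → t ≤ Real.log 128 → 0 ≤ t / (2 * Real.pi) ∧ t / (2 * Real.pi) ≤ Real.log 128 := by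
    intro t ht0 ht1
    refine ⟨by positivity, ?_⟩
    rw [div_le_iff₀ (by linarith)]
    nlinarith
  -- the terminal diagonal at a scale comparable with the side
  have hterm : ∀ S : ℕ, 1 ≤ S → 2 * S ≤ G.M → G.M ≤ 128 * S → ∀ Γ', IsTerminal G Fam.entry S Γ' →
      (0 ≤ Γ' v v ∧ Γ' v v ≤ |Ct| * (1 + Real.log 128)) ∧
        (0 ≤ Real.log ((G.M : ℝ) / S) ∧ Real.log ((G.M : ℝ) / S) ≤ Real.log 128) := by
    intro S hS h2S hMS Γ' hΓ'
    have hS0 : (0 : ℝ) < (S : ℝ) := by exact_mod_cast hS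
    have h1 := hCt G Fam.entry ker_entry_adm hc64 S hS h2S Γ' hΓ' v
    have hr1 : (1 : ℝ) ≤ (G.M : ℝ) / S := by
      rw [le_div_iff₀ hS0]
      have : (2 * S : ℝ) ≤ (G.M : ℝ) := by exact_mod_cast h2S
      linarith
    have hr2 : (G.M : ℝ) / S ≤ 128 := by
      rw [div_le_iff₀ hS0]
      exact_mod_cast hMS
    have hl0 : 0 ≤ Real.log ((G.M : ℝ) / S) := Real.log_nonneg hr1
    have hl1 : Real.log ((G.M : ℝ) / S) ≤ Real.log 128 := Real.log_le_log (by linarith) hr2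
    refine ⟨⟨h1.1, h1.2.trans ?_⟩, hl0, hl1⟩
    calc Ct * (1 + Real.log ((G.M : ℝ) / S)) ≤ |Ct| * (1 + Real.log ((G.M : ℝ) / S)) :=
          mul_le_mul_of_nonneg_right (le_abs_self _) (by linarith)
      _ ≤ |Ct| * (1 + Real.log 128) := mul_le_mul_of_nonneg_left (by linarith) (abs_nonneg _)
  have hCe0 := abs_nonneg Ce
  have hCt0 : 0 ≤ |Ct| * (1 + Real.log 128) := by positivity
  rcases Nat.lt_or_ge (64 * u) G.M with hbig | hsmall
  · -- one long shell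
    set n := Nat.log 2 ((G.M - 1) / (64 * u)) with hn
    have h64 : 0 < 64 * u := by omega
    have hq : 1 ≤ (G.M - 1) / (64 * u) := by
      rw [Nat.le_div_iff_mul_le h64]; omega
    have h1 : 2 ^ n ≤ (G.M - 1) / (64 * u) := Nat.pow_log_le_self 2 (by omega)
    have h2 : (G.M - 1) / (64 * u) < 2 ^ (n + 1) := Nat.lt_pow_succ_log_self (by norm_num) _
    have hS1 : 64 * (2 ^ n * u) < G.M := by
      have h3 : 2 ^ n * (64 * u) ≤ G.M - 1 := (Nat.le_div_iff_mul_le h64).1 h1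
      have e : 64 * (2 ^ n * u) = 2 ^ n * (64 * u) := by ring
      omega
    have hS2 : G.M ≤ 128 * (2 ^ n * u) := by
      have h3 : G.M - 1 < 2 ^ (n + 1) * (64 * u) := (Nat.div_lt_iff_lt_mul h64).1 h2
      have e : 128 * (2 ^ n * u) = 2 ^ (n + 1) * (64 * u) := by ring
      omega
    have hSpos : 1 ≤ 2 ^ n * u := Nat.mul_pos (by positivity) hu
    obtain ⟨Γ', hΓ'⟩ := ker_exists_terminal G Fam.entry ker_entry_adm (2 ^ n * u) hSpos
    have hsplit := ker_terminal_split ker_entry_adm u (2 ^ n * u) hu hSpos hΓ hΓ'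
    have hvv := congrFun (congrFun hsplit v) v
    simp only [Matrix.add_apply, cmat] at hvv
    obtain ⟨⟨ht0, ht1⟩, hl0, hl1⟩ := hterm (2 ^ n * u) hSpos (by omega) hS2 Γ' hΓ'
    have hz0 : 0 ≤ (Fam.entry.shellP u (2 ^ n * u)).eval 0 / (G.M : ℝ) ^ 2 :=
      div_nonneg (ker_shell_nonneg ker_entry_adm u hu n 0 le_rfl (by norm_num)) (by positivity)
    have hz1 : (Fam.entry.shellP u (2 ^ n * u)).eval 0 / (G.M : ℝ) ^ 2 ≤ 1 := by
      rw [div_le_one (by positivity)]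
      refine (ker_shell_le ker_entry_adm u hu n 0 le_rfl (by norm_num)).trans ?_
      rw [one_mul]
      have h5 : ((2 : ℝ) ^ n * (u : ℝ)) ≤ (G.M : ℝ) := by
        have : 2 ^ n * u ≤ G.M := by omega
        exact_mod_cast this
      exact pow_le_pow_left₀ (by positivity) h5 2
    have hsh := hCe n G hG u hu hS1 v
    have hsq : Ce / Real.sqrt u ≤ |Ce| := by
      have h1u : (1 : ℝ) ≤ Real.sqrt u := by
        rw [Real.one_le_sqrt]; exact_mod_cast hu
      calc Ce / Real.sqrt u ≤ |Ce| / Real.sqrt u :=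
            div_le_div_of_nonneg_right (le_abs_self _) (by positivity)
        _ ≤ |Ce| := div_le_self (abs_nonneg _) h1u
    have hlog : Real.log ((G.M : ℝ) / u) = Real.log ((G.M : ℝ) / ((2 ^ n * u : ℕ) : ℝ)) + n * Real.log 2 := by
      have hS0 : (0 : ℝ) < ((2 ^ n * u : ℕ) : ℝ) := by exact_mod_cast hSpos
      have e : (G.M : ℝ) / u = (G.M : ℝ) / ((2 ^ n * u : ℕ) : ℝ) * (2 : ℝ) ^ n := by
        push_cast
        field_simp
      rw [e, Real.log_mul (by positivity) (by positivity), Real.log_pow]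
    obtain ⟨hd0, hd1⟩ := hdiv _ hl0 hl1
    have hsh' := abs_le.1 (hsh.trans hsq)
    have e : Γ v v - Real.log ((G.M : ℝ) / u) / (2 * Real.pi)
        = (shell G Fam.entry u (2 ^ n * u) v v - n * Real.log 2 / (2 * Real.pi)) + Γ' v v
          - (Fam.entry.shellP u (2 ^ n * u)).eval 0 / (G.M : ℝ) ^ 2
          - Real.log ((G.M : ℝ) / ((2 ^ n * u : ℕ) : ℝ)) / (2 * Real.pi) := by
      rw [hlog, add_div]
      linarith
    rw [e, abs_le]
    constructor <;> linarith [hsh'.1, hsh'.2]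
  · obtain ⟨⟨ht0, ht1⟩, hl0, hl1⟩ := hterm u hu huM (by omega) Γ hΓ
    obtain ⟨hd0, hd1⟩ := hdiv _ hl0 hl1
    rw [abs_le]
    constructor <;> linarith

/-- **the diagonal of `Γ A Γ`** -/
theorem ker_cac_diag : ∃ C : ℝ, ∀ (G : Geom), G.bc = BC.per → ∀ u : ℕ, 1 ≤ u → 2 * u ≤ G.M →
    ∀ Γ, IsTerminal G Fam.entry u Γ → ∀ v,
      |(Γ * lap G * Γ) v v - Real.log ((G.M : ℝ) / u) / (2 * Real.pi)| ≤ C := by
  obtain ⟨C1, hC1, h1⟩ := kcac_diff
  obtain ⟨C2, h2⟩ := kcac_term_diag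
  refine ⟨C1 + C2, ?_⟩
  intro G hG u hu huM Γ hΓ v
  obtain ⟨a0, a1⟩ := h1 G hG u hu (by omega) Γ hΓ v
  have b := abs_le.1 (h2 G hG u hu huM Γ hΓ v)
  rw [abs_le]
  constructor <;> linarith [b.1, b.2]

end Claimed.Agent.R285.Ker
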