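import Claimed.Agent.R285.Ker.Asm1

/-!
# ROW 285, [B] L4.1, leaf L41-TERM: the terminal covariance  (cut by helper198)

FROM `Ker/{Mul, Gk, Quad, Kd, Sym2, Sym3, Sum}.lean`.   `tm F u x = termP(x)/x` (`0` at `0`).   `J c := fun _ _ => c / M²` (`ker_mul_const`: multiplier `c 1[x = 0]`).
PLAN.
* `ker_lap_mulVec_one`: `∑_w lap v w = ∑_e (1 - 1) = 0` (unfold `lap`, `Matrix.mulVec`, `dotProduct`, `Finset.sum_comm`, `Finset.sum_ite_eq`).
* `ker_green`: `𝒢` from `ker_exists_mul G (fun x => if x = 0 then 0 else x⁻¹)`; `lap * 𝒢` has multiplier `x · (..) = 1 - 1[x = 0]`, the same as `1 - J 1` (`ker_mul_sub (ker_mul_one G) (ker_mul_const G 1)`): `ker_mul_ext`.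
  Transpose (`ker_mul_symm` for `𝒢`, `lap G`, and the product): `𝒢 * lap = 1 - J 1`.
* `ker_lap_ker`: `0 = 𝒢 (lap g) = g - (∑ g / M²) 1` (`Matrix.mulVec_mulVec`, `Matrix.sub_mulVec`, `Matrix.one_mulVec`).
* `ker_mulVec_one_of_zero`: `m' x = if x = 0 then 0 else m x / x`, `𝒢'` with multiplier `m'`; `Γ = lap * 𝒢'` (`ker_mul_ext`, at `x = 0` uses `m 0 = 0`) `= (lap 𝒢')ᵀ = 𝒢' * lap`; `lap 1 = 0`.
* `ker_terminal_of_mul`: `psd`: `ker_psd` + `ker_tm_nonneg`.  `const`: previous item (`tm F u 0 = 0`).   `eqn`: `lap * Γ` has multiplier `x tm(x) = termP(x) - termP(0) 1[x=0]` (`ker_tm_mul`), so `lap * Γ = cov G termP - J (termP(0))` (`ker_mul_ext`);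
  `(J c).mulVec f = 0` if `∑ f = 0`.
* `ker_terminal_unique`: `E = Γ - Γ'`: symmetric (`PosSemidef.1`, `IsHermitian`, real), `E 1 = 0`, `lap (E f) = 0` for `∑ f = 0`.  So `E f` is constant `= κ` (`ker_lap_ker`), `M² κ = 1 ⬝ E f = (E 1) ⬝ f = 0`
  (`Matrix.dotProduct_mulVec`, `Matrix.vecMul_transpose`), so `E f = 0`.  General `f = (f - mean) + mean · 1`.  Conclude `E = 0` by `Matrix.ext` with `f = Pi.single w 1`.
* `ker_terminal_bounds`: `h : HasMul G Γ (tm F u)`.  `grad`: `ker_kdif_form h a B`, `B = b1 (2cmax)^5 (u^{2(r-1)})⁻¹` (`ker_tm_pow`, `ker_tm_nonneg`).  `diag`: `le_abs_self`, `ker_kdif_abs h a a`, `ker_tm_sym` with `s = r + r`, `2 ≤ s ≤ 12`,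
  `ker_master` with `t = u ≤ M ≤ per G`; `u^(r + r) = u^(2 r)`.
-/

set_option autoImplicit false

namespace Claimed.Agent.R285.Ker

open scoped BigOperators
open Polynomial
open Claimed.Agent.R285.RG

/-- `c` times the projection on constants; `ker_mul_const G c : HasMul G (cmat G c) (fun t => if t = 0 then c else 0)` (defeq) -/
noncomputable def cmat (G : Geom) (c : ℝ) : Matrix G.V G.V ℝ := fun _ _ => c / (G.M : ℝ) ^ 2

theorem ker_lap_mulVec_one (G : Geom) : (lap G).mulVec (fun _ => 1) = 0 := by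
  funext v
  simp only [Matrix.mulVec, dotProduct, lap, mul_one, Pi.zero_apply]
  rw [Finset.sum_comm]
  refine Finset.sum_eq_zero fun e _ => ?_
  rw [Finset.sum_sub_distrib]
  simp

theorem ker_cmat_mul (G : Geom) (c : ℝ) : HasMul G (cmat G c) (fun t => if t = 0 then c else 0) :=
  ker_mul_const G c

theorem ker_cmat_mulVec (G : Geom) (c : ℝ) (f : G.V → ℝ) :
    (cmat G c).mulVec f = fun _ => c / (G.M : ℝ) ^ 2 * ∑ v, f v := by
  funext v
  simp only [Matrix.mulVec, dotProduct, cmat]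
  rw [Finset.mul_sum]

theorem ker_green (G : Geom) : ∃ 𝒢 : Matrix G.V G.V ℝ, 𝒢 * lap G = 1 - cmat G 1 := by
  obtain ⟨𝒢, h𝒢⟩ := ker_exists_mul G (fun x => if x = 0 then 0 else x⁻¹)
  refine ⟨𝒢, ?_⟩
  have h1 := ker_mul_lap h𝒢
  have h2 := ker_mul_sub (ker_mul_one G) (ker_cmat_mul G 1)
  have h3 : lap G * 𝒢 = 1 - cmat G 1 := by
    refine ker_mul_ext h1 h2 ?_
    intro k
    by_cases hk : lam (per G) k = 0
    · simp [hk]
    · simp [hk]
  have h4 := ker_mul_symm h1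
  rw [Matrix.transpose_mul, ker_mul_symm h𝒢, ker_mul_symm (ker_lap_mul G)] at h4
  rw [h4, h3]

theorem ker_lap_ker (G : Geom) (g : G.V → ℝ) (h : (lap G).mulVec g = 0) (v w : G.V) : g v = g w := by
  obtain ⟨𝒢, h𝒢⟩ := ker_green G
  have h1 : (𝒢 * lap G).mulVec g = 0 := by
    rw [← Matrix.mulVec_mulVec, h, Matrix.mulVec_zero]
  rw [h𝒢, Matrix.sub_mulVec, Matrix.one_mulVec, ker_cmat_mulVec] at h1
  have hv := congrFun h1 v
  have hw := congrFun h1 w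
  simp only [Pi.sub_apply, Pi.zero_apply] at hv hw
  linarith

theorem ker_mulVec_one_of_zero {G : Geom} {Γ : Matrix G.V G.V ℝ} {m : ℝ → ℝ} (h : HasMul G Γ m) (h0 : m 0 = 0) :
    Γ.mulVec (fun _ => 1) = 0 := by
  obtain ⟨𝒢, h𝒢⟩ := ker_exists_mul G (fun x => if x = 0 then 0 else m x / x)
  have h1 := ker_mul_lap h𝒢
  have h3 : lap G * 𝒢 = Γ := by
    refine ker_mul_ext h1 h ?_
    intro k
    by_cases hk : lam (per G) k = 0
    · simp [hk, h0]
    · simp only [hk, if_false]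
      field_simp
  have h4 := ker_mul_symm h1
  rw [Matrix.transpose_mul, ker_mul_symm h𝒢, ker_mul_symm (ker_lap_mul G)] at h4
  rw [← h3, ← h4, ← Matrix.mulVec_mulVec, ker_lap_mulVec_one, Matrix.mulVec_zero]

theorem ker_terminal_of_mul {G : Geom} {F : Fam} {b0 b1 : ℝ} {d : ℕ} (hF : F.Adm b0 b1 d) (u : ℕ)
    {Γ : Matrix G.V G.V ℝ} (h : HasMul G Γ (tm F u)) : IsTerminal G F u Γ := by
  refine ⟨?_, ?_, ?_⟩
  · exact ker_psd h fun k => ker_tm_nonneg hF u _ (ker_lam_nonneg _ k) (ker_lam_le _ k)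
  · exact ker_mulVec_one_of_zero h (by simp [tm])
  · intro f hf
    have h1 := ker_mul_lap h
    have h2 := ker_mul_sub (ker_cov_mul G (F.termP u)) (ker_cmat_mul G ((F.termP u).eval 0))
    have h3 : lap G * Γ = cov G (F.termP u) - cmat G ((F.termP u).eval 0) := by
      refine ker_mul_ext h1 h2 ?_
      intro k
      rw [ker_tm_mul]
      by_cases hk : lam (per G) k = 0
      · simp [hk]
      · simp [hk]
    rw [h3, Matrix.sub_mulVec, ker_cmat_mulVec, hf]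
    funext v
    simp

theorem ker_exists_terminal (G : Geom) (F : Fam) {b0 b1 : ℝ} {d : ℕ} (hF : F.Adm b0 b1 d) (u : ℕ) (hu : 1 ≤ u) :
    ∃ Γ, IsTerminal G F u Γ := by
  obtain ⟨Γ, hΓ⟩ := ker_exists_mul G (tm F u)
  exact ⟨Γ, ker_terminal_of_mul hF u hΓ⟩

theorem ker_terminal_unique {G : Geom} {F : Fam} {u : ℕ} {Γ Γ' : Matrix G.V G.V ℝ} (h : IsTerminal G F u Γ)
    (h' : IsTerminal G F u Γ') : Γ = Γ' := by
  have hM : (0 : ℝ) < (G.M : ℝ) ^ 2 := by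
    have := G.hM
    positivity
  have hcard : ∑ _v : G.V, (1 : ℝ) = (G.M : ℝ) ^ 2 := by
    simp [Fintype.card_prod, sq]
  have hsym : (Γ - Γ').transpose = Γ - Γ' := by
    have h1 : Γ.transpose = Γ := by
      have := h.psd.1
      rwa [Matrix.IsHermitian, Matrix.conjTranspose_eq_transpose_of_trivial] at this
    have h2 : Γ'.transpose = Γ' := by
      have := h'.psd.1
      rwa [Matrix.IsHermitian, Matrix.conjTranspose_eq_transpose_of_trivial] at this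
    rw [Matrix.transpose_sub, h1, h2]
  have hone : (Γ - Γ').mulVec (fun _ => 1) = 0 := by
    rw [Matrix.sub_mulVec, h.const, h'.const, sub_zero]
  -- mean-zero fields are killed
  have hzero : ∀ f : G.V → ℝ, ∑ v, f v = 0 → (Γ - Γ').mulVec f = 0 := by
    intro f hf
    have h1 : (lap G).mulVec ((Γ - Γ').mulVec f) = 0 := by
      rw [Matrix.mulVec_mulVec, Matrix.mul_sub, Matrix.sub_mulVec, h.eqn f hf, h'.eqn f hf, sub_self]
    have h2 := ker_lap_ker G _ h1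
    have h3 : (fun _ => (1 : ℝ)) ⬝ᵥ (Γ - Γ').mulVec f = 0 := by
      rw [Matrix.dotProduct_mulVec, ← Matrix.mulVec_transpose, hsym, hone, zero_dotProduct]
    funext v
    have h4 : (fun _ => (1 : ℝ)) ⬝ᵥ (Γ - Γ').mulVec f = (G.M : ℝ) ^ 2 * (Γ - Γ').mulVec f v := by
      simp only [dotProduct, one_mul]
      rw [Finset.sum_congr rfl (fun w _ => h2 w v), Finset.sum_const, nsmul_eq_mul]
      congr 1
      simp [Fintype.card_prod, sq]
    rw [h3] at h4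
    have := mul_eq_zero.mp h4.symm
    rcases this with h5 | h5
    · exact absurd h5 hM.ne'
    · simpa using h5
  have hall : ∀ f : G.V → ℝ, (Γ - Γ').mulVec f = 0 := by
    intro f
    set μ : ℝ := (∑ v, f v) / (G.M : ℝ) ^ 2 with hμ
    have h1 : f = (fun v => f v - μ) + μ • (fun _ => (1 : ℝ)) := by
      funext v
      simp
    have h2 : ∑ v, (f v - μ) = 0 := by
      rw [Finset.sum_sub_distrib, Finset.sum_const, nsmul_eq_mul]
      have : ((Finset.univ : Finset G.V).card : ℝ) = (G.M : ℝ) ^ 2 := by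
        simp [Fintype.card_prod, sq]
      rw [this, hμ, mul_div_cancel₀ _ hM.ne', sub_self]
    rw [h1, Matrix.mulVec_add, Matrix.mulVec_smul, hone, hzero _ h2]
    simp
  have hE : Γ - Γ' = 0 := by
    ext v w
    have := congrFun (hall (Pi.single w 1)) v
    simpa [Matrix.mulVec_single_one] using this
  exact sub_eq_zero.mp hE

theorem ker_terminal_mul {G : Geom} {F : Fam} {b0 b1 : ℝ} {d : ℕ} (hF : F.Adm b0 b1 d) (u : ℕ)
    {Γ : Matrix G.V G.V ℝ} (h : IsTerminal G F u Γ) : HasMul G Γ (tm F u) := by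
  obtain ⟨Γ', hΓ'⟩ := ker_exists_mul G (tm F u)
  rw [ker_terminal_unique h (ker_terminal_of_mul hF u hΓ')]
  exact hΓ'

theorem ker_terminal_bounds (b0 b1 cmax : ℝ) (d : ℕ) : ∃ C : ℝ, ∀ (G : Geom) (F : Fam), F.Adm b0 b1 d → F.c ≤ cmax →
    ∀ u : ℕ, 1 ≤ u → 2 * u ≤ G.M → ∀ Γ, IsTerminal G F u Γ → TermBounds G C u Γ := by
  obtain ⟨C1, hC1, h1⟩ := ker_tm_sym b0 b1 cmax d
  obtain ⟨C2, hC2, h2⟩ := ker_master
  refine ⟨|4 * (b1 * (2 * cmax) ^ 5)| + 4 * (C1 * C2), ?_⟩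
  intro G F hF hc u hu huM Γ hΓ
  have h := ker_terminal_mul hF u hΓ
  have hA : (0 : ℝ) ≤ |4 * (b1 * (2 * cmax) ^ 5)| := abs_nonneg _
  have hB : (0 : ℝ) ≤ 4 * (C1 * C2) := by positivity
  refine ⟨?_, ?_⟩
  · intro r hr1 hr6 a φ
    have h3 := ker_kdif_form h a (b1 * (2 * cmax) ^ 5 * (((u : ℝ) ^ (2 * (r - 1))))⁻¹) ?_ φ
    · refine h3.trans ?_
      have h4 : (0 : ℝ) ≤ ∑ v, φ v ^ 2 := Finset.sum_nonneg fun i _ => sq_nonneg _
      have h5 : (0 : ℝ) ≤ ((u : ℝ) ^ (2 * (r - 1)))⁻¹ := by positivity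
      have h6 := le_abs_self (4 * (b1 * (2 * cmax) ^ 5))
      calc 4 * (b1 * (2 * cmax) ^ 5 * ((u : ℝ) ^ (2 * (r - 1)))⁻¹) * ∑ v, φ v ^ 2
          = 4 * (b1 * (2 * cmax) ^ 5) * ((u : ℝ) ^ (2 * (r - 1)))⁻¹ * ∑ v, φ v ^ 2 := by ring
        _ ≤ (|4 * (b1 * (2 * cmax) ^ 5)| + 4 * (C1 * C2)) * ((u : ℝ) ^ (2 * (r - 1)))⁻¹ * ∑ v, φ v ^ 2 :=
          mul_le_mul_of_nonneg_right (mul_le_mul_of_nonneg_right (by linarith) h5) h4
    · intro k
      rw [abs_of_nonneg (ker_tm_nonneg hF u _ (ker_lam_nonneg _ k) (ker_lam_le _ k))]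
      exact ker_tm_pow hF cmax hc u hu _ (ker_lam_nonneg _ k) (ker_lam_le _ k) r hr1 hr6
  · intro r hr1 hr6 a v
    refine (le_abs_self _).trans ((ker_kdif_abs h a a (G.ι v) (G.ι v)).trans ?_)
    have huN : u ≤ per G := by
      have := ker_M_le_per G
      omega
    have hsum : ∑ k : Fin (per G) × Fin (per G),
        |tm F u (lam (per G) k)| * Real.sqrt (lam (per G) k) ^ (r + r)
        ≤ C1 * ((u : ℝ) ^ (r + r))⁻¹ * ∑ k : Fin (per G) × Fin (per G),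
          (u : ℝ) ^ 2 / (1 + (u : ℝ) ^ 2 * lam (per G) k) ^ 2 := by
      rw [Finset.mul_sum]
      exact Finset.sum_le_sum fun k _ =>
        h1 F hF hc u hu _ (ker_lam_nonneg _ k) (ker_lam_le _ k) _ (by omega) (by omega)
    have hm := h2 (per G) u hu huN
    have hN : (0 : ℝ) ≤ (((per G : ℕ) : ℝ) ^ 2)⁻¹ := by positivity
    have ht0 : (0 : ℝ) ≤ ((u : ℝ) ^ (r + r))⁻¹ := by positivity
    have hrr : r + r = 2 * r := by ring
    calc 4 * ((((per G : ℕ) : ℝ) ^ 2)⁻¹ * ∑ k : Fin (per G) × Fin (per G),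
          |tm F u (lam (per G) k)| * Real.sqrt (lam (per G) k) ^ (r + r))
        ≤ 4 * ((((per G : ℕ) : ℝ) ^ 2)⁻¹ * (C1 * ((u : ℝ) ^ (r + r))⁻¹ * ∑ k : Fin (per G) × Fin (per G),
          (u : ℝ) ^ 2 / (1 + (u : ℝ) ^ 2 * lam (per G) k) ^ 2)) := by
          exact mul_le_mul_of_nonneg_left (mul_le_mul_of_nonneg_left hsum hN) (by norm_num)
      _ = 4 * (C1 * ((u : ℝ) ^ (r + r))⁻¹) * ((((per G : ℕ) : ℝ) ^ 2)⁻¹ * ∑ k : Fin (per G) × Fin (per G),
          (u : ℝ) ^ 2 / (1 + (u : ℝ) ^ 2 * lam (per G) k) ^ 2) := by ring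
      _ ≤ 4 * (C1 * ((u : ℝ) ^ (r + r))⁻¹) * C2 := mul_le_mul_of_nonneg_left hm (by positivity)
      _ = 4 * (C1 * C2) * ((u : ℝ) ^ (2 * r))⁻¹ := by rw [hrr]; ring
      _ ≤ (|4 * (b1 * (2 * cmax) ^ 5)| + 4 * (C1 * C2)) * ((u : ℝ) ^ (2 * r))⁻¹ :=
          mul_le_mul_of_nonneg_right (by linarith) (by positivity)

end Claimed.Agent.R285.Ker
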