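import Claimed.Agent.R285.Ker.Asm2
import Claimed.Agent.R285.Ker.Term

/-!
# ROW 285, [B] L4.1: EXPORTS = section 1 of `R285/Read/B4.lean`, verbatim  (glue by helper198)

No own sorry here: everything is cited from the leaves `Ker/*.lean`.
-/

set_option autoImplicit false

namespace Claimed.Agent.R285.Ker

open scoped BigOperators ENNReal NNReal
open MeasureTheory ProbabilityTheory Polynomial
open Claimed.Agent.R285.RG

noncomputable section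

variable (G : Geom)

theorem Q_spec (t : ℕ) (ht : 1 ≤ t) (z : ℝ) (hz : Real.sin (z / 2) ≠ 0) :
    (Q t).eval (Real.cos z) = (Real.sin (t * z / 2) / (t * Real.sin (z / 2))) ^ (2 * pp) :=
  ker_Q_spec t ht z hz

theorem Q_double (t : ℕ) (ht : 1 ≤ t) (z : ℝ) :
    (Q (2 * t)).eval (Real.cos z) = (Q t).eval (Real.cos z) * Real.cos (t * z / 2) ^ (2 * pp) :=
  ker_Q_double t ht z

theorem toolkit_adm (s : ℝ) (hs : |s| ≤ 1 / 4) : (Fam.toolkit s).Adm (2 / 5) (4 / 3) 1 :=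
  ker_toolkit_adm s hs

theorem entry_adm : Fam.entry.Adm 1 1 0 := ker_entry_adm

theorem fam_telescope (F : Fam) (L u n : ℕ) (hL : 1 ≤ L) (hu : 1 ≤ u) :
    X * (F.lowP u + ∑ j ∈ Finset.range n, F.shellP (L ^ j * u) (L ^ (j + 1) * u)) + F.termP (L ^ n * u) = F.pref :=
  ker_fam_telescope ker_Q_one F L u n hL hu

theorem toolkit_total (s : ℝ) : X * C (gam / (1 + s)) + (Fam.toolkit s).pref = C (1 + s)⁻¹ :=
  ker_toolkit_total s

theorem exists_terminal (F : Fam) {b0 b1 : ℝ} {d : ℕ} (hF : F.Adm b0 b1 d) (u : ℕ) (hu : 1 ≤ u) :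
    ∃ Γ, IsTerminal G F u Γ :=
  ker_exists_terminal G F hF u hu

theorem lap_spectrum (f : G.V → ℝ) :
    0 ≤ f ⬝ᵥ (lap G).mulVec f ∧ f ⬝ᵥ (lap G).mulVec f ≤ 8 * (f ⬝ᵥ f) :=
  ker_lap_spectrum G f

theorem shell_psd (F : Fam) {b0 b1 : ℝ} {d : ℕ} (hF : F.Adm b0 b1 d) (ℓ u : ℕ) (hu : 1 ≤ u) :
    (shell G F u (2 ^ ℓ * u)).PosSemidef :=
  ker_shell_psd G F hF ℓ u hu

theorem low_psd (F : Fam) {b0 b1 : ℝ} {d : ℕ} (hF : F.Adm b0 b1 d) (u : ℕ) (hu : 1 ≤ u) : (low G F u).PosSemidef :=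
  ker_low_psd G F hF u hu

theorem shell_range (F : Fam) {b0 b1 : ℝ} {d : ℕ} (hF : F.Adm b0 b1 d) (m S : ℕ) (hm : 1 ≤ m) (hS : m ≤ S) :
    FinRange (shell G F m S) (pp * S + d) :=
  ker_shell_range G F hF m S hm hS

theorem low_range (F : Fam) {b0 b1 : ℝ} {d : ℕ} (hF : F.Adm b0 b1 d) (u : ℕ) (hu : 1 ≤ u) :
    FinRange (low G F u) (pp * u + d) :=
  ker_low_range G F hF u hu

theorem low_contraction (u : ℕ) (hu : 1 ≤ u) (f : G.V → ℝ) :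
    f ⬝ᵥ (lap G * low G Fam.entry u * lap G).mulVec f ≤ f ⬝ᵥ (lap G).mulVec f :=
  ker_low_contraction G u hu f

/-- **Lemma 4.1, estimates.** -/
theorem kernels_bounds (b0 b1 cmax : ℝ) (d : ℕ) : ∃ (D0 : ℕ) (C c : ℝ), 2 ≤ D0 ∧ 0 < c ∧
    ∀ (G : Geom) (F : Fam), F.Adm b0 b1 d → F.c ≤ cmax → ∀ ℓ u : ℕ, 1 ≤ ℓ → 1 ≤ u → D0 * (2 ^ ℓ * u) < G.M →
      ShellBounds G C c (2 ^ ℓ) u (shell G F u (2 ^ ℓ * u)) := by
  obtain ⟨Cm, hCm0, hCm⟩ := ker_mixed b0 b1 cmax d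
  obtain ⟨Cp, hCp0, hCp⟩ := ker_pointwise b0 b1 cmax d
  obtain ⟨c, hc0, hc⟩ := ker_diag b0 b1 cmax d
  refine ⟨4, Cm + Cp + |b1| + |4 * (b1 * (2 * cmax) ^ 5)|, c, by norm_num, hc0, ?_⟩
  intro G F hF hcm ℓ u _ hu hD
  have hper : 4 * (2 ^ ℓ * u) ≤ per G := le_trans hD.le (ker_M_le_per G)
  have hper' : 2 ^ ℓ * u ≤ per G := by omega
  have hA : (0 : ℝ) ≤ |b1| := abs_nonneg _
  have hB : (0 : ℝ) ≤ |4 * (b1 * (2 * cmax) ^ 5)| := abs_nonneg _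
  refine ⟨?_, ?_, ?_, ?_, ?_⟩
  · intro v w
    refine (hCp G F hF hcm ℓ u hu hper' v w).trans ?_
    refine mul_le_mul_of_nonneg_right (by linarith) ?_
    have := Real.posLog_nonneg (x := (((2 ^ ℓ : ℕ) : ℝ) * (u : ℝ)) / ((u : ℝ) + G.dist v w))
    linarith
  · intro v
    exact hc G F hF hcm ℓ u hu hper v
  · intro f
    refine (ker_opnorm G hF ℓ u hu f).trans ?_
    have h1 : (0 : ℝ) ≤ f ⬝ᵥ f := by
      simp only [dotProduct]
      exact Finset.sum_nonneg fun i _ => mul_self_nonneg _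
    refine mul_le_mul_of_nonneg_right (mul_le_mul_of_nonneg_right ?_ (sq_nonneg _)) h1
    have := le_abs_self b1
    linarith
  · intro r hr1 hr6 a φ
    refine (ker_grad G hF cmax hcm ℓ u hu r hr1 hr6 a φ).trans ?_
    have h1 : (0 : ℝ) ≤ ∑ v, φ v ^ 2 := Finset.sum_nonneg fun i _ => sq_nonneg _
    refine mul_le_mul_of_nonneg_right (mul_le_mul_of_nonneg_right ?_ (by positivity)) h1
    have := le_abs_self (4 * (b1 * (2 * cmax) ^ 5))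
    linarith
  · intro r r' h1 h12 a b v w
    refine (hCm G F hF hcm ℓ u hu hper' r r' h1 h12 a b v w).trans ?_
    refine mul_le_mul_of_nonneg_right (by linarith) (by positivity)

/-- **Lemma 4.1, terminal covariance** -/
theorem terminal_bounds (b0 b1 cmax : ℝ) (d : ℕ) : ∃ C : ℝ, ∀ (G : Geom) (F : Fam), F.Adm b0 b1 d → F.c ≤ cmax →
    ∀ u : ℕ, 1 ≤ u → 2 * u ≤ G.M → ∀ Γ, IsTerminal G F u Γ → TermBounds G C u Γ :=
  ker_terminal_bounds b0 b1 cmax d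

theorem shellOK_of_fam (b0 b1 cmax : ℝ) (d : ℕ) : ∃ (D1 : ℕ) (Ck ck : ℝ), 0 < ck ∧ ∀ D0 ≥ D1, ∀ (G : Geom) (F : Fam),
    F.Adm b0 b1 d → F.c ≤ cmax → ∀ (ℓ : ℕ), 1 ≤ ℓ → ∀ P : Pair G D0 ℓ, d ≤ P.g'.m →
      ShellOK Ck ck (pp + 1) P (shell G F P.g.m P.g'.m) := by
  obtain ⟨D1, C, c, _, hc0, h⟩ := kernels_bounds b0 b1 cmax d
  refine ⟨D1, C, c, hc0, ?_⟩
  intro D0 hD0 G F hF hcm ℓ hℓ P hd
  have hu : 1 ≤ P.g.m := P.ok.pos
  have hS := P.hS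
  have hle : P.g.m ≤ P.g'.m := by
    rw [hS]; exact Nat.le_mul_of_pos_left _ (by positivity)
  refine ⟨?_, ?_, ?_⟩
  · rw [hS]; exact ker_shell_psd G F hF ℓ _ hu
  · intro v w hvw
    refine ker_shell_range G F hF _ _ hu hle v w (lt_of_le_of_lt ?_ hvw)
    have : (pp + 1) * P.g'.m = pp * P.g'.m + P.g'.m := by ring
    omega
  · rw [hS]
    refine h G F hF hcm ℓ _ hℓ hu ?_
    have h1 := P.clear
    rw [hS] at h1
    exact lt_of_le_of_lt (Nat.mul_le_mul_right _ hD0) h1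

end

end Claimed.Agent.R285.Ker
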