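import Claimed.Agent.R285.Ker.Main

/-!
# ROW 285, [B] L4.1: further exports of the Fourier layer, on request of the consumers  (helper198)

* `ker_low_add_shell`, `ker_low_cac` (for `Obs/VReg.lean`, L-OBS-V8, helper49).
* `ker_terminal_split`: `Γ_{≥ m} + c 11ᵀ/M² = shell m S + Γ_{≥ S}`, `c = shellP m S (0)`.
* `ker_terminal_unique` is in `Ker/Term.lean`.
No sorry.
-/

set_option autoImplicit false

namespace Claimed.Agent.R285.Ker

open scoped BigOperators
open Polynomial Matrix
open Claimed.Agent.R285.RG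

theorem ker_lowP_add_shellP (F : Fam) (m S : ℕ) : F.lowP m + F.shellP m S = F.lowP S := by
  unfold Fam.lowP Fam.shellP
  rw [← mul_add, ← divX_add]
  congr 2
  ring

theorem ker_low_add_shell (G : Geom) (F : Fam) (m S : ℕ) : low G F m + shell G F m S = low G F S := by
  simp only [low, shell, cov]
  rw [← map_add, ker_lowP_add_shellP]

/-- `C A C ≤ C` for `C = C_{<u}` of the entry family -/
theorem ker_low_cac (G : Geom) (u : ℕ) (hu : 1 ≤ u) (x : G.V → ℝ) :
    (low G Fam.entry u *ᵥ x) ⬝ᵥ (lap G *ᵥ (low G Fam.entry u *ᵥ x)) ≤ x ⬝ᵥ (low G Fam.entry u *ᵥ x) := by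
  have hsym : (low G Fam.entry u).transpose = low G Fam.entry u := ker_mul_symm (ker_cov_mul G _)
  have h1 : (low G Fam.entry u *ᵥ x) ⬝ᵥ (lap G *ᵥ (low G Fam.entry u *ᵥ x))
      = x ⬝ᵥ ((cov G (Fam.entry.lowP u * X * Fam.entry.lowP u)) *ᵥ x) := by
    have h2 : cov G (Fam.entry.lowP u * X * Fam.entry.lowP u) = low G Fam.entry u * lap G * low G Fam.entry u := by
      simp [low, cov, map_mul, aeval_X]
    rw [h2, ← Matrix.mulVec_mulVec, ← Matrix.mulVec_mulVec, Matrix.dotProduct_mulVec x, ← Matrix.mulVec_transpose, hsym]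
  rw [h1]
  refine ker_cov_mono G _ _ ?_ x
  intro t h0 h8
  have h3 := ker_lowP_eval Fam.entry u hu t
  have h4 := ker_qq_nonneg Fam.entry.c u t
  have h5 : Fam.entry.pref.eval t = 1 := by simp [Fam.entry]
  have h6 := ker_low_nonneg ker_entry_adm u hu t h0 h8
  simp only [eval_mul, eval_X]
  rw [h5, one_mul] at h3
  have h7 : (Fam.entry.lowP u).eval t * t ≤ 1 := by
    rw [mul_comm, h3]; linarith
  calc (Fam.entry.lowP u).eval t * t * (Fam.entry.lowP u).eval t ≤ 1 * (Fam.entry.lowP u).eval t :=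
        mul_le_mul_of_nonneg_right h7 h6
    _ = _ := one_mul _

/-- the terminal covariances at two scales differ by the shell, up to a multiple of the projection on constants -/
theorem ker_terminal_split {G : Geom} {F : Fam} {b0 b1 : ℝ} {d : ℕ} (hF : F.Adm b0 b1 d) (m S : ℕ) (hm : 1 ≤ m) (hS : 1 ≤ S)
    {Γ Γ' : Matrix G.V G.V ℝ} (h : IsTerminal G F m Γ) (h' : IsTerminal G F S Γ') :
    Γ + cmat G ((F.shellP m S).eval 0) = shell G F m S + Γ' := by
  have h1 := ker_mul_add (ker_terminal_mul hF m h) (ker_cmat_mul G ((F.shellP m S).eval 0))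
  have h2 := ker_mul_add (ker_cov_mul G (F.shellP m S)) (ker_terminal_mul hF S h')
  refine ker_mul_ext h1 h2 ?_
  intro k
  by_cases hk : lam (per G) k = 0
  · simp [hk, tm]
  · have h3 := ker_shellP_eval F m S hm hS (lam (per G) k)
    simp only [tm, hk, if_false, add_zero, ker_termP_eval]
    field_simp
    rw [h3]
    ring

end Claimed.Agent.R285.Ker
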