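import Claimed.Agent.R285.Ker.Fold

/-!
# ROW 285, [B] L4.1, leaf L41-MET: the distance `G.dist`, neighbours  (cut by helper198)

PLAN.  Only `ker_fold_iso`, `ker_pi_iota` (from `Ker/Fold.lean`) and `ker_dist_def` are used.
* `ker_pi_iso`: apply `ker_fold_iso` in each coordinate: `σ x = (ε₁ x.1 + c₁, ε₂ x.2 + c₂)`; `sd (σ x) (σ y) = sd x y` because `(ε (y - x)).natAbs = (y - x).natAbs`.
* `ker_dist_le`: `σ` with `σ x = ι (π x)` (`π (ι (π x)) = π x`): `σ y` is in the set defining `dist`, `Nat.sInf_le`.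
* `ker_dist_attained`: `Nat.sInf_mem` (the set contains `sd (ι v) (ι w)`), then transport by `σ` with `σ (ι (π x)) = x`.
* `ker_dist_triangle`: `u = π (ι u)`; take `x` over `v` at distance `dist u v` from `ι u`, `y` over `w` at distance `dist v w` from `x`; `sd` satisfies the triangle inequality (`omega` after `Int.natAbs` facts / `Int.natAbs_add_le`).
* `ker_nbr_sum`: `σ` as in `ker_dist_le`, in the explicit form: `σ (x + dir e) = σ x + (ε₁ (dir e).1, ε₂ (dir e).2)`, and `e ↦` this vector is a permutation of the four directions: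
  `Fin.sum_univ_four`, 4 cases of signs, `simp [dir]`, `abel`.
-/

set_option autoImplicit false

namespace Claimed.Agent.R285.Ker

open scoped BigOperators
open Claimed.Agent.R285.RG

theorem ker_sd_triangle (x y z : ℤ × ℤ) : sd x z ≤ sd x y + sd y z := by
  simp only [sd]; omega

theorem ker_sd_comm (x y : ℤ × ℤ) : sd x y = sd y x := by
  simp only [sd]; omega

theorem ker_sd_self (x : ℤ × ℤ) : sd x x = 0 := by
  simp [sd]

theorem ker_sd_dir (x : ℤ × ℤ) (e : Fin 4) : sd x (x + dir e) = 1 := by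
  fin_cases e <;> simp [sd, dir]

theorem ker_pi_iso (G : Geom) (a b : ℤ × ℤ) (h : G.π a = G.π b) :
    ∃ ε₁ c₁ ε₂ c₂ : ℤ, (ε₁ = 1 ∨ ε₁ = -1) ∧ (ε₂ = 1 ∨ ε₂ = -1) ∧
      (∀ x : ℤ × ℤ, G.π (ε₁ * x.1 + c₁, ε₂ * x.2 + c₂) = G.π x) ∧ (ε₁ * b.1 + c₁, ε₂ * b.2 + c₂) = a := by
  simp only [Geom.π, Prod.ext_iff] at h
  obtain ⟨ε₁, c₁, h1, h2, h3⟩ := ker_fold_iso G a.1 b.1 h.1
  obtain ⟨ε₂, c₂, k1, k2, k3⟩ := ker_fold_iso G a.2 b.2 h.2
  refine ⟨ε₁, c₁, ε₂, c₂, h1, k1, fun x => ?_, Prod.ext h3 k3⟩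
  simp only [Geom.π, h2, k2]

theorem ker_sd_iso (ε₁ c₁ ε₂ c₂ : ℤ) (h1 : ε₁ = 1 ∨ ε₁ = -1) (h2 : ε₂ = 1 ∨ ε₂ = -1) (x y : ℤ × ℤ) :
    sd (ε₁ * x.1 + c₁, ε₂ * x.2 + c₂) (ε₁ * y.1 + c₁, ε₂ * y.2 + c₂) = sd x y := by
  rcases h1 with rfl | rfl <;> rcases h2 with rfl | rfl <;> simp only [sd] <;> omega

theorem ker_dist_le (G : Geom) (x y : ℤ × ℤ) : G.dist (G.π x) (G.π y) ≤ sd x y := by
  obtain ⟨ε₁, c₁, ε₂, c₂, h1, h2, hσ, hx⟩ := ker_pi_iso G (G.ι (G.π x)) x (ker_pi_iota G _)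
  rw [ker_dist_def]
  apply Nat.sInf_le
  refine ⟨(ε₁ * y.1 + c₁, ε₂ * y.2 + c₂), hσ y, ?_⟩
  rw [← hx, ker_sd_iso _ _ _ _ h1 h2]

theorem ker_dist_attained (G : Geom) (x : ℤ × ℤ) (w : G.V) : ∃ y : ℤ × ℤ, G.π y = w ∧ sd x y = G.dist (G.π x) w := by
  have hne : {n : ℕ | ∃ x' : ℤ × ℤ, G.π x' = w ∧ n = sd (G.ι (G.π x)) x'}.Nonempty :=
    ⟨_, G.ι w, ker_pi_iota G w, rfl⟩
  obtain ⟨x', hx', hd⟩ := Nat.sInf_mem hne
  rw [← ker_dist_def] at hd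
  obtain ⟨ε₁, c₁, ε₂, c₂, h1, h2, hσ, hx⟩ := ker_pi_iso G x (G.ι (G.π x)) (ker_pi_iota G _).symm
  refine ⟨(ε₁ * x'.1 + c₁, ε₂ * x'.2 + c₂), (hσ x').trans hx', ?_⟩
  rw [hd]
  conv_lhs => rw [← hx]
  rw [ker_sd_iso _ _ _ _ h1 h2]

theorem ker_dist_triangle (G : Geom) (u v w : G.V) : G.dist u w ≤ G.dist u v + G.dist v w := by
  obtain ⟨x, hx, hd⟩ := ker_dist_attained G (G.ι u) v
  obtain ⟨y, hy, hd'⟩ := ker_dist_attained G x w
  rw [ker_pi_iota] at hd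
  rw [hx] at hd'
  have := ker_dist_le G (G.ι u) y
  rw [ker_pi_iota, hy] at this
  calc G.dist u w ≤ sd (G.ι u) y := this
    _ ≤ sd (G.ι u) x + sd x y := ker_sd_triangle _ _ _
    _ = _ := by rw [hd, hd']

theorem ker_dist_comm_le (G : Geom) (v w : G.V) : G.dist v w ≤ G.dist w v := by
  obtain ⟨y, hy, hd⟩ := ker_dist_attained G (G.ι w) v
  rw [ker_pi_iota] at hd
  have := ker_dist_le G y (G.ι w)
  rw [ker_pi_iota, hy, ker_sd_comm, hd] at this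
  exact this

theorem ker_dist_comm (G : Geom) (v w : G.V) : G.dist v w = G.dist w v :=
  le_antisymm (ker_dist_comm_le G v w) (ker_dist_comm_le G w v)

/-- the neighbours of `π x` computed from the canonical lift are the folds of the neighbours of `x` -/
theorem ker_nbr_sum (G : Geom) {α : Type} [AddCommMonoid α] (g : G.V → α) (x : ℤ × ℤ) :
    ∑ e : Fin 4, g (G.π (G.ι (G.π x) + dir e)) = ∑ e : Fin 4, g (G.π (x + dir e)) := by
  obtain ⟨ε₁, c₁, ε₂, c₂, h1, h2, hσ, hx⟩ := ker_pi_iso G (G.ι (G.π x)) x (ker_pi_iota G _)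
  have key : ∀ e : Fin 4, G.π (x + dir e) = G.π (G.ι (G.π x) + (ε₁ * (dir e).1, ε₂ * (dir e).2)) := by
    intro e
    rw [← hσ (x + dir e), ← hx]
    congr 1
    apply Prod.ext <;> simp <;> ring
  simp only [key, Fin.sum_univ_four]
  rcases h1 with rfl | rfl <;> rcases h2 with rfl | rfl <;> simp [dir] <;> abel

end Claimed.Agent.R285.Ker
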