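import Claimed.Agent.R285.Ker.Defs

/-!
# ROW 285, [B] L4.1, leaf L41-DEG: degrees and polynomial identities  (cut by helper198)

PLAN (Mathlib only).
* `Fej t = C t + 2 * ∑_{k ∈ Ico 1 t} C (t - k) * T ℝ k`: `natDegree_add_le`, `natDegree_mul_le`, `natDegree_sum_le_of_forall_le` (or `Polynomial.natDegree_sum_le`), `Polynomial.Chebyshev.natDegree_T`
  (`(T ℝ (k : ℤ)).natDegree = k`), `k ≤ t - 1`.   `compute_degree` may help.
* `Q t = (C _ * Fej t) ^ pp`: `natDegree_pow_le`, `natDegree_C_mul_le`.     `Qs c t = (Q t).comp (1 - C (1/c) * X)`: `natDegree_comp_le`, the inner polynomial has `natDegree ≤ 1`.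
* `divX`: `Polynomial.natDegree_divX_eq_natDegree_tsub_one` (or `natDegree_divX_le`).    `shellP`, `lowP`: `natDegree_mul_le`, `natDegree_sub_le`.
* `ker_shellP_split`: `shellP` is additive in the telescoping difference: `divX` is additive (`Polynomial.divX_add`; for `sub` write `p - q = p + (-1 : ℝ) • q`/`divX_smul`, or go through coefficients `Polynomial.coeff_divX`, `ext`);
  induction on `ℓ`: `Qs m - Qs (2^(ℓ+1) m) = (Qs m - Qs (2^ℓ m)) + (Qs (2^ℓ m) - Qs (2 (2^ℓ m)))`, `pow_succ`, `mul_assoc/left_comm`.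
* `ker_fam_telescope`: needs `(Qs c t).coeff 0 = (Qs c t).eval 0 = (Q t).eval 1 = 1` for `t ≥ 1`: this is the HYPOTHESIS `hQ` here (proved in `Ker/Fej.lean`).
  `X * divX p = p - C (p.coeff 0)` (`Polynomial.X_mul_divX`/`Polynomial.divX_mul_X_add`), `coeff_zero_eq_eval_zero`; the sum telescopes (`Finset.sum_range_sub'` after `Finset.mul_sum`; or induction on `n`).
* `toolkit_total`: `simp [Fam.toolkit]`, `C` is a ring hom: `C (gam / (1+s)) = C gam * C (1+s)⁻¹`, `ring`.
* `toolkit_adm`: `pref.eval x = (1+s)⁻¹ (1 - x/16)`, `3/4 ≤ 1+s ≤ 5/4`, `1/2 ≤ 1 - x/16 ≤ 1`: `(4/5)(1/2) = 2/5`, `(4/3) 1 = 4/3`.  Degree: `natDegree_C_mul_le`, `natDegree_sub_le`, ..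
-/

set_option autoImplicit false

namespace Claimed.Agent.R285.Ker

open scoped BigOperators
open Polynomial
open Claimed.Agent.R285.RG

theorem ker_Fej_natDegree (t : ℕ) : (Fej t).natDegree ≤ t - 1 := by
  unfold Fej
  apply natDegree_add_le_of_degree_le
  · simp
  · have e : (2 : ℝ[X]) = C 2 := (map_ofNat C 2).symm
    rw [e]
    refine (natDegree_C_mul_le _ _).trans ?_
    apply natDegree_sum_le_of_forall_le
    intro k hk
    rw [Finset.mem_Ico] at hk
    refine (natDegree_C_mul_le _ _).trans ?_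
    rw [Chebyshev.natDegree_T]
    simp
    omega

theorem ker_Q_natDegree (t : ℕ) : (Q t).natDegree ≤ pp * (t - 1) := by
  unfold Q
  refine natDegree_pow_le.trans ?_
  exact Nat.mul_le_mul_left _ ((natDegree_C_mul_le _ _).trans (ker_Fej_natDegree t))

theorem ker_Qs_natDegree (c : ℝ) (t : ℕ) : (Qs c t).natDegree ≤ pp * (t - 1) := by
  unfold Qs
  refine natDegree_comp_le.trans ?_
  have h1 : (1 - C (1 / c) * X : ℝ[X]).natDegree ≤ 1 := by
    refine (natDegree_sub_le_of_le (m := 0) (n := 1) (by simp) ?_).trans (by simp)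
    exact (natDegree_C_mul_le _ _).trans (by simp)
  calc (Q t).natDegree * (1 - C (1 / c) * X : ℝ[X]).natDegree ≤ (pp * (t - 1)) * 1 :=
        Nat.mul_le_mul (ker_Q_natDegree t) h1
    _ = _ := by ring

theorem ker_shellP_natDegree (F : Fam) (d : ℕ) (hd : F.pref.natDegree ≤ d) (m S : ℕ) (h : m ≤ S) :
    (F.shellP m S).natDegree ≤ pp * S + d := by
  unfold Fam.shellP
  refine natDegree_mul_le.trans ?_
  have h1 : (divX (Qs F.c m - Qs F.c S)).natDegree ≤ pp * S := by
    refine natDegree_divX_le.trans ?_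
    refine (natDegree_sub_le_of_le (ker_Qs_natDegree F.c m) (ker_Qs_natDegree F.c S)).trans ?_
    apply max_le
    · exact Nat.mul_le_mul_left _ (by omega)
    · exact Nat.mul_le_mul_left _ (by omega)
  omega

theorem ker_lowP_natDegree (F : Fam) (d : ℕ) (hd : F.pref.natDegree ≤ d) (u : ℕ) :
    (F.lowP u).natDegree ≤ pp * u + d := by
  unfold Fam.lowP
  refine natDegree_mul_le.trans ?_
  have h1 : (divX (1 - Qs F.c u)).natDegree ≤ pp * u := by
    refine natDegree_divX_le.trans ?_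
    refine (natDegree_sub_le_of_le (m := 0) (by simp) (ker_Qs_natDegree F.c u)).trans ?_
    apply max_le (Nat.zero_le _)
    exact Nat.mul_le_mul_left _ (by omega)
  omega

theorem ker_shellP_add (F : Fam) (a b c : ℕ) : F.shellP a c = F.shellP a b + F.shellP b c := by
  unfold Fam.shellP
  rw [← mul_add, ← divX_add]
  congr 2
  ring

theorem ker_shellP_self (F : Fam) (a : ℕ) : F.shellP a a = 0 := by
  simp [Fam.shellP]

/-- dyadic decomposition of a shell into binary pieces -/
theorem ker_shellP_split (F : Fam) (m ℓ : ℕ) :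
    F.shellP m (2 ^ ℓ * m) = ∑ j ∈ Finset.range ℓ, F.shellP (2 ^ j * m) (2 * (2 ^ j * m)) := by
  induction ℓ with
  | zero => simp [ker_shellP_self]
  | succ ℓ ih =>
    rw [Finset.sum_range_succ, ← ih, ker_shellP_add F m (2 ^ ℓ * m) (2 ^ (ℓ + 1) * m)]
    congr 2
    ring

theorem ker_shellP_tele (F : Fam) (L u n : ℕ) :
    ∑ j ∈ Finset.range n, F.shellP (L ^ j * u) (L ^ (j + 1) * u) = F.shellP u (L ^ n * u) := by
  induction n with
  | zero => simp [ker_shellP_self]
  | succ n ih =>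
    rw [Finset.sum_range_succ, ih, ← ker_shellP_add]

theorem ker_fam_telescope (hQ : ∀ t : ℕ, 1 ≤ t → (Q t).eval 1 = 1) (F : Fam) (L u n : ℕ) (hL : 1 ≤ L) (hu : 1 ≤ u) :
    X * (F.lowP u + ∑ j ∈ Finset.range n, F.shellP (L ^ j * u) (L ^ (j + 1) * u)) + F.termP (L ^ n * u) = F.pref := by
  rw [ker_shellP_tele]
  set S := L ^ n * u with hS
  have hS1 : 1 ≤ S := Nat.mul_pos (pow_pos hL n) hu
  have e1 : F.lowP u + F.shellP u S = F.pref * divX (1 - Qs F.c S) := by
    unfold Fam.lowP Fam.shellP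
    rw [← mul_add, ← divX_add]
    congr 2
    ring
  have e2 : (1 - Qs F.c S).coeff 0 = 0 := by
    rw [coeff_zero_eq_eval_zero]
    simp [Qs, hQ S hS1]
  have e3 := divX_mul_X_add (1 - Qs F.c S)
  rw [e2, C_0, add_zero] at e3
  rw [e1]
  unfold Fam.termP
  calc X * (F.pref * divX (1 - Qs F.c S)) + F.pref * Qs F.c S
      = F.pref * (divX (1 - Qs F.c S) * X) + F.pref * Qs F.c S := by ring
    _ = F.pref := by rw [e3]; ring

theorem ker_toolkit_total (s : ℝ) : X * C (gam / (1 + s)) + (Fam.toolkit s).pref = C (1 + s)⁻¹ := by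
  simp only [Fam.toolkit, div_eq_mul_inv, C_mul]
  ring

theorem ker_toolkit_adm (s : ℝ) (hs : |s| ≤ 1 / 4) : (Fam.toolkit s).Adm (2 / 5) (4 / 3) 1 := by
  rw [abs_le] at hs
  refine ⟨le_refl _, by norm_num, ?_, ?_⟩
  · simp only [Fam.toolkit]
    refine (natDegree_C_mul_le _ _).trans ?_
    refine (natDegree_sub_le_of_le (m := 0) (n := 1) (by simp) ?_).trans (by simp)
    exact (natDegree_C_mul_le _ _).trans (by simp)
  · intro x h0 h8
    simp only [Fam.toolkit, gam, eval_mul, eval_C, eval_sub, eval_one, eval_X]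
    have h1 : (0 : ℝ) < 1 + s := by linarith
    have h2 : (4 / 5 : ℝ) ≤ (1 + s)⁻¹ := by
      rw [le_inv_comm₀ (by norm_num) h1]; norm_num; linarith
    have h3 : (1 + s)⁻¹ ≤ (4 / 3 : ℝ) := by
      rw [inv_le_comm₀ h1 (by norm_num)]; norm_num; linarith
    constructor
    · nlinarith
    · nlinarith

theorem ker_entry_adm : Fam.entry.Adm 1 1 0 := by
  refine ⟨by norm_num [Fam.entry], by norm_num, by simp [Fam.entry], ?_⟩
  intro x _ _
  simp [Fam.entry]

end Claimed.Agent.R285.Ker
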