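import Claimed.Agent.R285.Ker.Chi1

/-!
# ROW 285, [B] L4.1, leaf L41-CHI2: two-dimensional characters, Parseval  (cut by helper198)

`chi N k x = chi1 N k.1 x.1 * chi1 N k.2 x.2`, `lam N k = lam1 N k.1 + lam1 N k.2`.  Everything FROM `Ker/Chi1.lean` (cite, proved in parallel).
PLAN.
* `sum`: `Fintype.sum_prod_type`, `Finset.sum_mul_sum`, `ker_chi1_sum`, `split_ifs`.
* `lap`: `Fin.sum_univ_four`, `simp [dir, chi, ker_chi1_zero]`, `ker_chi1_lap` twice.
* `step`: `rl s (dir e)` is `(±1, 0)` or `(0, ±1)`: `fin_cases e`, `rcases s with ⟨_|_, _|_⟩`, `simp [rl, rl1, dir, chi, ker_chi1_zero]`, then `ker_chi1_step(')` and `ker_lam1_nonneg`.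
* `sum_rl`: `Fintype.sum_prod_type` (and `Fintype.sum_prod_type_right`), apply `ker_chi1_sum_neg` in the marked coordinates with `φ = fun t => m (t + lam1 N k₂) * chi1 N k₂ x₂` etc.
* `wA`, `wB`: `norm_prod`, `Finset.prod_le_prod`, `‖z‖ ≤ √λ` from `‖z‖² ≤ λ` (`Real.le_sqrt`), `Finset.prod_const`, `Finset.card_univ`, `Fintype.card_fin`; `-(rl s e) = rl (!s) e`.
* `parseval`: `‖z‖² = z * conj z` (`Complex.mul_conj`, `Complex.normSq_eq_norm_sq`); expand the double sum, exchange with `∑_k`, `chi k (p v) conj (chi k (p w)) = chi k (p v - p w)`, `ker_chi_sum`,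
  the off-diagonal terms vanish by `hp`.  Work in `ℂ` and conclude with `Complex.ofReal_injective`.
-/

set_option autoImplicit false

namespace Claimed.Agent.R285.Ker

open scoped BigOperators
open Claimed.Agent.R285.RG

theorem ker_chi_zero (N : ℕ) (k : Fin N × Fin N) : chi N k 0 = 1 := by
  simp [chi, ker_chi1_zero]

theorem ker_chi_add (N : ℕ) (k : Fin N × Fin N) (x y : ℤ × ℤ) : chi N k (x + y) = chi N k x * chi N k y := by
  simp only [chi, Prod.fst_add, Prod.snd_add, ker_chi1_add]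
  ring

theorem ker_chi_neg (N : ℕ) (k : Fin N × Fin N) (x : ℤ × ℤ) : chi N k (-x) = (starRingEnd ℂ) (chi N k x) := by
  simp only [chi, Prod.fst_neg, Prod.snd_neg, ker_chi1_neg, map_mul]

theorem ker_chi_sub (N : ℕ) (k : Fin N × Fin N) (x y : ℤ × ℤ) :
    chi N k (x - y) = chi N k x * (starRingEnd ℂ) (chi N k y) := by
  rw [sub_eq_add_neg, ker_chi_add, ker_chi_neg]

theorem ker_chi_norm (N : ℕ) (k : Fin N × Fin N) (x : ℤ × ℤ) : ‖chi N k x‖ = 1 := by
  simp [chi, ker_chi1_norm]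

theorem ker_chi_dvd (N : ℕ) (k : Fin N × Fin N) (x : ℤ × ℤ) (h1 : (N : ℤ) ∣ x.1) (h2 : (N : ℤ) ∣ x.2) : chi N k x = 1 := by
  simp [chi, ker_chi1_dvd _ _ _ h1, ker_chi1_dvd _ _ _ h2]

theorem ker_chi_freq_zero (N : ℕ) (k : Fin N × Fin N) (h1 : (k.1 : ℕ) = 0) (h2 : (k.2 : ℕ) = 0) (x : ℤ × ℤ) :
    chi N k x = 1 := by
  simp [chi, ker_chi1_freq_zero _ _ h1, ker_chi1_freq_zero _ _ h2]

/-- completeness -/
theorem ker_chi_sum (N : ℕ) (x : ℤ × ℤ) :
    ∑ k : Fin N × Fin N, chi N k x = if (N : ℤ) ∣ x.1 ∧ (N : ℤ) ∣ x.2 then (N : ℂ) ^ 2 else 0 := by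
  simp only [chi, Fintype.sum_prod_type]
  rw [← Finset.sum_mul_sum, ker_chi1_sum, ker_chi1_sum]
  by_cases h1 : (N : ℤ) ∣ x.1 <;> by_cases h2 : (N : ℤ) ∣ x.2 <;> simp [h1, h2, sq]

theorem ker_chi_lap (N : ℕ) (k : Fin N × Fin N) : ∑ e : Fin 4, (1 - chi N k (dir e)) = ((lam N k : ℝ) : ℂ) := by
  rw [Fin.sum_univ_four]
  simp only [dir, chi, lam]
  simp only [Matrix.cons_val_zero, Matrix.cons_val_one, Matrix.cons_val, ker_chi1_zero, mul_one, one_mul]
  push_cast
  rw [← ker_chi1_lap, ← ker_chi1_lap]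
  ring

theorem ker_chi_step (N : ℕ) (k : Fin N × Fin N) (s : Bool × Bool) (e : Fin 4) :
    ‖chi N k (rl s (dir e)) - 1‖ ^ 2 ≤ lam N k := by
  have h1 := ker_lam1_nonneg N k.1
  have h2 := ker_lam1_nonneg N k.2
  have a1 := ker_chi1_step N k.1
  have a2 := ker_chi1_step N k.2
  have b1 := ker_chi1_step' N k.1
  have b2 := ker_chi1_step' N k.2
  obtain ⟨s1, s2⟩ := s
  unfold lam
  fin_cases e <;> cases s1 <;> cases s2 <;>
    simp only [rl, rl1, dir, chi] <;>
    simp [ker_chi1_zero] <;> linarith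

/-- sums of (function of the eigenvalue) × character are invariant under reflections -/
theorem ker_sum_rl (N : ℕ) (m : ℝ → ℂ) (s : Bool × Bool) (x : ℤ × ℤ) :
    ∑ k : Fin N × Fin N, m (lam N k) * chi N k (rl s x) = ∑ k : Fin N × Fin N, m (lam N k) * chi N k x := by
  have A : ∀ y : ℤ × ℤ, ∑ k : Fin N × Fin N, m (lam N k) * chi N k (-y.1, y.2)
      = ∑ k : Fin N × Fin N, m (lam N k) * chi N k y := by
    intro y
    rw [Fintype.sum_prod_type_right, Fintype.sum_prod_type_right]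
    apply Finset.sum_congr rfl
    intro k2 _
    have := ker_chi1_sum_neg N (fun t => m (t + lam1 N k2) * chi1 N k2 y.2) y.1
    simp only [lam, chi]
    calc ∑ k1 : Fin N, m (lam1 N k1 + lam1 N k2) * (chi1 N k1 (-y.1) * chi1 N k2 y.2)
        = ∑ k1 : Fin N, m (lam1 N k1 + lam1 N k2) * chi1 N k2 y.2 * chi1 N k1 (-y.1) :=
          Finset.sum_congr rfl fun _ _ => by ring
      _ = ∑ k1 : Fin N, m (lam1 N k1 + lam1 N k2) * chi1 N k2 y.2 * chi1 N k1 y.1 := this
      _ = _ := Finset.sum_congr rfl fun _ _ => by ring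
  have B : ∀ y : ℤ × ℤ, ∑ k : Fin N × Fin N, m (lam N k) * chi N k (y.1, -y.2)
      = ∑ k : Fin N × Fin N, m (lam N k) * chi N k y := by
    intro y
    rw [Fintype.sum_prod_type, Fintype.sum_prod_type]
    apply Finset.sum_congr rfl
    intro k1 _
    have := ker_chi1_sum_neg N (fun t => m (lam1 N k1 + t) * chi1 N k1 y.1) y.2
    simp only [lam, chi]
    calc ∑ k2 : Fin N, m (lam1 N k1 + lam1 N k2) * (chi1 N k1 y.1 * chi1 N k2 (-y.2))
        = ∑ k2 : Fin N, m (lam1 N k1 + lam1 N k2) * chi1 N k1 y.1 * chi1 N k2 (-y.2) :=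
          Finset.sum_congr rfl fun _ _ => by ring
      _ = ∑ k2 : Fin N, m (lam1 N k1 + lam1 N k2) * chi1 N k1 y.1 * chi1 N k2 y.2 := this
      _ = _ := Finset.sum_congr rfl fun _ _ => by ring
  obtain ⟨s1, s2⟩ := s
  cases s1 <;> cases s2 <;> simp only [rl, rl1, if_true, if_false, Bool.false_eq_true]
  · exact B x
  · exact A x
  · rw [A (x.1, -x.2)]
    exact B x

theorem ker_lam_nonneg (N : ℕ) (k : Fin N × Fin N) : 0 ≤ lam N k :=
  add_nonneg (ker_lam1_nonneg N k.1) (ker_lam1_nonneg N k.2)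

theorem ker_lam_le (N : ℕ) (k : Fin N × Fin N) : lam N k ≤ 8 := by
  have h1 := ker_lam1_le N k.1
  have h2 := ker_lam1_le N k.2
  unfold lam
  linarith

theorem ker_lam_eq_zero (N : ℕ) (k : Fin N × Fin N) : lam N k = 0 ↔ (k.1 : ℕ) = 0 ∧ (k.2 : ℕ) = 0 := by
  unfold lam
  rw [add_eq_zero_iff_of_nonneg (ker_lam1_nonneg N k.1) (ker_lam1_nonneg N k.2), ker_lam1_eq_zero, ker_lam1_eq_zero]

theorem ker_chi_step_sqrt (N : ℕ) (k : Fin N × Fin N) (s : Bool × Bool) (e : Fin 4) :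
    ‖chi N k (rl s (dir e)) - 1‖ ≤ Real.sqrt (lam N k) :=
  Real.le_sqrt_of_sq_le (ker_chi_step N k s e)

theorem ker_wA_norm (N : ℕ) (k : Fin N × Fin N) {r : ℕ} (a : Fin r → Fin 4) : ‖wA N k a‖ ≤ Real.sqrt (lam N k) ^ r := by
  unfold wA
  rw [norm_prod]
  calc ∏ i, ‖chi N k (dir (a i)) - 1‖ ≤ ∏ _i : Fin r, Real.sqrt (lam N k) := by
        apply Finset.prod_le_prod (fun _ _ => norm_nonneg _)
        intro i _
        have := ker_chi_step_sqrt N k (false, false) (a i)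
        simpa [rl, rl1] using this
    _ = _ := by simp

theorem ker_wB_norm (N : ℕ) (k : Fin N × Fin N) (s : Bool × Bool) {r : ℕ} (c : Fin r → Fin 4) :
    ‖wB N k s c‖ ≤ Real.sqrt (lam N k) ^ r := by
  unfold wB
  rw [norm_prod]
  calc ∏ i, ‖chi N k (-(rl s (dir (c i)))) - 1‖ ≤ ∏ _i : Fin r, Real.sqrt (lam N k) := by
        apply Finset.prod_le_prod (fun _ _ => norm_nonneg _)
        intro i _
        have e : -(rl s (dir (c i))) = rl (!s.1, !s.2) (dir (c i)) := by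
          obtain ⟨s1, s2⟩ := s
          cases s1 <;> cases s2 <;> apply Prod.ext <;> simp [rl, rl1]
        rw [e]
        exact ker_chi_step_sqrt N k _ (c i)
    _ = _ := by simp

/-- Parseval for a family of points pairwise incongruent mod `N` -/
theorem ker_parseval (N : ℕ) {ι : Type} [Fintype ι] (p : ι → ℤ × ℤ)
    (hp : ∀ v w, (N : ℤ) ∣ (p v - p w).1 → (N : ℤ) ∣ (p v - p w).2 → v = w) (u : ι → ℂ) :
    ∑ k : Fin N × Fin N, ‖∑ v, u v * chi N k (p v)‖ ^ 2 = (N : ℝ) ^ 2 * ∑ v, ‖u v‖ ^ 2 := by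
  classical
  apply Complex.ofReal_injective
  push_cast
  have e : ∀ z : ℂ, ((‖z‖ : ℝ) : ℂ) ^ 2 = z * (starRingEnd ℂ) z := by
    intro z
    rw [Complex.mul_conj, Complex.normSq_eq_norm_sq]
    push_cast
    rfl
  simp only [e, map_sum, map_mul, Finset.sum_mul_sum]
  rw [Finset.sum_comm]
  rw [Finset.mul_sum]
  apply Finset.sum_congr rfl
  intro v _
  rw [Finset.sum_comm]
  rw [Finset.sum_eq_single v]
  · have : ∀ k : Fin N × Fin N, u v * chi N k (p v) * ((starRingEnd ℂ) (u v) * (starRingEnd ℂ) (chi N k (p v)))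
        = u v * (starRingEnd ℂ) (u v) * chi N k (p v - p v) := by
      intro k; rw [ker_chi_sub]; ring
    simp only [this, sub_self, ker_chi_zero, mul_one]
    rw [Finset.sum_const, Finset.card_univ, Fintype.card_prod, Fintype.card_fin, nsmul_eq_mul]
    push_cast
    ring
  · intro w _ hw
    have : ∀ k : Fin N × Fin N, u v * chi N k (p v) * ((starRingEnd ℂ) (u w) * (starRingEnd ℂ) (chi N k (p w)))
        = u v * (starRingEnd ℂ) (u w) * chi N k (p v - p w) := by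
      intro k; rw [ker_chi_sub]; ring
    simp only [this]
    rw [← Finset.mul_sum, ker_chi_sum, if_neg, mul_zero]
    rintro ⟨h1, h2⟩
    exact hw (hp v w h1 h2).symm
  · intro h; exact absurd (Finset.mem_univ v) h

end Claimed.Agent.R285.Ker
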