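import Claimed.Agent.R285.Ker.Fold
import Claimed.Agent.R285.Ker.Chi2

/-!
# ROW 285, [B] L4.1, leaf L41-GK: the kernel `gker` on lifts  (cut by helper198)

`gker G m x y = N⁻² ∑_{s ∈ imgs G} ∑_k m (λ_k) χ_k (x - rf s y)`, `N = per G`.  FROM `Ker/Fold.lean`, `Ker/Chi2.lean` (cite; proved in parallel).
PLAN.
* `symm`: for each `s`: `y - rf s x = rl (!s.1, !s.2) (x - rf s y)` (`ker_rf_swap`), then `ker_sum_rl` with `m' = fun t => ((m t : ℝ) : ℂ)`.
* `conj`: `map_mul, map_sum, map_inv₀, Complex.conj_ofReal, Complex.conj_natCast`; `conj (χ_k z) = χ_k (-z)` (`ker_chi_neg`), `-z = rl (true, true) z`, `ker_sum_rl`.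
* `congr_right`: by `ker_pi_eq_iff` there is `s' ∈ imgs G` with `N ∣ y - rf s' y'` (both coordinates).  For each `s`: `rf s y - rf s (rf s' y') = rl s (y - rf s' y')` is divisible by `N`, so
  `χ_k (x - rf s y) = χ_k (x - rf s (rf s' y'))` (`ker_chi_add`, `ker_chi_dvd`), `rf s (rf s' y') = rf (s xor s') y'` (`ker_rf_rf`); reindex `s ↦ s xor s'` on `imgs G`
  (`Finset.sum_nbij'`/`Finset.sum_bij`; cases on `G.bc`: periodic `s' = (false,false)`; free: `imgs G = univ`, `Equiv.sum_comp` with the involution).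
* `congr`: `congr_right` + `symm`.
* `one`: `ker_chi_sum` gives `N⁻² ∑_s N² 1[N ∣ x - rf s y]`; by `ker_pi_eq_iff`, `ker_img_unique` exactly one / no `s` contributes (`Finset.sum_eq_single`, `Finset.sum_eq_zero`); `N ≠ 0` by `ker_per_pos`.
* `delta`: only `k = 0` contributes (`ker_lam_eq_zero`, `Finset.sum_eq_single (⟨0, _⟩, ⟨0, _⟩)`, `ker_chi_freq_zero`); `card (imgs G) / N² = 1 / M²` by `ker_imgs_card_per`.
* `lap`: `χ_k (x + e - z) = χ_k (x - z) χ_k e`; `∑_e (1 - χ_k (dir e)) = λ_k` (`ker_chi_lap`); exchange the finite sums (`Finset.mul_sum`, `Finset.sum_comm`, `Finset.sum_sub_distrib`).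
* `exists_mul`: `Γ v w = (gker G m (ι v) (ι w)).re`; real by `conj` (`Complex.conj_eq_iff_real`/`Complex.conj_eq_iff_im`), `congr` with `ker_pi_iota`.
-/

set_option autoImplicit false

namespace Claimed.Agent.R285.Ker

open scoped BigOperators
open Claimed.Agent.R285.RG

theorem ker_gker_symm (G : Geom) (m : ℝ → ℝ) (x y : ℤ × ℤ) : gker G m y x = gker G m x y := by
  unfold gker
  congr 1
  apply Finset.sum_congr rfl
  intro s _
  rw [ker_rf_swap]
  exact ker_sum_rl (per G) (fun t => ((m t : ℝ) : ℂ)) _ _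

theorem ker_gker_conj (G : Geom) (m : ℝ → ℝ) (x y : ℤ × ℤ) : (starRingEnd ℂ) (gker G m x y) = gker G m x y := by
  unfold gker
  rw [map_mul, map_inv₀, map_pow, Complex.conj_natCast, map_sum]
  congr 1
  apply Finset.sum_congr rfl
  intro s _
  rw [map_sum]
  simp only [map_mul, Complex.conj_ofReal, ← ker_chi_neg]
  have e : -(x - rf s y) = rl (true, true) (x - rf s y) := by
    apply Prod.ext <;> simp [rl, rl1]
  rw [e]
  exact ker_sum_rl (per G) (fun t => ((m t : ℝ) : ℂ)) _ _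

theorem ker_xor_mem (G : Geom) (s s' : Bool × Bool) (hs : s ∈ imgs G) (hs' : s' ∈ imgs G) :
    (xor s.1 s'.1, xor s.2 s'.2) ∈ imgs G := by
  rw [ker_mem_imgs] at *
  obtain ⟨s1, s2⟩ := s
  obtain ⟨t1, t2⟩ := s'
  cases s1 <;> cases s2 <;> cases t1 <;> cases t2 <;> simp_all

theorem ker_gker_congr_right (G : Geom) (m : ℝ → ℝ) (x y y' : ℤ × ℤ) (hy : G.π y = G.π y') :
    gker G m x y = gker G m x y' := by
  obtain ⟨s', hs', h1, h2⟩ := (ker_pi_eq_iff G y y').1 hy
  unfold gker
  congr 1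
  apply Finset.sum_nbij' (fun s => (xor s.1 s'.1, xor s.2 s'.2)) (fun s => (xor s.1 s'.1, xor s.2 s'.2))
  · intro s hs; exact ker_xor_mem G s s' hs hs'
  · intro s hs; exact ker_xor_mem G s s' hs hs'
  · intro s _; simp
  · intro s _; simp
  · intro s _
    apply Finset.sum_congr rfl
    intro k _
    congr 1
    rw [← ker_rf_rf]
    have e : x - rf s y = (x - rf s (rf s' y')) + -(rl s (y - rf s' y')) := by
      have := ker_rf_add s (rf s' y') (y - rf s' y')
      rw [add_sub_cancel] at this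
      rw [this]
      abel
    rw [e, ker_chi_add, ker_chi_dvd _ _ (-(rl s (y - rf s' y'))), mul_one]
    · obtain ⟨s1, s2⟩ := s
      cases s1
      · simpa [rl, rl1] using (dvd_neg.2 h1)
      · simpa [rl, rl1] using h1
    · obtain ⟨s1, s2⟩ := s
      cases s2
      · simpa [rl, rl1] using (dvd_neg.2 h2)
      · simpa [rl, rl1] using h2

theorem ker_gker_congr (G : Geom) (m : ℝ → ℝ) (x x' y y' : ℤ × ℤ) (hx : G.π x = G.π x') (hy : G.π y = G.π y') :
    gker G m x y = gker G m x' y' := by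
  rw [ker_gker_congr_right G m x y y' hy, ← ker_gker_symm, ker_gker_congr_right G m y' x x' hx, ker_gker_symm]

theorem ker_per_ne (G : Geom) : ((per G : ℕ) : ℂ) ≠ 0 := by
  have := ker_per_pos G
  exact_mod_cast this.ne'

theorem ker_gker_one (G : Geom) (x y : ℤ × ℤ) : gker G (fun _ => 1) x y = if G.π x = G.π y then 1 else 0 := by
  unfold gker
  simp only [Complex.ofReal_one, one_mul, ker_chi_sum]
  have hN := ker_per_ne G
  split_ifs with h
  · obtain ⟨s, hs, h1, h2⟩ := (ker_pi_eq_iff G x y).1 h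
    rw [Finset.sum_eq_single s]
    · rw [if_pos ⟨h1, h2⟩]
      field_simp
    · intro s' hs' hne
      rw [if_neg]
      rintro ⟨k1, k2⟩
      exact hne (ker_img_unique G x y s' s hs' hs k1 k2 h1 h2)
    · intro h'; exact absurd hs h'
  · rw [Finset.sum_eq_zero, mul_zero]
    intro s hs
    rw [if_neg]
    rintro ⟨k1, k2⟩
    exact h ((ker_pi_eq_iff G x y).2 ⟨s, hs, k1, k2⟩)

theorem ker_gker_delta (G : Geom) (c : ℝ) (x y : ℤ × ℤ) :
    gker G (fun t => if t = 0 then c else 0) x y = ((c / (G.M : ℝ) ^ 2 : ℝ) : ℂ) := by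
  unfold gker
  have hN := ker_per_ne G
  have hpos := ker_per_pos G
  have key : ∀ z : ℤ × ℤ, ∑ k : Fin (per G) × Fin (per G),
      (((if lam (per G) k = 0 then c else 0 : ℝ)) : ℂ) * chi (per G) k z = (c : ℂ) := by
    intro z
    rw [Finset.sum_eq_single ((⟨0, hpos⟩, ⟨0, hpos⟩) : Fin (per G) × Fin (per G))]
    · rw [if_pos ((ker_lam_eq_zero _ _).2 ⟨rfl, rfl⟩), ker_chi_freq_zero _ _ rfl rfl, mul_one]
    · intro k _ hk
      rw [if_neg]
      · simp
      · intro h0
        obtain ⟨h1, h2⟩ := (ker_lam_eq_zero _ _).1 h0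
        exact hk (Prod.ext (Fin.ext h1) (Fin.ext h2))
    · intro h; exact absurd (Finset.mem_univ _) h
  simp only [key, Finset.sum_const, nsmul_eq_mul]
  have hc : (((imgs G).card : ℕ) : ℂ) * ((G.M : ℕ) : ℂ) ^ 2 = ((per G : ℕ) : ℂ) ^ 2 := by
    exact_mod_cast ker_imgs_card_per G
  have hM : ((G.M : ℕ) : ℂ) ≠ 0 := by
    have := G.hM
    exact_mod_cast this.ne'
  push_cast
  rw [← hc]
  have hcard : (((imgs G).card : ℕ) : ℂ) ≠ 0 := by
    have := ker_imgs_card_pos G
    exact_mod_cast this.ne'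
  field_simp

theorem ker_gker_lap (G : Geom) (m : ℝ → ℝ) (x y : ℤ × ℤ) :
    ∑ e : Fin 4, (gker G m x y - gker G m (x + dir e) y) = gker G (fun t => t * m t) x y := by
  unfold gker
  simp only [← mul_sub, ← Finset.sum_sub_distrib, ← Finset.mul_sum]
  congr 1
  rw [Finset.sum_comm]
  apply Finset.sum_congr rfl
  intro s _
  rw [Finset.sum_comm]
  apply Finset.sum_congr rfl
  intro k _
  have e : ∀ e : Fin 4, chi (per G) k (x + dir e - rf s y) = chi (per G) k (x - rf s y) * chi (per G) k (dir e) := by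
    intro e
    rw [← ker_chi_add]
    congr 1
    abel
  simp only [e]
  have : ∀ e : Fin 4, chi (per G) k (x - rf s y) - chi (per G) k (x - rf s y) * chi (per G) k (dir e)
      = chi (per G) k (x - rf s y) * (1 - chi (per G) k (dir e)) := by
    intro e; ring
  simp only [this, ← Finset.mul_sum, ker_chi_lap]
  push_cast
  ring

theorem ker_gker_add (G : Geom) (m m' : ℝ → ℝ) (x y : ℤ × ℤ) :
    gker G (fun t => m t + m' t) x y = gker G m x y + gker G m' x y := by
  unfold gker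
  rw [← mul_add, ← Finset.sum_add_distrib]
  congr 1
  apply Finset.sum_congr rfl
  intro s _
  rw [← Finset.sum_add_distrib]
  apply Finset.sum_congr rfl
  intro k _
  push_cast
  ring

theorem ker_gker_smul (G : Geom) (c : ℝ) (m : ℝ → ℝ) (x y : ℤ × ℤ) :
    gker G (fun t => c * m t) x y = (c : ℂ) * gker G m x y := by
  unfold gker
  rw [mul_left_comm]
  congr 1
  rw [Finset.mul_sum]
  apply Finset.sum_congr rfl
  intro s _
  rw [Finset.mul_sum]
  apply Finset.sum_congr rfl
  intro k _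
  push_cast
  ring

theorem ker_gker_ext (G : Geom) (m m' : ℝ → ℝ) (h : ∀ k, m (lam (per G) k) = m' (lam (per G) k)) (x y : ℤ × ℤ) :
    gker G m x y = gker G m' x y := by
  unfold gker
  simp only [h]

/-- every multiplier is realised -/
theorem ker_exists_mul (G : Geom) (m : ℝ → ℝ) : ∃ Γ : Matrix G.V G.V ℝ, HasMul G Γ m := by
  refine ⟨fun v w => (gker G m (G.ι v) (G.ι w)).re, fun x y => ?_⟩
  have h1 : gker G m (G.ι (G.π x)) (G.ι (G.π y)) = gker G m x y :=
    ker_gker_congr G m _ _ _ _ (ker_pi_iota G _) (ker_pi_iota G _)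
  show (((gker G m (G.ι (G.π x)) (G.ι (G.π y))).re : ℝ) : ℂ) = _
  rw [h1]
  exact Complex.conj_eq_iff_re.1 (ker_gker_conj G m x y)

end Claimed.Agent.R285.Ker
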