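import Claimed.Agent.R285.Ker.Met
import Claimed.Agent.R285.Ker.Gk

/-!
# ROW 285, [B] L4.1, leaf L41-MUL: the calculus of `HasMul`  (cut by helper198)

`HasMul G Γ m : ∀ x y, (Γ (π x) (π y) : ℂ) = gker G m x y`.  FROM `Ker/Gk.lean`, `Ker/Met.lean` (`ker_nbr_sum`), `Ker/Fold.lean` (`ker_pi_surj`, `ker_pi_iota`).
PLAN.
* `one`: `Matrix.one_apply`, `ker_gker_one`, `split_ifs; simp`.   `add/sub/smul/sum/zero`: `Matrix.add_apply`, `push_cast`, `ker_gker_add`, `ker_gker_smul` (`sub` = `add` + `smul (-1)`); `sum` by `Finset.induction_on`.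
* `ext`: `v = π (ι v)`, `Complex.ofReal_injective`, `ker_gker_ext`.      `symm`: `ker_gker_symm`.
* `lap`: `(lap G * Γ) (π x) (π y) = ∑_w lap (π x) w Γ w (π y) = ∑_e (Γ (π x) (π y) - Γ (π (ι (π x) + dir e)) (π y))`
  (unfold `lap`, `Matrix.mul_apply`, `Finset.sum_mul`, `Finset.sum_comm`, `sub_mul`, `ite_mul`, `Finset.sum_ite_eq`), `= ∑_e (Γ (π x) (π y) - Γ (π (x + dir e)) (π y))` by `ker_nbr_sum` with
  `g = fun v => Γ v (π y)` (and `Finset.sum_sub_distrib`); cast to `ℂ`, `ker_gker_lap`.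
* `cov`: `Polynomial.induction_on'`/`Polynomial.induction_on P`: `cov G (C a) = a • 1` (`Polynomial.aeval_C`, `Algebra.algebraMap_eq_smul_one`), sums (`map_add`, `Matrix.add_mul`),
  `cov G (C a * X ^ (n+1)) = lap G * cov G (C a * X ^ n)` (`map_mul, map_pow, Polynomial.aeval_X, pow_succ`, commutation of powers), `Matrix.mul_assoc`; conclude each step with `ker_mul_congr`
  (pointwise equality of the multipliers, `Polynomial.eval_*`, `ring`).
* `const`: `ker_gker_delta`.
-/

set_option autoImplicit false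

namespace Claimed.Agent.R285.Ker

open scoped BigOperators
open Polynomial
open Claimed.Agent.R285.RG

variable {G : Geom}

theorem ker_mul_one (G : Geom) : HasMul G 1 (fun _ => 1) := by
  intro x y
  rw [ker_gker_one, Matrix.one_apply]
  split_ifs <;> simp

theorem ker_mul_zero (G : Geom) : HasMul G 0 (fun _ => 0) := by
  intro x y
  simp [gker]

theorem ker_mul_add {Γ Γ' : Matrix G.V G.V ℝ} {m m' : ℝ → ℝ} (h : HasMul G Γ m) (h' : HasMul G Γ' m') :
    HasMul G (Γ + Γ') (fun t => m t + m' t) := by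
  intro x y
  rw [ker_gker_add, ← h x y, ← h' x y, Matrix.add_apply]
  push_cast
  rfl

theorem ker_mul_smul {Γ : Matrix G.V G.V ℝ} {m : ℝ → ℝ} (c : ℝ) (h : HasMul G Γ m) :
    HasMul G (c • Γ) (fun t => c * m t) := by
  intro x y
  rw [ker_gker_smul, ← h x y, Matrix.smul_apply, smul_eq_mul]
  push_cast
  rfl

theorem ker_mul_congr {Γ : Matrix G.V G.V ℝ} {m m' : ℝ → ℝ} (h : HasMul G Γ m)
    (hm : ∀ k, m (lam (per G) k) = m' (lam (per G) k)) : HasMul G Γ m' := by
  intro x y
  rw [h x y]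
  exact ker_gker_ext G m m' hm x y

theorem ker_mul_sub {Γ Γ' : Matrix G.V G.V ℝ} {m m' : ℝ → ℝ} (h : HasMul G Γ m) (h' : HasMul G Γ' m') :
    HasMul G (Γ - Γ') (fun t => m t - m' t) := by
  have h1 := ker_mul_add h (ker_mul_smul (-1) h')
  have h2 : Γ + (-1 : ℝ) • Γ' = Γ - Γ' := by
    rw [neg_one_smul, sub_eq_add_neg]
  rw [h2] at h1
  refine ker_mul_congr h1 ?_
  intro k
  ring

theorem ker_mul_ext {Γ Γ' : Matrix G.V G.V ℝ} {m m' : ℝ → ℝ} (h : HasMul G Γ m) (h' : HasMul G Γ' m')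
    (hm : ∀ k, m (lam (per G) k) = m' (lam (per G) k)) : Γ = Γ' := by
  ext v w
  have h1 := h (G.ι v) (G.ι w)
  have h2 := h' (G.ι v) (G.ι w)
  rw [ker_pi_iota, ker_pi_iota] at h1 h2
  apply Complex.ofReal_injective
  rw [h1, h2]
  exact ker_gker_ext G m m' hm _ _

theorem ker_mul_symm {Γ : Matrix G.V G.V ℝ} {m : ℝ → ℝ} (h : HasMul G Γ m) : Γ.transpose = Γ := by
  ext v w
  rw [Matrix.transpose_apply]
  have h1 := h (G.ι v) (G.ι w)
  have h2 := h (G.ι w) (G.ι v)
  rw [ker_pi_iota, ker_pi_iota] at h1 h2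
  apply Complex.ofReal_injective
  rw [h1, h2]
  exact ker_gker_symm G m _ _

theorem ker_lap_mul_apply (G : Geom) (Γ : Matrix G.V G.V ℝ) (v z : G.V) :
    (lap G * Γ) v z = ∑ e : Fin 4, (Γ v z - Γ (G.π (G.ι v + dir e)) z) := by
  rw [Matrix.mul_apply]
  simp only [lap, Finset.sum_mul]
  rw [Finset.sum_comm]
  refine Finset.sum_congr rfl fun e _ => ?_
  simp only [sub_mul, ite_mul, one_mul, zero_mul]
  rw [Finset.sum_sub_distrib]
  simp

theorem ker_mul_lap {Γ : Matrix G.V G.V ℝ} {m : ℝ → ℝ} (h : HasMul G Γ m) :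
    HasMul G (lap G * Γ) (fun t => t * m t) := by
  intro x y
  rw [ker_lap_mul_apply, Finset.sum_sub_distrib, ker_nbr_sum G (fun v => Γ v (G.π y)) x, ← Finset.sum_sub_distrib,
    ← ker_gker_lap]
  push_cast
  refine Finset.sum_congr rfl fun e _ => ?_
  rw [h x y, h (x + dir e) y]

theorem ker_mul_cov {Γ : Matrix G.V G.V ℝ} {m : ℝ → ℝ} (h : HasMul G Γ m) (P : ℝ[X]) :
    HasMul G (cov G P * Γ) (fun t => P.eval t * m t) := by
  induction P using Polynomial.induction_on with
  | C a =>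
    have h1 : cov G (C a) * Γ = a • Γ := by
      simp [cov, Algebra.algebraMap_eq_smul_one]
    rw [h1]
    refine ker_mul_congr (ker_mul_smul a h) ?_
    intro k
    simp
  | add p q hp hq =>
    have h1 : cov G (p + q) * Γ = cov G p * Γ + cov G q * Γ := by
      simp [cov, Matrix.add_mul]
    rw [h1]
    refine ker_mul_congr (ker_mul_add hp hq) ?_
    intro k
    simp only [eval_add]
    ring
  | monomial n a hn =>
    have h1 : cov G (C a * X ^ (n + 1)) * Γ = lap G * (cov G (C a * X ^ n) * Γ) := by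
      have h2 : cov G (C a * X ^ (n + 1)) = lap G * cov G (C a * X ^ n) := by
        have h3 : (C a * X ^ (n + 1) : ℝ[X]) = X * (C a * X ^ n) := by ring
        rw [h3]
        simp only [cov, map_mul, aeval_X]
      rw [h2, Matrix.mul_assoc]
    rw [h1]
    refine ker_mul_congr (ker_mul_lap hn) ?_
    intro k
    simp only [eval_mul, eval_C, eval_pow, eval_X]
    ring

/-- **kernel formula** for polynomials of the Laplacian, both boundary conventions -/
theorem ker_cov_mul (G : Geom) (P : ℝ[X]) : HasMul G (cov G P) (fun t => P.eval t) := by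
  have h := ker_mul_cov (ker_mul_one G) P
  rw [Matrix.mul_one] at h
  refine ker_mul_congr h ?_
  intro k
  ring

theorem ker_lap_mul (G : Geom) : HasMul G (lap G) (fun t => t) := by
  have h := ker_mul_lap (ker_mul_one G)
  rw [Matrix.mul_one] at h
  refine ker_mul_congr h ?_
  intro k
  ring

/-- the projection on constants, times `c` -/
theorem ker_mul_const (G : Geom) (c : ℝ) :
    HasMul G (fun _ _ => c / (G.M : ℝ) ^ 2) (fun t => if t = 0 then c else 0) := by
  intro x y
  rw [ker_gker_delta]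

end Claimed.Agent.R285.Ker
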