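import Claimed.Agent.R285.Ker.Lin
import Claimed.Agent.R285.Ker.Mul

/-!
# ROW 285, [B] L4.1, leaf L41-KD: differences of kernels with a multiplier  (cut by helper198)

FROM `Ker/Lin.lean`, `Ker/Chi2.lean`, `Ker/Fold.lean` (cite; proved in parallel).  `N = per G`.
PLAN.
* `ker_kdif_formula`: `kdif G a c Γ x y = difs a (fun x' => difs c (fun y' => Γ (π x') (π y')) y) x` (`rfl`).  Cast with `ker_difs_ofReal` twice, rewrite by `h`, unfold `gker`; pull `difs` through the constant and the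
  finite sums (`ker_difs_mul_left`, `ker_difs_sum`).  For fixed `s, k`: `y' ↦ χ_k (x' - rf s y')` is multiplied by `χ_k (-(rl s (dir e)))` under `y' ↦ y' + dir e` (`ker_rf_add`, `ker_chi_add`, `sub_add_eq_sub_sub`),
  so `ker_difs_mult` gives the factor `wB N k s c`; then `x' ↦ χ_k (x' - rf s y)` is multiplied by `χ_k (dir e)`: factor `wA N k a`.
* `ker_kdif_abs`: `|t| = ‖(t : ℂ)‖` (`Complex.norm_real`), `norm_mul`, `norm_sum_le`, `ker_wA_norm`, `ker_wB_norm`, `ker_chi_norm`, `pow_add`; the sum over `s` has `card (imgs G) ≤ 4` equal bounds.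
* `ker_kdif_form`: with `U k = ∑_v u v χ_k (ι v)`, `U_s k = ∑_w u w χ_k (rf s (ι w))`:
  `∑_{v,w} u v u w kdif .. = N⁻² ∑_s ∑_k m(λ_k) wA wB_s U k conj (U_s k)` (`ker_chi_sub`), `‖wA‖ ‖wB_s‖ ≤ √λ^r √λ^r = λ^r` (`Real.mul_self_sqrt`/`Real.sq_sqrt`, `← mul_pow`), `‖U‖ ‖U_s‖ ≤ (‖U‖² + ‖U_s‖²)/2`,
  Parseval `∑_k ‖U_s k‖² = N² ∑ u²` (`ker_parseval` with `p = fun w => rf s (ι w)`, `hp` = `ker_rf_iota_inj`; `U = U_{(false,false)}`).  Total `≤ card (imgs G) B ∑ u² ≤ 4 B ∑ u²` (`0 ≤ B` because `N > 0`).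
-/

set_option autoImplicit false

namespace Claimed.Agent.R285.Ker

open scoped BigOperators
open Claimed.Agent.R285.RG

variable {G : Geom}

theorem ker_difs_lin {σ κ : Type} [Fintype κ] {r : ℕ} (a : Fin r → Fin 4) (c0 : ℂ) (S : Finset σ) (coef : σ → κ → ℂ)
    (g : σ → κ → ℤ × ℤ → ℂ) (x : ℤ × ℤ) :
    difs a (fun z => c0 * ∑ s ∈ S, ∑ k, coef s k * g s k z) x = c0 * ∑ s ∈ S, ∑ k, coef s k * difs a (g s k) x := by
  rw [ker_difs_mul_left, ker_difs_sum]
  congr 1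
  refine Finset.sum_congr rfl fun s _ => ?_
  rw [ker_difs_sum]
  refine Finset.sum_congr rfl fun k _ => ?_
  rw [ker_difs_mul_left]

theorem ker_kdif_formula {Γ : Matrix G.V G.V ℝ} {m : ℝ → ℝ} (h : HasMul G Γ m) {r r' : ℕ} (a : Fin r → Fin 4)
    (c : Fin r' → Fin 4) (x y : ℤ × ℤ) :
    ((kdif G a c Γ x y : ℝ) : ℂ) = (((per G : ℕ) : ℂ) ^ 2)⁻¹ * ∑ s ∈ imgs G, ∑ k : Fin (per G) × Fin (per G),
      ((m (lam (per G) k) : ℝ) : ℂ) * wA (per G) k a * wB (per G) k s c * chi (per G) k (x - rf s y) := by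
  have hin : ∀ x' : ℤ × ℤ, ((difs c (fun y' => Γ (G.π x') (G.π y')) y : ℝ) : ℂ)
      = (((per G : ℕ) : ℂ) ^ 2)⁻¹ * ∑ s ∈ imgs G, ∑ k : Fin (per G) × Fin (per G),
        (((m (lam (per G) k) : ℝ) : ℂ) * wB (per G) k s c) * chi (per G) k (x' - rf s y) := by
    intro x'
    rw [ker_difs_ofReal]
    have h1 : (fun y' => ((Γ (G.π x') (G.π y') : ℝ) : ℂ)) = fun y' => (((per G : ℕ) : ℂ) ^ 2)⁻¹ *
        ∑ s ∈ imgs G, ∑ k : Fin (per G) × Fin (per G),
          ((m (lam (per G) k) : ℝ) : ℂ) * chi (per G) k (x' - rf s y') := by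
      funext y'
      rw [h x' y']
      rfl
    rw [h1, ker_difs_lin c _ (imgs G) (fun _ k => ((m (lam (per G) k) : ℝ) : ℂ))
      (fun s k y' => chi (per G) k (x' - rf s y')) y]
    congr 1
    refine Finset.sum_congr rfl fun s _ => Finset.sum_congr rfl fun k _ => ?_
    rw [ker_difs_mult c (fun y' => chi (per G) k (x' - rf s y')) (fun e => chi (per G) k (-(rl s (dir e)))) ?_ y]
    · simp only [wB]
      ring
    · intro y' e
      rw [ker_rf_add, ← ker_chi_add]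
      congr 1
      abel
  have h0 : ((kdif G a c Γ x y : ℝ) : ℂ)
      = difs a (fun x' => ((difs c (fun y' => Γ (G.π x') (G.π y')) y : ℝ) : ℂ)) x := by
    rw [← ker_difs_ofReal]
    rfl
  rw [h0]
  have h2 : (fun x' => ((difs c (fun y' => Γ (G.π x') (G.π y')) y : ℝ) : ℂ)) = fun x' =>
      (((per G : ℕ) : ℂ) ^ 2)⁻¹ * ∑ s ∈ imgs G, ∑ k : Fin (per G) × Fin (per G),
        (((m (lam (per G) k) : ℝ) : ℂ) * wB (per G) k s c) * chi (per G) k (x' - rf s y) := funext hin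
  rw [h2, ker_difs_lin a _ (imgs G) (fun s k => ((m (lam (per G) k) : ℝ) : ℂ) * wB (per G) k s c)
      (fun s k x' => chi (per G) k (x' - rf s y)) x]
  congr 1
  refine Finset.sum_congr rfl fun s _ => Finset.sum_congr rfl fun k _ => ?_
  rw [ker_difs_mult a (fun x' => chi (per G) k (x' - rf s y)) (fun e => chi (per G) k (dir e)) ?_ x]
  · simp only [wA]
    ring
  · intro x' e
    rw [← ker_chi_add]
    congr 1
    abel

theorem ker_kdif_abs {Γ : Matrix G.V G.V ℝ} {m : ℝ → ℝ} (h : HasMul G Γ m) {r r' : ℕ} (a : Fin r → Fin 4)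
    (c : Fin r' → Fin 4) (x y : ℤ × ℤ) :
    |kdif G a c Γ x y| ≤ 4 * ((((per G : ℕ) : ℝ) ^ 2)⁻¹ * ∑ k : Fin (per G) × Fin (per G),
      |m (lam (per G) k)| * Real.sqrt (lam (per G) k) ^ (r + r')) := by
  have h1 : |kdif G a c Γ x y| = ‖((kdif G a c Γ x y : ℝ) : ℂ)‖ := by
    rw [Complex.norm_real, Real.norm_eq_abs]
  rw [h1, ker_kdif_formula h, norm_mul]
  have hN : ‖(((per G : ℕ) : ℂ) ^ 2)⁻¹‖ = (((per G : ℕ) : ℝ) ^ 2)⁻¹ := by
    rw [norm_inv, norm_pow, Complex.norm_natCast]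
  rw [hN]
  set T : ℝ := ∑ k : Fin (per G) × Fin (per G), |m (lam (per G) k)| * Real.sqrt (lam (per G) k) ^ (r + r') with hT
  have hT0 : 0 ≤ T := Finset.sum_nonneg fun k _ => by positivity
  have hs : ∀ s ∈ imgs G, ‖∑ k : Fin (per G) × Fin (per G),
      ((m (lam (per G) k) : ℝ) : ℂ) * wA (per G) k a * wB (per G) k s c * chi (per G) k (x - rf s y)‖ ≤ T := by
    intro s _
    refine (norm_sum_le _ _).trans (Finset.sum_le_sum fun k _ => ?_)
    rw [norm_mul, norm_mul, norm_mul, ker_chi_norm, mul_one, Complex.norm_real, Real.norm_eq_abs, pow_add, mul_assoc]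
    refine mul_le_mul_of_nonneg_left ?_ (abs_nonneg _)
    exact mul_le_mul (ker_wA_norm _ k a) (ker_wB_norm _ k s c) (norm_nonneg _) (by positivity)
  have h2 : ‖∑ s ∈ imgs G, ∑ k : Fin (per G) × Fin (per G),
      ((m (lam (per G) k) : ℝ) : ℂ) * wA (per G) k a * wB (per G) k s c * chi (per G) k (x - rf s y)‖ ≤ 4 * T := by
    refine (norm_sum_le _ _).trans ((Finset.sum_le_sum hs).trans ?_)
    rw [Finset.sum_const, nsmul_eq_mul]
    refine mul_le_mul_of_nonneg_right ?_ hT0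
    exact_mod_cast ker_imgs_card_le G
  have hN0 : (0 : ℝ) ≤ (((per G : ℕ) : ℝ) ^ 2)⁻¹ := by positivity
  calc (((per G : ℕ) : ℝ) ^ 2)⁻¹ * _ ≤ (((per G : ℕ) : ℝ) ^ 2)⁻¹ * (4 * T) := mul_le_mul_of_nonneg_left h2 hN0
    _ = 4 * ((((per G : ℕ) : ℝ) ^ 2)⁻¹ * T) := by ring

theorem ker_sum4 {V σ κ : Type} [Fintype V] [Fintype κ] (S : Finset σ) (c0 : ℂ) (A : V → V → ℂ) (coef : σ → κ → ℂ)
    (X : σ → κ → V → V → ℂ) :
    ∑ v, ∑ w, A v w * (c0 * ∑ s ∈ S, ∑ k, coef s k * X s k v w)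
      = c0 * ∑ s ∈ S, ∑ k, coef s k * ∑ v, ∑ w, A v w * X s k v w := by
  simp only [Finset.mul_sum]
  calc ∑ v, ∑ w, ∑ s ∈ S, ∑ k, A v w * (c0 * (coef s k * X s k v w))
      = ∑ v, ∑ s ∈ S, ∑ w, ∑ k, A v w * (c0 * (coef s k * X s k v w)) :=
        Finset.sum_congr rfl fun v _ => Finset.sum_comm
    _ = ∑ s ∈ S, ∑ v, ∑ w, ∑ k, A v w * (c0 * (coef s k * X s k v w)) := Finset.sum_comm
    _ = ∑ s ∈ S, ∑ v, ∑ k, ∑ w, A v w * (c0 * (coef s k * X s k v w)) :=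
        Finset.sum_congr rfl fun s _ => Finset.sum_congr rfl fun v _ => Finset.sum_comm
    _ = ∑ s ∈ S, ∑ k, ∑ v, ∑ w, A v w * (c0 * (coef s k * X s k v w)) :=
        Finset.sum_congr rfl fun s _ => Finset.sum_comm
    _ = _ := by
        refine Finset.sum_congr rfl fun s _ => Finset.sum_congr rfl fun k _ => Finset.sum_congr rfl fun v _ =>
          Finset.sum_congr rfl fun w _ => ?_
        ring

/-- the transform of `u` along the image `s` -/
noncomputable def utr (G : Geom) (u : G.V → ℝ) (s : Bool × Bool) (k : Fin (per G) × Fin (per G)) : ℂ :=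
  ∑ w : G.V, ((u w : ℝ) : ℂ) * chi (per G) k (rf s (G.ι w))

theorem ker_utr_parseval (G : Geom) (u : G.V → ℝ) (s : Bool × Bool) :
    ∑ k : Fin (per G) × Fin (per G), ‖utr G u s k‖ ^ 2 = ((per G : ℕ) : ℝ) ^ 2 * ∑ v, u v ^ 2 := by
  have h := ker_parseval (per G) (fun w : G.V => rf s (G.ι w)) (fun v w h1 h2 => ker_rf_iota_inj G s v w h1 h2)
    (fun w => ((u w : ℝ) : ℂ))
  simp only [Complex.norm_real, Real.norm_eq_abs, sq_abs] at h
  exact h

theorem ker_kdif_form {Γ : Matrix G.V G.V ℝ} {m : ℝ → ℝ} (h : HasMul G Γ m) {r : ℕ} (a : Fin r → Fin 4) (B : ℝ)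
    (hB : ∀ k, |m (lam (per G) k)| * lam (per G) k ^ r ≤ B) (u : G.V → ℝ) :
    ∑ v, ∑ w, u v * u w * kdif G a a Γ (G.ι v) (G.ι w) ≤ 4 * B * ∑ v, u v ^ 2 := by
  have hNpos : 0 < per G := ker_per_pos G
  have hB0 : 0 ≤ B := by
    have := hB (⟨0, hNpos⟩, ⟨0, hNpos⟩)
    refine le_trans ?_ this
    have := ker_lam_nonneg (per G) (⟨0, hNpos⟩, ⟨0, hNpos⟩)
    positivity
  have hU0 : (0 : ℝ) ≤ ∑ v, u v ^ 2 := Finset.sum_nonneg fun i _ => sq_nonneg _
  -- the complex identity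
  have hid : (((∑ v, ∑ w, u v * u w * kdif G a a Γ (G.ι v) (G.ι w) : ℝ)) : ℂ)
      = (((per G : ℕ) : ℂ) ^ 2)⁻¹ * ∑ s ∈ imgs G, ∑ k : Fin (per G) × Fin (per G),
        ((m (lam (per G) k) : ℝ) : ℂ) * wA (per G) k a * wB (per G) k s a *
          (utr G u (false, false) k * (starRingEnd ℂ) (utr G u s k)) := by
    push_cast
    simp only [ker_kdif_formula h]
    have hprod : ∀ (s : Bool × Bool) (k : Fin (per G) × Fin (per G)),
        utr G u (false, false) k * (starRingEnd ℂ) (utr G u s k)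
          = ∑ v, ∑ w, ((u v : ℝ) : ℂ) * ((u w : ℝ) : ℂ) * chi (per G) k (G.ι v - rf s (G.ι w)) := by
      intro s k
      simp only [utr, map_sum, map_mul, Complex.conj_ofReal]
      rw [Finset.sum_mul_sum]
      refine Finset.sum_congr rfl fun v _ => Finset.sum_congr rfl fun w _ => ?_
      rw [ker_chi_sub]
      have : rf (false, false) (G.ι v) = G.ι v := by simp [rf, rf1]
      rw [this]
      ring
    simp only [hprod]
    exact ker_sum4 (imgs G) _ (fun v w => ((u v : ℝ) : ℂ) * ((u w : ℝ) : ℂ))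
      (fun s k => ((m (lam (per G) k) : ℝ) : ℂ) * wA (per G) k a * wB (per G) k s a)
      (fun s k v w => chi (per G) k (G.ι v - rf s (G.ι w)))
  -- the estimate
  have hle : ∑ v, ∑ w, u v * u w * kdif G a a Γ (G.ι v) (G.ι w)
      ≤ ‖(((∑ v, ∑ w, u v * u w * kdif G a a Γ (G.ι v) (G.ι w) : ℝ)) : ℂ)‖ := by
    rw [Complex.norm_real, Real.norm_eq_abs]
    exact le_abs_self _
  refine hle.trans ?_
  rw [hid, norm_mul]
  have hN : ‖(((per G : ℕ) : ℂ) ^ 2)⁻¹‖ = (((per G : ℕ) : ℝ) ^ 2)⁻¹ := by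
    rw [norm_inv, norm_pow, Complex.norm_natCast]
  rw [hN]
  have hNR : (0 : ℝ) < ((per G : ℕ) : ℝ) ^ 2 := by
    have : (0 : ℝ) < ((per G : ℕ) : ℝ) := by exact_mod_cast hNpos
    positivity
  have hs : ∀ s ∈ imgs G, ‖∑ k : Fin (per G) × Fin (per G),
      ((m (lam (per G) k) : ℝ) : ℂ) * wA (per G) k a * wB (per G) k s a *
          (utr G u (false, false) k * (starRingEnd ℂ) (utr G u s k))‖
        ≤ B * (((per G : ℕ) : ℝ) ^ 2 * ∑ v, u v ^ 2) := by
    intro s _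
    have hterm : ∀ k : Fin (per G) × Fin (per G),
        ‖((m (lam (per G) k) : ℝ) : ℂ) * wA (per G) k a * wB (per G) k s a *
          (utr G u (false, false) k * (starRingEnd ℂ) (utr G u s k))‖
        ≤ B * ((‖utr G u (false, false) k‖ ^ 2 + ‖utr G u s k‖ ^ 2) / 2) := by
      intro k
      rw [norm_mul, norm_mul, norm_mul, norm_mul, RCLike.norm_conj, Complex.norm_real, Real.norm_eq_abs]
      have hl := ker_lam_nonneg (per G) k
      have h1 : ‖wA (per G) k a‖ * ‖wB (per G) k s a‖ ≤ lam (per G) k ^ r := by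
        have h2 := mul_le_mul (ker_wA_norm _ k a) (ker_wB_norm _ k s a) (norm_nonneg _) (by positivity)
        refine h2.trans (le_of_eq ?_)
        rw [← mul_pow, Real.mul_self_sqrt hl]
      have h3 : |m (lam (per G) k)| * ‖wA (per G) k a‖ * ‖wB (per G) k s a‖ ≤ B := by
        rw [mul_assoc]
        exact (mul_le_mul_of_nonneg_left h1 (abs_nonneg _)).trans (hB k)
      have h4 : ‖utr G u (false, false) k‖ * ‖utr G u s k‖
          ≤ (‖utr G u (false, false) k‖ ^ 2 + ‖utr G u s k‖ ^ 2) / 2 := by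
        nlinarith [sq_nonneg (‖utr G u (false, false) k‖ - ‖utr G u s k‖)]
      exact mul_le_mul h3 h4 (by positivity) hB0
    refine (norm_sum_le _ _).trans ((Finset.sum_le_sum fun k _ => hterm k).trans (le_of_eq ?_))
    rw [← Finset.mul_sum, ← Finset.sum_div, Finset.sum_add_distrib, ker_utr_parseval, ker_utr_parseval]
    ring
  have h2 := (norm_sum_le (imgs G) (fun s => ∑ k : Fin (per G) × Fin (per G),
      ((m (lam (per G) k) : ℝ) : ℂ) * wA (per G) k a * wB (per G) k s a *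
          (utr G u (false, false) k * (starRingEnd ℂ) (utr G u s k)))).trans (Finset.sum_le_sum hs)
  rw [Finset.sum_const, nsmul_eq_mul] at h2
  have hcard : (((imgs G).card : ℕ) : ℝ) ≤ 4 := by exact_mod_cast ker_imgs_card_le G
  have h3 : (((imgs G).card : ℕ) : ℝ) * (B * (((per G : ℕ) : ℝ) ^ 2 * ∑ v, u v ^ 2))
      ≤ 4 * (B * (((per G : ℕ) : ℝ) ^ 2 * ∑ v, u v ^ 2)) :=
    mul_le_mul_of_nonneg_right hcard (by positivity)
  calc (((per G : ℕ) : ℝ) ^ 2)⁻¹ * _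
      ≤ (((per G : ℕ) : ℝ) ^ 2)⁻¹ * (4 * (B * (((per G : ℕ) : ℝ) ^ 2 * ∑ v, u v ^ 2))) :=
        mul_le_mul_of_nonneg_left (h2.trans h3) (by positivity)
    _ = 4 * B * ∑ v, u v ^ 2 := by
        field_simp

end Claimed.Agent.R285.Ker
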