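import Claimed.Agent.R285.Ker.Mul
import Claimed.Agent.R285.Ker.Kd

/-!
# ROW 285, [B] L4.1, leaf L41-QUAD: quadratic forms of operators with a multiplier  (cut by helper198)

FROM `Ker/Mul.lean`, `Ker/Chi2.lean`, `Ker/Fold.lean`.   `ftr G f k = ∑_{s ∈ imgs G} ∑_v f v χ_k (rf s (ι v))`.
PLAN.
* `ker_quad`: in `ℂ`.  For `s' ∈ imgs G`: `Γ v w = Γ (π (rf s' (ι v))) (π (ι w)) = gker G m (rf s' (ι v)) (ι w)` (`ker_pi_rf`, `ker_pi_iota`).  Average over `s' ∈ imgs G`: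
  `card · f ⬝ Γ f = ∑_{s'} ∑_{v,w} f v f w N⁻² ∑_s ∑_k m(λ_k) χ_k (rf s' ι v) conj (χ_k (rf s ι w)) = N⁻² ∑_k m(λ_k) ftr k conj (ftr k)` (`ker_chi_sub`; `Finset.sum_comm`, `Finset.mul_sum`, `Finset.sum_mul`,
  `map_sum`, `Complex.conj_ofReal`; `Complex.mul_conj`, `Complex.normSq_eq_norm_sq`).  `dotProduct`, `Matrix.mulVec` unfold to sums (`simp [dotProduct, Matrix.mulVec, Finset.mul_sum]`).
* `ker_quad_one` = `ker_quad (ker_mul_one G)` + `Matrix.one_mulVec`.     `mono`, `le`, `nonneg`: termwise (`Finset.sum_le_sum`, `mul_le_mul_of_nonneg_left/right`).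
* `ker_psd`: `Matrix.PosSemidef.of_dotProduct_mulVec_nonneg`, `IsHermitian` from `ker_mul_symm` (`Matrix.conjTranspose_eq_transpose_of_trivial`), `star x = x` (`star_trivial`).
* polynomial versions: `ker_cov_mul`, `ker_lam_nonneg`, `ker_lam_le`.
-/

set_option autoImplicit false

namespace Claimed.Agent.R285.Ker

open scoped BigOperators
open Polynomial
open Claimed.Agent.R285.RG

variable {G : Geom}

theorem ker_utr_prod (G : Geom) (f : G.V → ℝ) (s' s : Bool × Bool) (k : Fin (per G) × Fin (per G)) :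
    utr G f s' k * (starRingEnd ℂ) (utr G f s k)
      = ∑ v, ∑ w, ((f v : ℝ) : ℂ) * ((f w : ℝ) : ℂ) * chi (per G) k (rf s' (G.ι v) - rf s (G.ι w)) := by
  simp only [utr, map_sum, map_mul, Complex.conj_ofReal]
  rw [Finset.sum_mul_sum]
  refine Finset.sum_congr rfl fun v _ => Finset.sum_congr rfl fun w _ => ?_
  rw [ker_chi_sub]
  ring

theorem ker_ftr_eq (G : Geom) (f : G.V → ℝ) (k : Fin (per G) × Fin (per G)) :
    ftr G f k = ∑ s ∈ imgs G, utr G f s k := rfl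

theorem ker_quad_aux {Γ : Matrix G.V G.V ℝ} {m : ℝ → ℝ} (h : HasMul G Γ m) (f : G.V → ℝ) (s' : Bool × Bool)
    (hs' : s' ∈ imgs G) :
    ((f ⬝ᵥ Γ.mulVec f : ℝ) : ℂ) = (((per G : ℕ) : ℂ) ^ 2)⁻¹ * ∑ s ∈ imgs G, ∑ k : Fin (per G) × Fin (per G),
      ((m (lam (per G) k) : ℝ) : ℂ) * (utr G f s' k * (starRingEnd ℂ) (utr G f s k)) := by
  have h1 : f ⬝ᵥ Γ.mulVec f = ∑ v, ∑ w, f v * f w * Γ v w := by
    simp only [dotProduct, Matrix.mulVec, Finset.mul_sum]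
    refine Finset.sum_congr rfl fun v _ => Finset.sum_congr rfl fun w _ => ?_
    ring
  rw [h1]
  push_cast
  have h2 : ∀ v w : G.V, ((Γ v w : ℝ) : ℂ) = (((per G : ℕ) : ℂ) ^ 2)⁻¹ * ∑ s ∈ imgs G,
      ∑ k : Fin (per G) × Fin (per G), ((m (lam (per G) k) : ℝ) : ℂ) * chi (per G) k (rf s' (G.ι v) - rf s (G.ι w)) := by
    intro v w
    have := h (rf s' (G.ι v)) (G.ι w)
    rw [ker_pi_rf G s' hs', ker_pi_iota, ker_pi_iota] at this
    rw [this]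
    rfl
  simp only [h2, ker_utr_prod]
  exact ker_sum4 (imgs G) _ (fun v w => ((f v : ℝ) : ℂ) * ((f w : ℝ) : ℂ))
    (fun _ k => ((m (lam (per G) k) : ℝ) : ℂ))
    (fun s k v w => chi (per G) k (rf s' (G.ι v) - rf s (G.ι w)))

theorem ker_quad {Γ : Matrix G.V G.V ℝ} {m : ℝ → ℝ} (h : HasMul G Γ m) (f : G.V → ℝ) :
    f ⬝ᵥ Γ.mulVec f = (((imgs G).card : ℝ))⁻¹ * (((per G : ℕ) : ℝ) ^ 2)⁻¹ *
      ∑ k : Fin (per G) × Fin (per G), m (lam (per G) k) * ‖ftr G f k‖ ^ 2 := by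
  have hcard : (0 : ℝ) < ((imgs G).card : ℝ) := by exact_mod_cast ker_imgs_card_pos G
  have hsum : (((imgs G).card : ℝ) : ℂ) * ((f ⬝ᵥ Γ.mulVec f : ℝ) : ℂ)
      = (((((per G : ℕ) : ℝ) ^ 2)⁻¹ * ∑ k : Fin (per G) × Fin (per G), m (lam (per G) k) * ‖ftr G f k‖ ^ 2 : ℝ) : ℂ) := by
    have h1 : (((imgs G).card : ℝ) : ℂ) * ((f ⬝ᵥ Γ.mulVec f : ℝ) : ℂ)
        = ∑ _s' ∈ imgs G, ((f ⬝ᵥ Γ.mulVec f : ℝ) : ℂ) := by
      rw [Finset.sum_const, nsmul_eq_mul]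
      push_cast
      rfl
    rw [h1, Finset.sum_congr rfl (fun s' hs' => ker_quad_aux h f s' hs'), ← Finset.mul_sum]
    push_cast
    congr 1
    have h2 : ∀ k : Fin (per G) × Fin (per G), ((‖ftr G f k‖ : ℝ) : ℂ) ^ 2
        = ∑ s' ∈ imgs G, ∑ s ∈ imgs G, utr G f s' k * (starRingEnd ℂ) (utr G f s k) := by
      intro k
      rw [← Finset.sum_mul_sum, ← map_sum, ← ker_ftr_eq, Complex.mul_conj, Complex.normSq_eq_norm_sq]
      push_cast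
      rfl
    simp only [h2, Finset.mul_sum]
    calc ∑ s' ∈ imgs G, ∑ s ∈ imgs G, ∑ k : Fin (per G) × Fin (per G),
          ((m (lam (per G) k) : ℝ) : ℂ) * (utr G f s' k * (starRingEnd ℂ) (utr G f s k))
        = ∑ s' ∈ imgs G, ∑ k : Fin (per G) × Fin (per G), ∑ s ∈ imgs G,
          ((m (lam (per G) k) : ℝ) : ℂ) * (utr G f s' k * (starRingEnd ℂ) (utr G f s k)) :=
          Finset.sum_congr rfl fun s' _ => Finset.sum_comm
      _ = _ := Finset.sum_comm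
  have h3 : ((imgs G).card : ℝ) * (f ⬝ᵥ Γ.mulVec f)
      = (((per G : ℕ) : ℝ) ^ 2)⁻¹ * ∑ k : Fin (per G) × Fin (per G), m (lam (per G) k) * ‖ftr G f k‖ ^ 2 := by
    apply Complex.ofReal_injective
    rw [← hsum]
    push_cast
    rfl
  rw [mul_assoc, ← h3, inv_mul_cancel_left₀ hcard.ne']

theorem ker_quad_one (f : G.V → ℝ) :
    f ⬝ᵥ f = (((imgs G).card : ℝ))⁻¹ * (((per G : ℕ) : ℝ) ^ 2)⁻¹ * ∑ k : Fin (per G) × Fin (per G), ‖ftr G f k‖ ^ 2 := by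
  have h := ker_quad (ker_mul_one G) f
  rw [Matrix.one_mulVec] at h
  simpa using h

theorem ker_quad_pref_nonneg (G : Geom) : 0 ≤ (((imgs G).card : ℝ))⁻¹ * (((per G : ℕ) : ℝ) ^ 2)⁻¹ := by
  positivity

theorem ker_quad_mono {Γ Γ' : Matrix G.V G.V ℝ} {m m' : ℝ → ℝ} (h : HasMul G Γ m) (h' : HasMul G Γ' m')
    (hm : ∀ k, m (lam (per G) k) ≤ m' (lam (per G) k)) (f : G.V → ℝ) : f ⬝ᵥ Γ.mulVec f ≤ f ⬝ᵥ Γ'.mulVec f := by
  rw [ker_quad h, ker_quad h']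
  refine mul_le_mul_of_nonneg_left ?_ (ker_quad_pref_nonneg G)
  exact Finset.sum_le_sum fun k _ => mul_le_mul_of_nonneg_right (hm k) (by positivity)

theorem ker_quad_le {Γ : Matrix G.V G.V ℝ} {m : ℝ → ℝ} (h : HasMul G Γ m) (B : ℝ)
    (hm : ∀ k, m (lam (per G) k) ≤ B) (f : G.V → ℝ) : f ⬝ᵥ Γ.mulVec f ≤ B * (f ⬝ᵥ f) := by
  have h1 := ker_quad_mono h (ker_mul_smul B (ker_mul_one G)) (fun k => by simpa using hm k) f
  refine h1.trans (le_of_eq ?_)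
  rw [Matrix.smul_mulVec, Matrix.one_mulVec, dotProduct_smul, smul_eq_mul]

theorem ker_quad_nonneg {Γ : Matrix G.V G.V ℝ} {m : ℝ → ℝ} (h : HasMul G Γ m)
    (hm : ∀ k, 0 ≤ m (lam (per G) k)) (f : G.V → ℝ) : 0 ≤ f ⬝ᵥ Γ.mulVec f := by
  rw [ker_quad h]
  refine mul_nonneg (ker_quad_pref_nonneg G) ?_
  exact Finset.sum_nonneg fun k _ => mul_nonneg (hm k) (by positivity)

theorem ker_psd {Γ : Matrix G.V G.V ℝ} {m : ℝ → ℝ} (h : HasMul G Γ m)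
    (hm : ∀ k, 0 ≤ m (lam (per G) k)) : Γ.PosSemidef := by
  refine Matrix.PosSemidef.of_dotProduct_mulVec_nonneg ?_ ?_
  · rw [Matrix.IsHermitian, Matrix.conjTranspose_eq_transpose_of_trivial]
    exact ker_mul_symm h
  · intro x
    rw [star_trivial]
    exact ker_quad_nonneg h hm x

theorem ker_cov_psd (G : Geom) (P : ℝ[X]) (hP : ∀ x : ℝ, 0 ≤ x → x ≤ 8 → 0 ≤ P.eval x) : (cov G P).PosSemidef :=
  ker_psd (ker_cov_mul G P) fun k => hP _ (ker_lam_nonneg _ k) (ker_lam_le _ k)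

theorem ker_cov_mono (G : Geom) (P P' : ℝ[X]) (hP : ∀ x : ℝ, 0 ≤ x → x ≤ 8 → P.eval x ≤ P'.eval x) (f : G.V → ℝ) :
    f ⬝ᵥ (cov G P).mulVec f ≤ f ⬝ᵥ (cov G P').mulVec f :=
  ker_quad_mono (ker_cov_mul G P) (ker_cov_mul G P') (fun k => hP _ (ker_lam_nonneg _ k) (ker_lam_le _ k)) f

theorem ker_cov_le (G : Geom) (P : ℝ[X]) (B : ℝ) (hP : ∀ x : ℝ, 0 ≤ x → x ≤ 8 → P.eval x ≤ B) (f : G.V → ℝ) :
    f ⬝ᵥ (cov G P).mulVec f ≤ B * (f ⬝ᵥ f) :=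
  ker_quad_le (ker_cov_mul G P) B (fun k => hP _ (ker_lam_nonneg _ k) (ker_lam_le _ k)) f

end Claimed.Agent.R285.Ker
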