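import Claimed.Agent.R285.Ker.Defs

/-!
# ROW 285, [B] L4.1, leaf L41-LIN: calculus of iterated differences `difs`, `kdif`  (cut by helper198)

PLAN.  `difs a f = (List.ofFn a).foldr (fun i g => dif (dir i) g) f`.  First `ker_difs_nil` (`List.ofFn` of `Fin 0`, `simp [difs]`) and `ker_difs_succ` (`List.ofFn_succ`, `List.foldr_cons`).
All other statements: induction on `r` (generalising `a`, `f`, `x`) with these two; `Fin.prod_univ_succ` for `ker_difs_mult`.
* `ker_difs_map`: an additive map commutes with `dif`.  Special cases: `Complex.ofRealHom.toAddMonoidHom`, `AddMonoidHom.mulLeft c`.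
* `ker_difs_congr`: `difs a f x = difs (tail) f (x + e) - difs (tail) f x`; `sd x x' ≤ r + 1` whenever `sd (x + e) x' ≤ r` or `sd x x' ≤ r`.
* `kdif G a c Γ x y = difs a (fun x' => difs c (fun y' => Γ (π x') (π y')) y) x` by `rfl`.
-/

set_option autoImplicit false

namespace Claimed.Agent.R285.Ker

open scoped BigOperators
open Claimed.Agent.R285.RG

theorem ker_difs_nil {α : Type} [AddGroup α] (a : Fin 0 → Fin 4) (f : ℤ × ℤ → α) : difs a f = f := by
  simp [difs]

theorem ker_difs_succ {α : Type} [AddGroup α] {r : ℕ} (a : Fin (r + 1) → Fin 4) (f : ℤ × ℤ → α) :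
    difs a f = dif (dir (a 0)) (difs (fun i : Fin r => a i.succ) f) := by
  simp [difs, List.ofFn_succ]

theorem ker_difs_map {α β : Type} [AddGroup α] [AddGroup β] (φ : α →+ β) {r : ℕ} (a : Fin r → Fin 4) (f : ℤ × ℤ → α)
    (x : ℤ × ℤ) : φ (difs a f x) = difs a (fun x' => φ (f x')) x := by
  induction r generalizing x with
  | zero => simp [ker_difs_nil]
  | succ r ih =>
    rw [ker_difs_succ, ker_difs_succ]
    simp only [dif, map_sub, ih]

theorem ker_difs_ofReal {r : ℕ} (a : Fin r → Fin 4) (f : ℤ × ℤ → ℝ) (x : ℤ × ℤ) :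
    ((difs a f x : ℝ) : ℂ) = difs a (fun x' => ((f x' : ℝ) : ℂ)) x :=
  ker_difs_map Complex.ofRealHom.toAddMonoidHom a f x

theorem ker_difs_add {α : Type} [AddCommGroup α] {r : ℕ} (a : Fin r → Fin 4) (f g : ℤ × ℤ → α) (x : ℤ × ℤ) :
    difs a (fun x' => f x' + g x') x = difs a f x + difs a g x := by
  induction r generalizing x with
  | zero => simp [ker_difs_nil]
  | succ r ih =>
    rw [ker_difs_succ, ker_difs_succ, ker_difs_succ]
    simp only [dif, ih]
    abel

theorem ker_difs_zero {α : Type} [AddGroup α] {r : ℕ} (a : Fin r → Fin 4) (x : ℤ × ℤ) :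
    difs a (fun _ => (0 : α)) x = 0 := by
  induction r generalizing x with
  | zero => simp [ker_difs_nil]
  | succ r ih =>
    rw [ker_difs_succ]
    simp only [dif, ih, sub_zero]

theorem ker_difs_sum {α ι : Type} [AddCommGroup α] (s : Finset ι) {r : ℕ} (a : Fin r → Fin 4) (f : ι → ℤ × ℤ → α)
    (x : ℤ × ℤ) : difs a (fun x' => ∑ i ∈ s, f i x') x = ∑ i ∈ s, difs a (f i) x := by
  classical
  induction s using Finset.induction_on with
  | empty => simp [ker_difs_zero]
  | insert i s hi ih =>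
    simp only [Finset.sum_insert hi]
    rw [ker_difs_add, ih]

theorem ker_difs_mul_left {r : ℕ} (a : Fin r → Fin 4) (c : ℂ) (f : ℤ × ℤ → ℂ) (x : ℤ × ℤ) :
    difs a (fun x' => c * f x') x = c * difs a f x :=
  (ker_difs_map (AddMonoidHom.mulLeft c) a f x).symm

/-- differences of a function which is multiplied by `w e` under the step `dir e` -/
theorem ker_difs_mult {r : ℕ} (a : Fin r → Fin 4) (f : ℤ × ℤ → ℂ) (w : Fin 4 → ℂ)
    (h : ∀ x e, f (x + dir e) = w e * f x) (x : ℤ × ℤ) : difs a f x = (∏ i, (w (a i) - 1)) * f x := by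
  induction r generalizing x with
  | zero => simp [ker_difs_nil]
  | succ r ih =>
    rw [ker_difs_succ]
    simp only [dif, ih, h, Fin.prod_univ_succ]
    ring

theorem ker_sd_step (x x' : ℤ × ℤ) (e : Fin 4) : sd x x' ≤ sd (x + dir e) x' + 1 := by
  fin_cases e <;> simp [sd, dir] <;> omega

/-- `difs a f x` only depends on `f` in the ball of radius `r` -/
theorem ker_difs_congr {α : Type} [AddGroup α] {r : ℕ} (a : Fin r → Fin 4) (f g : ℤ × ℤ → α) (x : ℤ × ℤ)
    (h : ∀ x', sd x x' ≤ r → f x' = g x') : difs a f x = difs a g x := by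
  induction r generalizing x with
  | zero =>
    rw [ker_difs_nil, ker_difs_nil]
    exact h x (by simp [sd])
  | succ r ih =>
    rw [ker_difs_succ, ker_difs_succ]
    simp only [dif]
    rw [ih _ (x + dir (a 0)) fun x' hx' => h x' ((ker_sd_step x x' (a 0)).trans (by omega)),
      ih _ x fun x' hx' => h x' (by omega)]

theorem ker_kdif_nil (G : Geom) (a c : Fin 0 → Fin 4) (Γ : Matrix G.V G.V ℝ) (x y : ℤ × ℤ) :
    kdif G a c Γ x y = Γ (G.π x) (G.π y) := by
  simp [kdif, ker_difs_nil]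

theorem ker_kdif_sum (G : Geom) {ι : Type} (s : Finset ι) {r r' : ℕ} (a : Fin r → Fin 4) (c : Fin r' → Fin 4)
    (Γ : ι → Matrix G.V G.V ℝ) (x y : ℤ × ℤ) : kdif G a c (∑ i ∈ s, Γ i) x y = ∑ i ∈ s, kdif G a c (Γ i) x y := by
  simp only [kdif, Matrix.sum_apply, ker_difs_sum]

theorem ker_kdif_zero (G : Geom) {r r' : ℕ} (a : Fin r → Fin 4) (c : Fin r' → Fin 4) (Γ : Matrix G.V G.V ℝ) (x y : ℤ × ℤ)
    (h : ∀ x' y', sd x x' ≤ r → sd y y' ≤ r' → Γ (G.π x') (G.π y') = 0) : kdif G a c Γ x y = 0 := by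
  unfold kdif
  rw [ker_difs_congr a _ (fun _ => (0 : ℝ)) x, ker_difs_zero]
  intro x' hx'
  rw [ker_difs_congr c _ (fun _ => (0 : ℝ)) y, ker_difs_zero]
  intro y' hy'
  exact h x' y' hx' hy'

end Claimed.Agent.R285.Ker
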