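import Claimed.Agent.R285.Ker.Met
import Claimed.Agent.R285.Ker.Lin

/-!
# ROW 285, [B] L4.1, leaf L41-RANGE: finite range of polynomials of the Laplacian  (cut by helper198)

FROM `Ker/Met.lean` (`ker_dist_le`, `ker_dist_triangle`, `ker_sd_*`), `Ker/Fold.lean` (`ker_pi_iota`), `Ker/Lin.lean` (`ker_kdif_zero`).
PLAN.
* `ker_dist_self`: `dist v v = dist (π (ι v)) (π (ι v)) ≤ sd (ι v) (ι v) = 0`.
* `ker_lap_range`: if `v ≠ w` and no `e` has `π (ι v + dir e) = w`, all the summands of `lap G v w` vanish.  Otherwise `dist v w = dist (π (ι v)) (π (ι v + dir e)) ≤ sd .. = 1`.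
* `ker_lap_pow_range`: induction on `n`; `pow_succ'`, `Matrix.mul_apply`, `Finset.exists_ne_zero_of_sum_ne_zero`, `ker_dist_triangle`.  `n = 0`: `Matrix.one_apply`.
* `ker_cov_range`: `cov G P = ∑_{i ≤ natDegree} coeff i • lap ^ i` (`Polynomial.aeval_eq_sum_range`), `Matrix.sum_apply`, every term vanishes.
* `ker_kdif_range`: `ker_kdif_zero`; `dist (π x) (π y) ≤ dist (π x) (π x') + dist (π x') (π y') + dist (π y') (π y) ≤ r + dist (π x') (π y') + r'` (`ker_sd_comm`).
-/

set_option autoImplicit false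

namespace Claimed.Agent.R285.Ker

open scoped BigOperators
open Polynomial
open Claimed.Agent.R285.RG

theorem ker_dist_self (G : Geom) (v : G.V) : G.dist v v = 0 := by
  have := ker_dist_le G (G.ι v) (G.ι v)
  rw [ker_pi_iota, ker_sd_self] at this
  omega

theorem ker_lap_range (G : Geom) (v w : G.V) (h : lap G v w ≠ 0) : G.dist v w ≤ 1 := by
  by_cases hvw : v = w
  · subst hvw; rw [ker_dist_self]; omega
  by_cases he : ∃ e : Fin 4, G.π (G.ι v + dir e) = w
  · obtain ⟨e, he⟩ := he
    have := ker_dist_le G (G.ι v) (G.ι v + dir e)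
    rw [ker_pi_iota, he, ker_sd_dir] at this
    exact this
  · exfalso
    apply h
    push Not at he
    unfold lap
    apply Finset.sum_eq_zero
    intro e _
    rw [if_neg hvw, if_neg (he e), sub_zero]

theorem ker_lap_pow_range (G : Geom) (n : ℕ) (v w : G.V) (h : (lap G ^ n) v w ≠ 0) : G.dist v w ≤ n := by
  induction n generalizing v w with
  | zero =>
    rw [pow_zero, Matrix.one_apply] at h
    by_cases hvw : v = w
    · subst hvw; rw [ker_dist_self]
    · rw [if_neg hvw] at h; exact absurd rfl h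
  | succ n ih =>
    rw [pow_succ', Matrix.mul_apply] at h
    obtain ⟨u, _, hu⟩ := Finset.exists_ne_zero_of_sum_ne_zero h
    have h1 := ker_lap_range G v u (left_ne_zero_of_mul hu)
    have h2 := ih u w (right_ne_zero_of_mul hu)
    have := ker_dist_triangle G v u w
    omega

theorem ker_cov_range (G : Geom) (P : ℝ[X]) : FinRange (cov G P) P.natDegree := by
  intro v w hd
  unfold cov
  rw [Polynomial.aeval_eq_sum_range, Matrix.sum_apply]
  apply Finset.sum_eq_zero
  intro i hi
  rw [Finset.mem_range] at hi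
  rw [Matrix.smul_apply]
  by_contra hne
  have := ker_lap_pow_range G i v w (right_ne_zero_of_smul hne)
  omega

theorem ker_cov_range_le (G : Geom) (P : ℝ[X]) (ρ : ℕ) (h : P.natDegree ≤ ρ) : FinRange (cov G P) ρ :=
  fun v w hd => ker_cov_range G P v w (lt_of_le_of_lt h hd)

theorem ker_kdif_range (G : Geom) (Γ : Matrix G.V G.V ℝ) (ρ : ℕ) (h : FinRange Γ ρ) {r r' : ℕ} (a : Fin r → Fin 4)
    (c : Fin r' → Fin 4) (x y : ℤ × ℤ) (hd : ρ + r + r' < G.dist (G.π x) (G.π y)) : kdif G a c Γ x y = 0 := by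
  apply ker_kdif_zero
  intro x' y' hx hy
  apply h
  have h1 := ker_dist_le G x x'
  have h2 := ker_dist_le G y' y
  rw [ker_sd_comm] at h2
  have h3 := ker_dist_triangle G (G.π x) (G.π x') (G.π y)
  have h4 := ker_dist_triangle G (G.π x') (G.π y') (G.π y)
  omega

end Claimed.Agent.R285.Ker
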