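import Claimed.Agent.R285.Ker.Defs

/-!
# ROW 285, [B] L4.1, leaf L41-SUM: the master sum `N⁻² ∑_k t² / (1 + t² λ_k)² ≤ C`, `1 ≤ t ≤ N`  (cut by helper198)

Mathlib only.  NO integrals.
PLAN.
* `ker_lam1_lower`: `i = min j (N - j)`, `θ = π i / N ∈ [0, π/2]`, `sin (π j / N) = sin θ` (`Real.sin_pi_sub` if `i = N - j`), `sin θ ≥ (2/π) θ = 2 i / N` (`Real.mul_le_sin`): `lam1 ≥ 16 i²/N²`.
* `ker_lam1_upper`: `|sin θ| ≤ |θ|` (`Real.sin_le`, `θ ≥ 0`; `Real.sin_nonneg_of_nonneg_of_le_pi`).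
* `ker_tel`: for `a > 0`: `1/(1 + a² i²) ≤ 2/(1 + a i)² ≤ g (i-1) - g i`, `g i = 2/(a (1 + a i))`, for `i ≥ 1`; telescoping: `∑_{i=1}^{K} 1/(1 + a² i²) ≤ g 0 = 2/a` (induction on `K`: prove `∑ ≤ 2/a - g K`).
* `ker_sum1`, `C = 4` works: with `a = 4 t / N`: `t/(1 + t² lam1 j) ≤ t/(1 + a² i(j)²)`, `i(j) = min j (N - j)`.  Every value `i ≥ 1` is taken by at most two `j`, `i = 0` only by `j = 0`.  Cleanest: split `Fin N` into `j ≤ N - j` and `j > N - j`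
  (`Finset.sum_filter_add_sum_filter_not`), inject each part into `range (N + 1)` by `j ↦ j`, resp. `j ↦ N - j` (`Finset.sum_le_sum_of_injOn`‑type / `Finset.sum_image` + `Finset.sum_le_sum_of_subset_of_nonneg`):
  each part `≤ t + t · 2/a = t + N/2 ≤ (3/2) N`.
* `ker_master`: `(1 + t² (α + β))² ≥ (1 + t² α)(1 + t² β)` for `α, β ≥ 0`, so the summand is `≤ [t/(1 + t² lam1 k₁)] [t/(1 + t² lam1 k₂)]`; `Fintype.sum_prod_type`, `Finset.sum_mul_sum`; `C = C₁²`.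
-/

set_option autoImplicit false

namespace Claimed.Agent.R285.Ker

open scoped BigOperators
open Claimed.Agent.R285.RG

theorem ker_lam1_lower (N : ℕ) (j : Fin N) :
    16 * ((min (j : ℕ) (N - (j : ℕ)) : ℕ) : ℝ) ^ 2 / (N : ℝ) ^ 2 ≤ lam1 N j := by
  have hN : (0 : ℝ) < (N : ℝ) := by
    have := Fin.pos j
    exact_mod_cast this
  have hj := j.2
  set i : ℕ := min (j : ℕ) (N - (j : ℕ)) with hi
  have h2i : 2 * i ≤ N := by omega
  have h2i' : 2 * (i : ℝ) ≤ (N : ℝ) := by exact_mod_cast h2i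
  have hsin : Real.sin (Real.pi * ((j : ℕ) : ℝ) / (N : ℝ)) = Real.sin (Real.pi * (i : ℝ) / (N : ℝ)) := by
    rcases le_total (j : ℕ) (N - (j : ℕ)) with h | h
    · rw [hi, min_eq_left h]
    · rw [hi, min_eq_right h, Nat.cast_sub hj.le]
      have e : Real.pi * ((N : ℝ) - ((j : ℕ) : ℝ)) / (N : ℝ) = Real.pi - Real.pi * ((j : ℕ) : ℝ) / (N : ℝ) := by
        field_simp
      rw [e, Real.sin_pi_sub]
  have h1 : 2 / Real.pi * (Real.pi * (i : ℝ) / (N : ℝ)) ≤ Real.sin (Real.pi * (i : ℝ) / (N : ℝ)) := by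
    apply Real.mul_le_sin
    · positivity
    · rw [div_le_div_iff₀ hN (by norm_num)]
      nlinarith [Real.pi_pos]
  have e2 : 2 / Real.pi * (Real.pi * (i : ℝ) / (N : ℝ)) = 2 * (i : ℝ) / (N : ℝ) := by
    have := Real.pi_pos.ne'
    field_simp
  rw [e2] at h1
  unfold lam1
  rw [hsin]
  have h3 : (2 * (i : ℝ) / (N : ℝ)) ^ 2 ≤ Real.sin (Real.pi * (i : ℝ) / (N : ℝ)) ^ 2 :=
    pow_le_pow_left₀ (by positivity) h1 2
  calc 16 * (i : ℝ) ^ 2 / (N : ℝ) ^ 2 = 4 * (2 * (i : ℝ) / (N : ℝ)) ^ 2 := by ring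
    _ ≤ _ := by linarith

theorem ker_lam1_upper (N : ℕ) (j : Fin N) : lam1 N j ≤ 4 * Real.pi ^ 2 * ((j : ℕ) : ℝ) ^ 2 / (N : ℝ) ^ 2 := by
  have hN : (0 : ℝ) < (N : ℝ) := by
    have := Fin.pos j
    exact_mod_cast this
  have hjN : ((j : ℕ) : ℝ) ≤ (N : ℝ) := by exact_mod_cast j.2.le
  have h0 : 0 ≤ Real.pi * ((j : ℕ) : ℝ) / (N : ℝ) := by positivity
  have h1 : Real.pi * ((j : ℕ) : ℝ) / (N : ℝ) ≤ Real.pi := by
    rw [div_le_iff₀ hN]
    exact mul_le_mul_of_nonneg_left hjN Real.pi_pos.le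
  have h2 := Real.sin_le h0
  have h3 := Real.sin_nonneg_of_nonneg_of_le_pi h0 h1
  unfold lam1
  have h4 : Real.sin (Real.pi * ((j : ℕ) : ℝ) / (N : ℝ)) ^ 2 ≤ (Real.pi * ((j : ℕ) : ℝ) / (N : ℝ)) ^ 2 :=
    pow_le_pow_left₀ h3 h2 2
  calc 4 * Real.sin (Real.pi * ((j : ℕ) : ℝ) / (N : ℝ)) ^ 2 ≤ 4 * (Real.pi * ((j : ℕ) : ℝ) / (N : ℝ)) ^ 2 := by linarith
    _ = _ := by ring

theorem ker_tel_aux (a : ℝ) (ha : 0 < a) (K : ℕ) :
    ∑ i ∈ Finset.Ico 1 (K + 1), 1 / (1 + a ^ 2 * (i : ℝ) ^ 2) ≤ 2 / a - 2 / (a * (1 + a * (K : ℝ))) := by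
  induction K with
  | zero => simp
  | succ K ih =>
    rw [Finset.sum_Ico_succ_top (by omega)]
    have hK : (0 : ℝ) ≤ (K : ℝ) := by positivity
    have key : 1 / (1 + a ^ 2 * ((K + 1 : ℕ) : ℝ) ^ 2)
        ≤ 2 / (a * (1 + a * (K : ℝ))) - 2 / (a * (1 + a * ((K + 1 : ℕ) : ℝ))) := by
      push_cast
      have e : 2 / (a * (1 + a * (K : ℝ))) - 2 / (a * (1 + a * ((K : ℝ) + 1)))
          = 2 / ((1 + a * (K : ℝ)) * (1 + a * ((K : ℝ) + 1))) := by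
        have h1 : 1 + a * (K : ℝ) ≠ 0 := by positivity
        have h2 : 1 + a * ((K : ℝ) + 1) ≠ 0 := by positivity
        field_simp
        ring
      rw [e, div_le_div_iff₀ (by positivity) (by positivity)]
      nlinarith [sq_nonneg (1 - a * ((K : ℝ) + 1)), mul_nonneg ha.le hK, mul_pos ha ha]
    linarith

theorem ker_tel (a : ℝ) (ha : 0 < a) (K : ℕ) :
    ∑ i ∈ Finset.Ico 1 (K + 1), 1 / (1 + a ^ 2 * (i : ℝ) ^ 2) ≤ 2 / a := by
  have h := ker_tel_aux a ha K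
  have : 0 ≤ 2 / (a * (1 + a * (K : ℝ))) := by positivity
  linarith

theorem ker_sum1_aux (N t : ℕ) (ht : 1 ≤ t) (htN : t ≤ N) :
    ∑ j : Fin N, (t : ℝ) / (1 + (t : ℝ) ^ 2 * lam1 N j) ≤ 2 * (N : ℝ) := by
  have hN : (0 : ℝ) < (N : ℝ) := by
    have : 0 < N := by omega
    exact_mod_cast this
  have ht' : (0 : ℝ) < (t : ℝ) := by exact_mod_cast ht
  have htN' : (t : ℝ) ≤ (N : ℝ) := by exact_mod_cast htN
  set a : ℝ := 4 * (t : ℝ) / (N : ℝ) with ha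
  have ha0 : 0 < a := by positivity
  set h : ℕ → ℝ := fun i => 1 / (1 + a ^ 2 * (i : ℝ) ^ 2) with hh
  have hpos : ∀ i, 0 ≤ h i := fun i => by simp only [hh]; positivity
  have b1 : ∀ j : Fin N, (t : ℝ) / (1 + (t : ℝ) ^ 2 * lam1 N j) ≤ (t : ℝ) * (h (j : ℕ) + h (N - (j : ℕ))) := by
    intro j
    have l1 := ker_lam1_lower N j
    have l2 : (t : ℝ) / (1 + (t : ℝ) ^ 2 * lam1 N j) ≤ (t : ℝ) * h (min (j : ℕ) (N - (j : ℕ))) := by
      simp only [hh]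
      rw [mul_one_div]
      apply div_le_div_of_nonneg_left ht'.le (by positivity)
      have : a ^ 2 * ((min (j : ℕ) (N - (j : ℕ)) : ℕ) : ℝ) ^ 2
          = (t : ℝ) ^ 2 * (16 * ((min (j : ℕ) (N - (j : ℕ)) : ℕ) : ℝ) ^ 2 / (N : ℝ) ^ 2) := by
        rw [ha]; ring
      rw [this]
      have := mul_le_mul_of_nonneg_left l1 (sq_nonneg (t : ℝ))
      linarith
    refine l2.trans (mul_le_mul_of_nonneg_left ?_ ht'.le)
    rcases le_total (j : ℕ) (N - (j : ℕ)) with hm | hm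
    · rw [min_eq_left hm]; linarith [hpos (N - (j : ℕ))]
    · rw [min_eq_right hm]; linarith [hpos (j : ℕ)]
  have s1 : ∑ j : Fin N, h (j : ℕ) ≤ 1 + 2 / a := by
    rw [Fin.sum_univ_eq_sum_range h N]
    obtain ⟨n, rfl⟩ : ∃ n, N = n + 1 := ⟨N - 1, by omega⟩
    rw [Finset.sum_range_succ']
    have := ker_tel a ha0 n
    rw [Finset.sum_Ico_eq_sum_range] at this
    have e : ∑ k ∈ Finset.range n, h (k + 1) = ∑ k ∈ Finset.range (n + 1 - 1), 1 / (1 + a ^ 2 * ((1 + k : ℕ) : ℝ) ^ 2) := by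
      simp only [hh, Nat.add_sub_cancel]
      apply Finset.sum_congr rfl
      intro k _
      rw [add_comm k 1]
    rw [e]
    have h0 : h 0 = 1 := by simp [hh]
    rw [h0]
    linarith
  have s2 : ∑ j : Fin N, h (N - (j : ℕ)) ≤ 2 / a := by
    rw [Fin.sum_univ_eq_sum_range (fun j => h (N - j)) N]
    have := ker_tel a ha0 N
    rw [Finset.sum_Ico_eq_sum_range, Nat.add_sub_cancel] at this
    rw [← Finset.sum_range_reflect] at this
    refine le_trans (le_of_eq ?_) this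
    apply Finset.sum_congr rfl
    intro k hk
    rw [Finset.mem_range] at hk
    simp only [hh]
    have : 1 + (N - 1 - k) = N - k := by omega
    rw [this]
  calc ∑ j : Fin N, (t : ℝ) / (1 + (t : ℝ) ^ 2 * lam1 N j)
      ≤ ∑ j : Fin N, (t : ℝ) * (h (j : ℕ) + h (N - (j : ℕ))) := Finset.sum_le_sum fun j _ => b1 j
    _ = (t : ℝ) * (∑ j : Fin N, h (j : ℕ) + ∑ j : Fin N, h (N - (j : ℕ))) := by
        rw [← Finset.mul_sum, Finset.sum_add_distrib]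
    _ ≤ (t : ℝ) * (1 + 2 / a + 2 / a) := mul_le_mul_of_nonneg_left (by linarith) ht'.le
    _ = (t : ℝ) + (N : ℝ) := by
        rw [ha]; field_simp; ring
    _ ≤ 2 * N := by linarith

theorem ker_sum1 : ∃ C : ℝ, 0 ≤ C ∧ ∀ N t : ℕ, 1 ≤ t → t ≤ N →
    ∑ j : Fin N, (t : ℝ) / (1 + (t : ℝ) ^ 2 * lam1 N j) ≤ C * N :=
  ⟨2, by norm_num, ker_sum1_aux⟩

theorem ker_lam1_nonneg' (N : ℕ) (j : Fin N) : 0 ≤ lam1 N j := by
  unfold lam1; positivity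

theorem ker_master : ∃ C : ℝ, 0 ≤ C ∧ ∀ N t : ℕ, 1 ≤ t → t ≤ N →
    ((N : ℝ) ^ 2)⁻¹ * ∑ k : Fin N × Fin N, (t : ℝ) ^ 2 / (1 + (t : ℝ) ^ 2 * lam N k) ^ 2 ≤ C := by
  refine ⟨4, by norm_num, fun N t ht htN => ?_⟩
  have hN : (0 : ℝ) < (N : ℝ) := by
    have : 0 < N := by omega
    exact_mod_cast this
  have h1 := ker_sum1_aux N t ht htN
  have hnn : 0 ≤ ∑ j : Fin N, (t : ℝ) / (1 + (t : ℝ) ^ 2 * lam1 N j) := by
    apply Finset.sum_nonneg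
    intro j _
    have := ker_lam1_nonneg' N j
    positivity
  have h2 : ∑ k : Fin N × Fin N, (t : ℝ) ^ 2 / (1 + (t : ℝ) ^ 2 * lam N k) ^ 2
      ≤ (∑ j : Fin N, (t : ℝ) / (1 + (t : ℝ) ^ 2 * lam1 N j)) * (∑ j : Fin N, (t : ℝ) / (1 + (t : ℝ) ^ 2 * lam1 N j)) := by
    rw [Finset.sum_mul_sum, Fintype.sum_prod_type]
    apply Finset.sum_le_sum
    intro k1 _
    apply Finset.sum_le_sum
    intro k2 _
    have a1 := ker_lam1_nonneg' N k1
    have a2 := ker_lam1_nonneg' N k2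
    rw [div_mul_div_comm, ← sq]
    apply div_le_div_of_nonneg_left (by positivity) (by positivity)
    simp only [lam]
    have : 0 ≤ (t : ℝ) ^ 2 := sq_nonneg _
    nlinarith [mul_nonneg this a1, mul_nonneg this a2, mul_nonneg (mul_nonneg this a1) (mul_nonneg this a2)]
  rw [inv_mul_le_iff₀ (by positivity)]
  calc _ ≤ _ := h2
    _ ≤ (2 * N) * (2 * N) := mul_le_mul h1 h1 hnn (by positivity)
    _ = _ := by ring

end Claimed.Agent.R285.Ker
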