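import Claimed.Agent.R285.Ker.Sym2

/-!
# ROW 285, [B] L4.1, leaf L41-SYM3: the multipliers against the summable majorant `t² / (1 + t² x)²`  (cut by helper198)

FROM `Ker/Sym2.lean`, `Ker/Sym1.lean`.  Pure algebra in `y = t² x ≥ 0`.  If `cmax < 16` the statements are vacuous (`16 ≤ F.c ≤ cmax`); `0 < b0 ≤ b1` from `hF.bd 0`.
PLAN.
* `ker_piece_sym`, `C = 256 b1 (2 cmax)^32`.  `H = (F.shellP t (2t)).eval x ≥ 0`.  Claim `H (1 + y)^8 ≤ C t²`:  `y ≤ 1`: `H ≤ b1 t²`, `(1+y)^8 ≤ 256`, `1 ≤ (2cmax)^32`.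
  `y > 1` (so `x > 0`): `H x (y/(2c))^32 ≤ b1`, i.e. `H y^33 ≤ b1 (2c)^32 t²`; `(1+y)^8 ≤ 256 y^8 ≤ 256 y^33`.
  Then `(√x)^s t^s = (√y)^s ≤ (1+y)^6` for `s ≤ 12` (`√y ≤ √(1+y)`, `(√(1+y))^s ≤ (√(1+y))^12 = (1+y)^6`, `Real.sq_sqrt`), so `H (√x)^s t^s (1+y)² ≤ H (1+y)^8 ≤ C t²`; divide (`div_le_iff₀`, `field_simp`).
* `ker_tm_sym`, `2 ≤ s ≤ 12`: `x = 0`: LHS `= 0`.  `x > 0`: `tm (√x)^s = pref qq_u (√x)^{s-2}` (`(√x)² = x`), `(√x)^{s-2} u^{s-2} = (√y)^{s-2} ≤ (1+y)^5`; `qq_u (1+y)^7 ≤ 128 (2cmax)^32`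
  (`y ≤ 1`: `qq ≤ 1`; `y > 1`: `qq (y/(2c))^32 ≤ 1`, `(1+y)^7 ≤ 128 y^7 ≤ 128 y^32`).  `C = 128 b1 (2cmax)^32`.
-/

set_option autoImplicit false

namespace Claimed.Agent.R285.Ker

open scoped BigOperators
open Polynomial
open Claimed.Agent.R285.RG

theorem ker_sqrt_pow_le (x : ℝ) (h0 : 0 ≤ x) (t : ℝ) (ht : 0 ≤ t) (s n : ℕ) (hs : s ≤ 2 * n) :
    Real.sqrt x ^ s * t ^ s ≤ (1 + t ^ 2 * x) ^ n := by
  have hy : 0 ≤ t ^ 2 * x := by positivity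
  have ha : 0 ≤ Real.sqrt x * t := by positivity
  have ha2 : (Real.sqrt x * t) ^ 2 = t ^ 2 * x := by
    rw [mul_pow, Real.sq_sqrt h0]; ring
  have hm2 : Real.sqrt (1 + t ^ 2 * x) ^ 2 = 1 + t ^ 2 * x := Real.sq_sqrt (by positivity)
  have hm1 : 1 ≤ Real.sqrt (1 + t ^ 2 * x) := by
    rw [Real.one_le_sqrt]
    linarith
  have ham : Real.sqrt x * t ≤ Real.sqrt (1 + t ^ 2 * x) := by
    apply Real.le_sqrt_of_sq_le
    rw [ha2]
    linarith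
  calc Real.sqrt x ^ s * t ^ s = (Real.sqrt x * t) ^ s := (mul_pow _ _ _).symm
    _ ≤ Real.sqrt (1 + t ^ 2 * x) ^ s := pow_le_pow_left₀ ha ham s
    _ ≤ Real.sqrt (1 + t ^ 2 * x) ^ (2 * n) := pow_le_pow_right₀ hm1 hs
    _ = (1 + t ^ 2 * x) ^ n := by rw [pow_mul, hm2]

/-- `(1 + y)^n ≤ 2^n y^m` for `1 ≤ y`, `n ≤ m`. -/
theorem ker_one_add_pow_le (y : ℝ) (hy : 1 ≤ y) (n m : ℕ) (hnm : n ≤ m) :
    (1 + y) ^ n ≤ 2 ^ n * y ^ m := by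
  calc (1 + y) ^ n ≤ (2 * y) ^ n := pow_le_pow_left₀ (by linarith) (by linarith) n
    _ = 2 ^ n * y ^ n := mul_pow _ _ _
    _ ≤ 2 ^ n * y ^ m := mul_le_mul_of_nonneg_left (pow_le_pow_right₀ hy hnm) (by positivity)

theorem ker_piece_sym (b0 b1 cmax : ℝ) (d : ℕ) : ∃ C : ℝ, 0 ≤ C ∧ ∀ F : Fam, F.Adm b0 b1 d → F.c ≤ cmax →
    ∀ t : ℕ, 1 ≤ t → ∀ x : ℝ, 0 ≤ x → x ≤ 8 → ∀ s : ℕ, s ≤ 12 →
      |(F.shellP t (2 * t)).eval x| * Real.sqrt x ^ s ≤ C * ((t : ℝ) ^ s)⁻¹ * ((t : ℝ) ^ 2 / (1 + (t : ℝ) ^ 2 * x) ^ 2) := by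
  refine ⟨256 * |b1| * (2 * cmax) ^ 32, by positivity, ?_⟩
  intro F hF hc t ht x h0 h8 s hs
  have hb1 := ker_b1_pos hF
  rw [abs_of_pos hb1]
  have hc0 : 0 < F.c := by linarith [hF.c_ge]
  have hcm : 16 ≤ cmax := hF.c_ge.trans hc
  have ht0 : (0 : ℝ) < t := by positivity
  have hH := ker_piece_nonneg hF t ht x h0 h8
  rw [abs_of_nonneg hH]
  set H := (F.shellP t (2 * t)).eval x with hHdef
  set y := (t : ℝ) ^ 2 * x with hy
  have hy0 : 0 ≤ y := by positivity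
  have hK1 : (1 : ℝ) ≤ (2 * cmax) ^ 32 := one_le_pow₀ (by linarith)
  have hA : H * (1 + y) ^ 8 ≤ 256 * b1 * (2 * cmax) ^ 32 * (t : ℝ) ^ 2 := by
    rcases le_or_gt y 1 with h1 | h1
    · have h2 := ker_piece_le hF t ht x h0 h8
      have h3 : (1 + y) ^ 8 ≤ 256 := by
        calc (1 + y) ^ 8 ≤ 2 ^ 8 := pow_le_pow_left₀ (by linarith) (by linarith) 8
          _ = 256 := by norm_num
      calc H * (1 + y) ^ 8 ≤ (b1 * (t : ℝ) ^ 2) * 256 :=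
            mul_le_mul h2 h3 (by positivity) (by positivity)
        _ = 256 * b1 * 1 * (t : ℝ) ^ 2 := by ring
        _ ≤ 256 * b1 * (2 * cmax) ^ 32 * (t : ℝ) ^ 2 := by
            refine mul_le_mul_of_nonneg_right ?_ (by positivity)
            exact mul_le_mul_of_nonneg_left hK1 (by positivity)
    · have h2 := ker_piece_decay hF t ht x h0 h8
      have h3 : H * y ^ 33 ≤ b1 * (2 * cmax) ^ 32 * (t : ℝ) ^ 2 := by
        have e : H * y ^ 33 = (H * x * (y / (2 * F.c)) ^ 32) * ((2 * F.c) ^ 32 * (t : ℝ) ^ 2) := by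
          rw [div_pow, hy]
          field_simp
        rw [e]
        calc (H * x * (y / (2 * F.c)) ^ 32) * ((2 * F.c) ^ 32 * (t : ℝ) ^ 2)
            ≤ b1 * ((2 * F.c) ^ 32 * (t : ℝ) ^ 2) := mul_le_mul_of_nonneg_right h2 (by positivity)
          _ ≤ b1 * ((2 * cmax) ^ 32 * (t : ℝ) ^ 2) := by
              refine mul_le_mul_of_nonneg_left ?_ hb1.le
              refine mul_le_mul_of_nonneg_right ?_ (by positivity)
              exact pow_le_pow_left₀ (by positivity) (by linarith) 32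
          _ = _ := by ring
      have h4 := ker_one_add_pow_le y h1.le 8 33 (by norm_num)
      calc H * (1 + y) ^ 8 ≤ H * (2 ^ 8 * y ^ 33) := mul_le_mul_of_nonneg_left h4 hH
        _ = 256 * (H * y ^ 33) := by ring
        _ ≤ 256 * (b1 * (2 * cmax) ^ 32 * (t : ℝ) ^ 2) := by linarith
        _ = _ := by ring
  have hB := ker_sqrt_pow_le x h0 (t : ℝ) ht0.le s 6 (by omega)
  have e : 256 * b1 * (2 * cmax) ^ 32 * ((t : ℝ) ^ s)⁻¹ * ((t : ℝ) ^ 2 / (1 + y) ^ 2) =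
      (256 * b1 * (2 * cmax) ^ 32 * (t : ℝ) ^ 2) / ((t : ℝ) ^ s * (1 + y) ^ 2) := by
    field_simp
  rw [e, le_div_iff₀ (by positivity)]
  calc H * Real.sqrt x ^ s * ((t : ℝ) ^ s * (1 + y) ^ 2)
      = H * (Real.sqrt x ^ s * (t : ℝ) ^ s) * (1 + y) ^ 2 := by ring
    _ ≤ H * (1 + y) ^ 6 * (1 + y) ^ 2 := by
        refine mul_le_mul_of_nonneg_right ?_ (by positivity)
        exact mul_le_mul_of_nonneg_left hB hH
    _ = H * (1 + y) ^ 8 := by ring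
    _ ≤ _ := hA

theorem ker_tm_sym (b0 b1 cmax : ℝ) (d : ℕ) : ∃ C : ℝ, 0 ≤ C ∧ ∀ F : Fam, F.Adm b0 b1 d → F.c ≤ cmax →
    ∀ u : ℕ, 1 ≤ u → ∀ x : ℝ, 0 ≤ x → x ≤ 8 → ∀ s : ℕ, 2 ≤ s → s ≤ 12 →
      |tm F u x| * Real.sqrt x ^ s ≤ C * ((u : ℝ) ^ s)⁻¹ * ((u : ℝ) ^ 2 / (1 + (u : ℝ) ^ 2 * x) ^ 2) := by
  refine ⟨128 * |b1| * (2 * cmax) ^ 32, by positivity, ?_⟩
  intro F hF hc u hu x h0 h8 s hs2 hs
  obtain ⟨r, rfl⟩ : ∃ r, s = r + 2 := ⟨s - 2, by omega⟩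
  have hb1 := ker_b1_pos hF
  rw [abs_of_pos hb1]
  have hc0 : 0 < F.c := by linarith [hF.c_ge]
  have hcm : 16 ≤ cmax := hF.c_ge.trans hc
  have hu0 : (0 : ℝ) < u := by positivity
  have hT := ker_tm_nonneg hF u x h0 h8
  rw [abs_of_nonneg hT]
  set y := (u : ℝ) ^ 2 * x with hy
  have hy0 : 0 ≤ y := by positivity
  have hq0 := ker_qq_nonneg F.c u x
  have hK1 : (1 : ℝ) ≤ (2 * cmax) ^ 32 := one_le_pow₀ (by linarith)
  have h5 : x * tm F u x ≤ b1 * qq F.c u x := by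
    rw [ker_tm_mul]
    split_ifs with hx
    · exact mul_nonneg hb1.le hq0
    · rw [ker_termP_eval]
      exact mul_le_mul_of_nonneg_right (hF.bd x h0 h8).2 hq0
  have hA : qq F.c u x * (1 + y) ^ 7 ≤ 128 * (2 * cmax) ^ 32 := by
    rcases le_or_gt y 1 with h1 | h1
    · have h2 := ker_qq_le_one F.c hF.c_ge u hu x h0 h8
      have h3 : (1 + y) ^ 7 ≤ 128 := by
        calc (1 + y) ^ 7 ≤ 2 ^ 7 := pow_le_pow_left₀ (by linarith) (by linarith) 7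
          _ = 128 := by norm_num
      calc qq F.c u x * (1 + y) ^ 7 ≤ 1 * 128 := mul_le_mul h2 h3 (by positivity) (by norm_num)
        _ = 128 * 1 := by ring
        _ ≤ 128 * (2 * cmax) ^ 32 := mul_le_mul_of_nonneg_left hK1 (by norm_num)
    · have h2 := ker_qq_decay F.c hF.c_ge u hu x h0 h8
      have h3 : qq F.c u x * y ^ 32 ≤ (2 * cmax) ^ 32 := by
        have e : qq F.c u x * y ^ 32 = (qq F.c u x * (y / (2 * F.c)) ^ 32) * (2 * F.c) ^ 32 := by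
          rw [div_pow]
          field_simp
        rw [e]
        calc (qq F.c u x * (y / (2 * F.c)) ^ 32) * (2 * F.c) ^ 32 ≤ 1 * (2 * F.c) ^ 32 :=
              mul_le_mul_of_nonneg_right h2 (by positivity)
          _ ≤ (2 * cmax) ^ 32 := by
              rw [one_mul]
              exact pow_le_pow_left₀ (by positivity) (by linarith) 32
      have h4 := ker_one_add_pow_le y h1.le 7 32 (by norm_num)
      calc qq F.c u x * (1 + y) ^ 7 ≤ qq F.c u x * (2 ^ 7 * y ^ 32) :=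
            mul_le_mul_of_nonneg_left h4 hq0
        _ = 128 * (qq F.c u x * y ^ 32) := by ring
        _ ≤ 128 * (2 * cmax) ^ 32 := by linarith
  have hB := ker_sqrt_pow_le x h0 (u : ℝ) hu0.le r 5 (by omega)
  have e : 128 * b1 * (2 * cmax) ^ 32 * ((u : ℝ) ^ (r + 2))⁻¹ * ((u : ℝ) ^ 2 / (1 + y) ^ 2) =
      (128 * b1 * (2 * cmax) ^ 32 * (u : ℝ) ^ 2) / ((u : ℝ) ^ (r + 2) * (1 + y) ^ 2) := by
    field_simp
  rw [e, le_div_iff₀ (by positivity)]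
  have hsq : Real.sqrt x ^ 2 = x := Real.sq_sqrt h0
  calc tm F u x * Real.sqrt x ^ (r + 2) * ((u : ℝ) ^ (r + 2) * (1 + y) ^ 2)
      = (Real.sqrt x ^ 2 * tm F u x) * (Real.sqrt x ^ r * (u : ℝ) ^ r) * ((1 + y) ^ 2 * (u : ℝ) ^ 2) := by
        ring
    _ = (x * tm F u x) * (Real.sqrt x ^ r * (u : ℝ) ^ r) * ((1 + y) ^ 2 * (u : ℝ) ^ 2) := by rw [hsq]
    _ ≤ (b1 * qq F.c u x) * (1 + y) ^ 5 * ((1 + y) ^ 2 * (u : ℝ) ^ 2) := by
        refine mul_le_mul_of_nonneg_right ?_ (by positivity)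
        exact mul_le_mul h5 hB (by positivity) (by positivity)
    _ = b1 * (qq F.c u x * (1 + y) ^ 7) * (u : ℝ) ^ 2 := by ring
    _ ≤ b1 * (128 * (2 * cmax) ^ 32) * (u : ℝ) ^ 2 := by
        refine mul_le_mul_of_nonneg_right ?_ (by positivity)
        exact mul_le_mul_of_nonneg_left hA hb1.le
    _ = _ := by ring

end Claimed.Agent.R285.Ker
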