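import Claimed.Agent.R285.Ker.Kd
import Claimed.Agent.R285.Ker.Quad
import Claimed.Agent.R285.Ker.Range
import Claimed.Agent.R285.Ker.Deg
import Claimed.Agent.R285.Ker.Sym3
import Claimed.Agent.R285.Ker.Sum

/-!
# ROW 285, [B] L4.1, leaf L41-ASM1: one binary piece `shell G F t (2t)`; the soft exports  (cut by helper198)

FROM the statements of `Ker/{Kd, Quad, Range, Deg, Sym2, Sym3, Sum, Mul}.lean` (cite; proved in parallel).  `shell G F m S = cov G (F.shellP m S)`, `low G F u = cov G (F.lowP u)` by `rfl`.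
PLAN.
* `ker_shell_split`: `ker_shellP_split`, `cov G` is additive: `simp [shell, cov, map_sum]`.
* `ker_piece_bound`: `h := ker_cov_mul G (F.shellP t (2t))`, `ker_kdif_abs h a c x y`; each summand `≤ C₁ (t^s)⁻¹ t²/(1 + t² λ_k)²`, `s = r + r'` (`ker_piece_sym`, `ker_lam_nonneg`, `ker_lam_le`); `Finset.sum_le_sum`, `← Finset.mul_sum`;
  `ker_master` with `N = per G`.  `C = 4 C₁ C₂`.
* `ker_piece_zero`: `ker_kdif_range` with `ρ = pp * (2t) + d` (`ker_cov_range_le`, `ker_shellP_natDegree`, `hF.deg`), `pp = 32`.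
* `ker_shell_range`, `ker_low_range`: `ker_cov_range_le` + degrees.      `ker_shell_psd`, `ker_low_psd`: `ker_cov_psd` + `ker_shell_nonneg`, `ker_low_nonneg`.
* `ker_lap_spectrum`: `ker_quad_nonneg (ker_lap_mul G)`, `ker_quad_le (ker_lap_mul G) 8`.
* `ker_low_contraction`: `lap G * low G F u * lap G = cov G (X * F.lowP u * X)` (`simp [low, cov, map_mul, aeval_X]`), `lap G = cov G X`; `ker_cov_mono`: `x · lowP(x) · x = x (1 - qq) ≤ x` (`ker_lowP_eval`, `pref = 1`, `ker_qq_nonneg`).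
-/

set_option autoImplicit false

namespace Claimed.Agent.R285.Ker

open scoped BigOperators
open Polynomial
open Claimed.Agent.R285.RG

theorem ker_shell_split (G : Geom) (F : Fam) (u ℓ : ℕ) :
    shell G F u (2 ^ ℓ * u) = ∑ j ∈ Finset.range ℓ, shell G F (2 ^ j * u) (2 * (2 ^ j * u)) := by
  simp only [shell, cov]
  rw [ker_shellP_split, map_sum]

theorem ker_piece_bound (b0 b1 cmax : ℝ) (d : ℕ) : ∃ C : ℝ, 0 ≤ C ∧ ∀ (G : Geom) (F : Fam), F.Adm b0 b1 d → F.c ≤ cmax →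
    ∀ t : ℕ, 1 ≤ t → t ≤ per G → ∀ r r' : ℕ, r + r' ≤ 12 → ∀ (a : Fin r → Fin 4) (c : Fin r' → Fin 4) (x y : ℤ × ℤ),
      |kdif G a c (shell G F t (2 * t)) x y| ≤ C * ((t : ℝ) ^ (r + r'))⁻¹ := by
  obtain ⟨C1, hC1, h1⟩ := ker_piece_sym b0 b1 cmax d
  obtain ⟨C2, hC2, h2⟩ := ker_master
  refine ⟨4 * (C1 * C2), by positivity, ?_⟩
  intro G F hF hc t ht htN r r' hr a c x y
  have h := ker_cov_mul G (F.shellP t (2 * t))
  refine (ker_kdif_abs h a c x y).trans ?_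
  have hsum : ∑ k : Fin (per G) × Fin (per G),
      |(F.shellP t (2 * t)).eval (lam (per G) k)| * Real.sqrt (lam (per G) k) ^ (r + r')
      ≤ C1 * ((t : ℝ) ^ (r + r'))⁻¹ * ∑ k : Fin (per G) × Fin (per G),
        (t : ℝ) ^ 2 / (1 + (t : ℝ) ^ 2 * lam (per G) k) ^ 2 := by
    rw [Finset.mul_sum]
    exact Finset.sum_le_sum fun k _ =>
      h1 F hF hc t ht _ (ker_lam_nonneg _ k) (ker_lam_le _ k) _ hr
  have hm := h2 (per G) t ht htN
  have hN : (0 : ℝ) ≤ (((per G : ℕ) : ℝ) ^ 2)⁻¹ := by positivity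
  have ht0 : (0 : ℝ) ≤ ((t : ℝ) ^ (r + r'))⁻¹ := by positivity
  calc 4 * ((((per G : ℕ) : ℝ) ^ 2)⁻¹ * ∑ k : Fin (per G) × Fin (per G),
        |(F.shellP t (2 * t)).eval (lam (per G) k)| * Real.sqrt (lam (per G) k) ^ (r + r'))
      ≤ 4 * ((((per G : ℕ) : ℝ) ^ 2)⁻¹ * (C1 * ((t : ℝ) ^ (r + r'))⁻¹ * ∑ k : Fin (per G) × Fin (per G),
        (t : ℝ) ^ 2 / (1 + (t : ℝ) ^ 2 * lam (per G) k) ^ 2)) := by
        exact mul_le_mul_of_nonneg_left (mul_le_mul_of_nonneg_left hsum hN) (by norm_num)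
    _ = 4 * (C1 * ((t : ℝ) ^ (r + r'))⁻¹) * ((((per G : ℕ) : ℝ) ^ 2)⁻¹ * ∑ k : Fin (per G) × Fin (per G),
        (t : ℝ) ^ 2 / (1 + (t : ℝ) ^ 2 * lam (per G) k) ^ 2) := by ring
    _ ≤ 4 * (C1 * ((t : ℝ) ^ (r + r'))⁻¹) * C2 := mul_le_mul_of_nonneg_left hm (by positivity)
    _ = 4 * (C1 * C2) * ((t : ℝ) ^ (r + r'))⁻¹ := by ring

theorem ker_shell_range (G : Geom) (F : Fam) {b0 b1 : ℝ} {d : ℕ} (hF : F.Adm b0 b1 d) (m S : ℕ) (hm : 1 ≤ m) (hS : m ≤ S) :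
    FinRange (shell G F m S) (pp * S + d) :=
  ker_cov_range_le G _ _ (ker_shellP_natDegree F d hF.deg m S hS)

theorem ker_piece_zero (G : Geom) {F : Fam} {b0 b1 : ℝ} {d : ℕ} (hF : F.Adm b0 b1 d) (t : ℕ) {r r' : ℕ} (hr : r + r' ≤ 12)
    (a : Fin r → Fin 4) (c : Fin r' → Fin 4) (x y : ℤ × ℤ) (h : 64 * t + (d + 12) < G.dist (G.π x) (G.π y)) :
    kdif G a c (shell G F t (2 * t)) x y = 0 := by
  have h1 : FinRange (shell G F t (2 * t)) (pp * (2 * t) + d) :=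
    ker_cov_range_le G _ _ (ker_shellP_natDegree F d hF.deg t (2 * t) (by omega))
  refine ker_kdif_range G _ _ h1 a c x y ?_
  have h2 : pp * (2 * t) = 64 * t := by
    have : pp = 32 := rfl
    rw [this]; ring
  omega

theorem ker_low_range (G : Geom) (F : Fam) {b0 b1 : ℝ} {d : ℕ} (hF : F.Adm b0 b1 d) (u : ℕ) (hu : 1 ≤ u) :
    FinRange (low G F u) (pp * u + d) :=
  ker_cov_range_le G _ _ (ker_lowP_natDegree F d hF.deg u)

theorem ker_shell_psd (G : Geom) (F : Fam) {b0 b1 : ℝ} {d : ℕ} (hF : F.Adm b0 b1 d) (ℓ u : ℕ) (hu : 1 ≤ u) :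
    (shell G F u (2 ^ ℓ * u)).PosSemidef :=
  ker_cov_psd G _ fun x h0 h8 => ker_shell_nonneg hF u hu ℓ x h0 h8

theorem ker_low_psd (G : Geom) (F : Fam) {b0 b1 : ℝ} {d : ℕ} (hF : F.Adm b0 b1 d) (u : ℕ) (hu : 1 ≤ u) :
    (low G F u).PosSemidef :=
  ker_cov_psd G _ fun x h0 h8 => ker_low_nonneg hF u hu x h0 h8

theorem ker_lap_spectrum (G : Geom) (f : G.V → ℝ) :
    0 ≤ f ⬝ᵥ (lap G).mulVec f ∧ f ⬝ᵥ (lap G).mulVec f ≤ 8 * (f ⬝ᵥ f) :=
  ⟨ker_quad_nonneg (ker_lap_mul G) (fun k => ker_lam_nonneg _ k) f,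
    ker_quad_le (ker_lap_mul G) 8 (fun k => ker_lam_le _ k) f⟩

theorem ker_low_contraction (G : Geom) (u : ℕ) (hu : 1 ≤ u) (f : G.V → ℝ) :
    f ⬝ᵥ (lap G * low G Fam.entry u * lap G).mulVec f ≤ f ⬝ᵥ (lap G).mulVec f := by
  have h1 : lap G * low G Fam.entry u * lap G = cov G (X * Fam.entry.lowP u * X) := by
    simp [low, cov, map_mul, aeval_X]
  have h2 : lap G = cov G X := by simp [cov, aeval_X]
  rw [h1]
  conv_rhs => rw [h2]
  refine ker_cov_mono G _ _ ?_ f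
  intro x h0 _
  have h3 := ker_lowP_eval Fam.entry u hu x
  have h4 := ker_qq_nonneg Fam.entry.c u x
  have h5 : Fam.entry.pref.eval x = 1 := by simp [Fam.entry]
  simp only [eval_mul, eval_X]
  rw [h3, h5]
  nlinarith

end Claimed.Agent.R285.Ker
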