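import Claimed.Agent.R285.Ker.Copy

/-!
# ROW 285, [B] L8.1 (post BP-B8-L81, helper198): the soft kernel contracts of `Read/B8.lean` s1

`ker_low_contraction'` (any family with `pref ≤ 1`), `ker_cov_sym`, `ker_terminal_diag`.  No sorry.
-/

set_option autoImplicit false

namespace Claimed.Agent.R285.Ker

open scoped BigOperators
open Polynomial Matrix
open Claimed.Agent.R285.RG

/-- `0 ≤ A^{1/2} C_{<u} A^{1/2} ≤ 1` for every admissible family with `pref ≤ 1` -/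
theorem ker_low_contraction' (G : Geom) {F : Fam} {b0 b1 : ℝ} {d : ℕ} (hF : F.Adm b0 b1 d) (hb : b1 ≤ 1) (u : ℕ)
    (hu : 1 ≤ u) (f : G.V → ℝ) :
    f ⬝ᵥ (lap G * low G F u * lap G).mulVec f ≤ f ⬝ᵥ (lap G).mulVec f := by
  have h1 : lap G * low G F u * lap G = cov G (X * F.lowP u * X) := by
    simp [low, cov, map_mul, aeval_X]
  have h2 : lap G = cov G X := by simp [cov, aeval_X]
  rw [h1]
  conv_rhs => rw [h2]
  refine ker_cov_mono G _ _ ?_ f
  intro x h0 h8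
  have h3 := ker_lowP_eval F u hu x
  have h4 := ker_qq_nonneg F.c u x
  have h5 := hF.bd x h0 h8
  have h6 := hF.b0_pos
  simp only [eval_mul, eval_X]
  rw [h3]
  have h7 : F.pref.eval x * (1 - qq F.c u x) ≤ 1 := by nlinarith
  nlinarith

theorem ker_lap_sym {G : Geom} (σ : Equiv.Perm G.V) (ρ : Equiv.Perm (Fin 4))
    (step : ∀ v e, σ (G.π (G.ι v + dir e)) = G.π (G.ι (σ v) + dir (ρ e))) (v w : G.V) :
    lap G (σ v) (σ w) = lap G v w := by
  unfold lap
  rw [← Equiv.sum_comp ρ]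
  refine Finset.sum_congr rfl fun e _ => ?_
  rw [← step]
  simp only [EmbeddingLike.apply_eq_iff_eq]

theorem ker_cov_sym' {G : Geom} (σ : Equiv.Perm G.V) (ρ : Equiv.Perm (Fin 4))
    (step : ∀ v e, σ (G.π (G.ι v + dir e)) = G.π (G.ι (σ v) + dir (ρ e))) (P : ℝ[X]) (v w : G.V) :
    cov G P (σ v) (σ w) = cov G P v w := by
  have h1 : Matrix.reindexAlgEquiv ℝ ℝ σ.symm (lap G) = lap G := by
    ext a b
    simp only [Matrix.coe_reindexAlgEquiv, Matrix.reindex_apply, Matrix.submatrix_apply, Equiv.symm_symm]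
    exact ker_lap_sym σ ρ step a b
  have h2 : Matrix.reindexAlgEquiv ℝ ℝ σ.symm (cov G P) = cov G P := by
    unfold cov
    have := Polynomial.aeval_algHom_apply (Matrix.reindexAlgEquiv ℝ ℝ σ.symm : Matrix G.V G.V ℝ →ₐ[ℝ] Matrix G.V G.V ℝ)
      (lap G) P
    have h4 : ((Matrix.reindexAlgEquiv ℝ ℝ σ.symm : Matrix G.V G.V ℝ →ₐ[ℝ] Matrix G.V G.V ℝ)) (lap G) = lap G := h1
    rw [h4] at this
    exact this.symm
  have h3 := congrFun (congrFun h2 v) w
  simpa [Matrix.coe_reindexAlgEquiv, Matrix.reindex_apply, Matrix.submatrix_apply] using h3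

theorem ker_cov_sym {G : Geom} (g : Grid G) (s : GridSym g) (P : ℝ[X]) (v w : G.V) :
    cov G P (s.σ v) (s.σ w) = cov G P v w :=
  ker_cov_sym' s.σ s.ρ s.step P v w

/-- a nonzero frequency has `λ_k ≥ 16 / N²` -/
theorem ker_lam_gap (N : ℕ) (k : Fin N × Fin N) (hk : lam N k ≠ 0) : 16 / (N : ℝ) ^ 2 ≤ lam N k := by
  have hne : ¬ ((k.1 : ℕ) = 0 ∧ (k.2 : ℕ) = 0) := fun h => hk ((ker_lam_eq_zero N k).mpr h)
  have key : ∀ j : Fin N, (j : ℕ) ≠ 0 → 16 / (N : ℝ) ^ 2 ≤ lam1 N j := by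
    intro j hj
    refine le_trans ?_ (ker_lam1_lower N j)
    have h1 : 1 ≤ min (j : ℕ) (N - (j : ℕ)) := by
      have := j.2
      omega
    have h2 : (1 : ℝ) ≤ ((min (j : ℕ) (N - (j : ℕ)) : ℕ) : ℝ) := by exact_mod_cast h1
    have h3 : (0 : ℝ) ≤ (N : ℝ) ^ 2 := by positivity
    apply div_le_div_of_nonneg_right _ h3
    nlinarith
  by_cases h1 : (k.1 : ℕ) = 0
  · have h2 : (k.2 : ℕ) ≠ 0 := fun h => hne ⟨h1, h⟩
    have := key k.2 h2
    have h3 := ker_lam1_nonneg N k.1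
    unfold lam
    linarith
  · have := key k.1 h1
    have h3 := ker_lam1_nonneg N k.2
    unfold lam
    linarith

/-- the terminal covariance at a scale comparable with the side has a bounded diagonal -/
theorem ker_terminal_top (b0 b1 cmax : ℝ) (d : ℕ) : ∃ C : ℝ, 0 ≤ C ∧ ∀ (G : Geom) (F : Fam), F.Adm b0 b1 d → F.c ≤ cmax →
    ∀ S : ℕ, 1 ≤ S → S ≤ per G → per G ≤ 4 * S → ∀ Γ, IsTerminal G F S Γ → ∀ v w, |Γ v w| ≤ C := by
  obtain ⟨C2, hC2, h2⟩ := ker_master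
  refine ⟨4 * (|b1| * (8 * |cmax|) * C2), by positivity, ?_⟩
  intro G F hF hc S hS hSN hNS Γ hΓ v w
  have h := ker_terminal_mul hF S hΓ
  have h1 := ker_kdif_abs h (Fin.elim0 : Fin 0 → Fin 4) (Fin.elim0 : Fin 0 → Fin 4) (G.ι v) (G.ι w)
  rw [ker_kdif_nil, ker_pi_iota, ker_pi_iota] at h1
  refine h1.trans ?_
  have hNpos : (0 : ℝ) < ((per G : ℕ) : ℝ) := by exact_mod_cast ker_per_pos G
  have hSpos : (0 : ℝ) < (S : ℝ) := by exact_mod_cast hS
  have hc16 := hF.c_ge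
  have hb1 : 0 < b1 := lt_of_lt_of_le hF.b0_pos ((hF.bd 0 le_rfl (by norm_num)).1.trans (hF.bd 0 le_rfl (by norm_num)).2)
  have hcm : 0 < cmax := by linarith
  have hterm : ∀ k : Fin (per G) × Fin (per G),
      |tm F S (lam (per G) k)| * Real.sqrt (lam (per G) k) ^ (0 + 0)
        ≤ |b1| * (8 * |cmax|) * ((S : ℝ) ^ 2 / (1 + (S : ℝ) ^ 2 * lam (per G) k) ^ 2) := by
    intro k
    simp only [add_zero, pow_zero, mul_one]
    have hl0 := ker_lam_nonneg (per G) k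
    have hl8 := ker_lam_le (per G) k
    by_cases hk : lam (per G) k = 0
    · simp only [tm, hk, if_true, abs_zero]
      positivity
    · have hgap := ker_lam_gap (per G) k hk
      set x := lam (per G) k with hx
      have hxpos : 0 < x := lt_of_le_of_ne hl0 (Ne.symm hk)
      have hy : 1 ≤ (S : ℝ) ^ 2 * x := by
        have h3 : ((per G : ℕ) : ℝ) ≤ 4 * (S : ℝ) := by exact_mod_cast hNS
        have h4 : ((per G : ℕ) : ℝ) ^ 2 ≤ 16 * (S : ℝ) ^ 2 := by nlinarith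
        have h5 : 16 ≤ x * ((per G : ℕ) : ℝ) ^ 2 := by
          rwa [div_le_iff₀ (by positivity)] at hgap
        nlinarith
      rw [abs_of_nonneg (ker_tm_nonneg hF S x hl0 hl8), abs_of_pos hb1, abs_of_pos hcm]
      simp only [tm, hk, if_false, ker_termP_eval]
      have hq := ker_qq_mul_pow_le F.c hc16 S hS x hl0 hl8 1 (by norm_num)
      have hq0 := ker_qq_nonneg F.c S x
      have hp := hF.bd x hl0 hl8
      rw [pow_one] at hq
      set y := (S : ℝ) ^ 2 * x with hydef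
      -- q * y ≤ 2c
      have hqy : qq F.c S x * y ≤ 2 * cmax := by
        have : qq F.c S x * (y / (2 * F.c)) ≤ 1 := hq
        have h6 : qq F.c S x * y ≤ 2 * F.c := by
          have h7 : (0 : ℝ) < 2 * F.c := by linarith
          have h8' : qq F.c S x * (y / (2 * F.c)) = qq F.c S x * y / (2 * F.c) := by ring
          rw [h8', div_le_one h7] at this
          exact this
        linarith
      rw [div_le_iff₀ hxpos]
      have h9 : (1 + y) ^ 2 ≤ 4 * y ^ 2 := by nlinarith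
      have h10 : b1 * (8 * cmax) * ((S : ℝ) ^ 2 / (1 + y) ^ 2) * x = b1 * (8 * cmax) * (y / (1 + y) ^ 2) := by
        rw [hydef]; ring
      rw [h10]
      have h11 : 1 / (4 * y) ≤ y / (1 + y) ^ 2 := by
        rw [div_le_div_iff₀ (by positivity) (by positivity)]
        nlinarith
      have h12 : qq F.c S x ≤ 8 * cmax * (1 / (4 * y)) := by
        have hy0 : 0 < y := by linarith
        have : 8 * cmax * (1 / (4 * y)) = 2 * cmax / y := by field_simp; ring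
        rw [this, le_div_iff₀ hy0]
        exact hqy
      calc F.pref.eval x * qq F.c S x ≤ b1 * qq F.c S x := mul_le_mul_of_nonneg_right hp.2 hq0
        _ ≤ b1 * (8 * cmax * (1 / (4 * y))) := mul_le_mul_of_nonneg_left h12 hb1.le
        _ ≤ b1 * (8 * cmax * (y / (1 + y) ^ 2)) := by
            refine mul_le_mul_of_nonneg_left (mul_le_mul_of_nonneg_left h11 (by positivity)) hb1.le
        _ = b1 * (8 * cmax) * (y / (1 + y) ^ 2) := by ring
  have hsum := Finset.sum_le_sum (fun k (_ : k ∈ Finset.univ) => hterm k)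
  rw [← Finset.mul_sum] at hsum
  have hm := h2 (per G) S hS hSN
  have hN0 : (0 : ℝ) ≤ (((per G : ℕ) : ℝ) ^ 2)⁻¹ := by positivity
  calc 4 * ((((per G : ℕ) : ℝ) ^ 2)⁻¹ * ∑ k : Fin (per G) × Fin (per G),
        |tm F S (lam (per G) k)| * Real.sqrt (lam (per G) k) ^ (0 + 0))
      ≤ 4 * ((((per G : ℕ) : ℝ) ^ 2)⁻¹ * (|b1| * (8 * |cmax|) * ∑ k : Fin (per G) × Fin (per G),
        (S : ℝ) ^ 2 / (1 + (S : ℝ) ^ 2 * lam (per G) k) ^ 2)) :=
        mul_le_mul_of_nonneg_left (mul_le_mul_of_nonneg_left hsum hN0) (by norm_num)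
    _ = 4 * (|b1| * (8 * |cmax|) * ((((per G : ℕ) : ℝ) ^ 2)⁻¹ * ∑ k : Fin (per G) × Fin (per G),
        (S : ℝ) ^ 2 / (1 + (S : ℝ) ^ 2 * lam (per G) k) ^ 2)) := by ring
    _ ≤ 4 * (|b1| * (8 * |cmax|) * C2) := by
        refine mul_le_mul_of_nonneg_left (mul_le_mul_of_nonneg_left hm (by positivity)) (by norm_num)

/-- **[B] L8.1, terminal covariance, undifferentiated diagonal** (any admissible family, both boundary conventions) -/
theorem ker_terminal_diag (b0 b1 cmax : ℝ) (d : ℕ) : ∃ C : ℝ, ∀ (G : Geom) (F : Fam), F.Adm b0 b1 d → F.c ≤ cmax →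
    ∀ u : ℕ, 1 ≤ u → 2 * u ≤ G.M → ∀ Γ, IsTerminal G F u Γ →
    ∀ v, 0 ≤ Γ v v ∧ Γ v v ≤ C * (1 + Real.log ((G.M : ℝ) / u)) := by
  obtain ⟨Cp, hCp, hp⟩ := ker_pointwise b0 b1 cmax d
  obtain ⟨Ct, hCt, ht⟩ := ker_terminal_top b0 b1 cmax d
  refine ⟨Cp + Ct, ?_⟩
  intro G F hF hc u hu huM Γ hΓ v
  refine ⟨hΓ.psd.diag_nonneg, ?_⟩
  set n := Nat.log 2 (G.M / u) with hn
  have hq : 2 ≤ G.M / u := by
    rw [Nat.le_div_iff_mul_le (by omega)]; omega
  have h1 : 2 ^ n ≤ G.M / u := Nat.pow_log_le_self 2 (by omega)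
  have h2 : G.M / u < 2 ^ (n + 1) := Nat.lt_pow_succ_log_self (by norm_num) _
  have hS1 : 2 ^ n * u ≤ G.M := by
    calc 2 ^ n * u ≤ G.M / u * u := Nat.mul_le_mul_right _ h1
      _ ≤ G.M := Nat.div_mul_le_self _ _
  have hS2 : G.M < 2 * (2 ^ n * u) := by
    have h3 : G.M < (G.M / u + 1) * u := by
      have := Nat.lt_div_mul_add (a := G.M) (b := u) (by omega)
      nlinarith
    have h4 : G.M / u + 1 ≤ 2 ^ (n + 1) := h2
    calc G.M < (G.M / u + 1) * u := h3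
      _ ≤ 2 ^ (n + 1) * u := Nat.mul_le_mul_right _ h4
      _ = 2 * (2 ^ n * u) := by ring
  have hSpos : 1 ≤ 2 ^ n * u := Nat.mul_pos (by positivity) hu
  obtain ⟨Γ', hΓ'⟩ := ker_exists_terminal G F hF (2 ^ n * u) hSpos
  have hsplit := ker_terminal_split hF u (2 ^ n * u) hu hSpos hΓ hΓ'
  have hvv := congrFun (congrFun hsplit v) v
  simp only [Matrix.add_apply, cmat] at hvv
  have hM : (0 : ℝ) < (G.M : ℝ) := by exact_mod_cast G.hM
  have hu0 : (0 : ℝ) < (u : ℝ) := by exact_mod_cast hu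
  have hnn : 0 ≤ (F.shellP u (2 ^ n * u)).eval 0 / (G.M : ℝ) ^ 2 :=
    div_nonneg (ker_shell_nonneg hF u hu n 0 le_rfl (by norm_num)) (by positivity)
  have hper1 : 2 ^ n * u ≤ per G := hS1.trans (ker_M_le_per G)
  have hper2 : per G ≤ 4 * (2 ^ n * u) := by
    have := ker_per_le G
    omega
  have ha := hp G F hF hc n u hu hper1 v v
  have hb := ht G F hF hc _ hSpos hper1 hper2 Γ' hΓ' v v
  rw [ker_dist_self] at ha
  have hlog : Real.posLog ((((2 ^ n : ℕ) : ℝ) * (u : ℝ)) / ((u : ℝ) + ((0 : ℕ) : ℝ))) ≤ Real.log ((G.M : ℝ) / u) := by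
    have e1 : (((2 ^ n : ℕ) : ℝ) * (u : ℝ)) / ((u : ℝ) + ((0 : ℕ) : ℝ)) = ((2 ^ n : ℕ) : ℝ) := by
      simp only [Nat.cast_zero, add_zero]
      field_simp
    rw [e1, Real.log_of_nat_eq_posLog]
    apply Real.log_le_log (by positivity)
    rw [le_div_iff₀ hu0]
    exact_mod_cast hS1
  have hlog0 : 0 ≤ Real.log ((G.M : ℝ) / u) := le_trans Real.posLog_nonneg hlog
  have h5 := (le_abs_self _).trans ha
  have h6 := (le_abs_self _).trans hb
  have h7 : Cp * (1 + Real.posLog ((((2 ^ n : ℕ) : ℝ) * (u : ℝ)) / ((u : ℝ) + ((0 : ℕ) : ℝ))))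
      ≤ Cp * (1 + Real.log ((G.M : ℝ) / u)) := mul_le_mul_of_nonneg_left (by linarith) hCp
  have h8 : Ct ≤ Ct * (1 + Real.log ((G.M : ℝ) / u)) := by nlinarith
  nlinarith

end Claimed.Agent.R285.Ker
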