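import Claimed.Agent.R285.Ker.Defs

/-!
# ROW 285, [B] L4.1, leaf L41-FOLD: the folding map  (cut by helper198)

PLAN.  Everything is `omega`-type arithmetic after `unfold Geom.fold per; cases on G.bc` (write `obtain ⟨bc, M, hM⟩ := G; cases bc`), `Fin.ext_iff`, `Int.toNat_of_nonneg`,
`Int.emod_emod_of_dvd`, `Int.emod_emod_of_dvd`, `Int.emod_def`/`Int.ediv_add_emod` (introduce `q = x / N`, `r = x % N`, `x = N q + r`, `0 ≤ r < N`; `omega` does not multiply variables: keep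
`N * q` as an atom by `generalize`, divisibility `N ∣ z` as `obtain ⟨c, hc⟩`; for the converse direction use `Int.emod_emod_of_dvd`, `Int.emod_eq_emod_iff_emod_sub_eq_zero`, `Int.ModEq`).
* `ker_fold_eq_iff`: periodic: `x % M = y % M ↔ M ∣ x - y`.  Free, `N = 2M`, `r = x % N`, `r' = y % N`, `fold = r` if `r < M`, `N - 1 - r` otherwise: equality of folds iff `r = r'` or `r + r' = N - 1`,
  i.e. `N ∣ x - y` or `N ∣ x + y + 1`.
* the two-dimensional statements are the one-dimensional ones in each coordinate (`Prod.ext_iff`), `imgs G` unfolded by cases on `G.bc`.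
* `ker_img_unique`: `N = 2M ∣ x - y` and `N ∣ x + y + 1` give `2 ∣ 2x + 1`.
-/

set_option autoImplicit false

namespace Claimed.Agent.R285.Ker

open scoped BigOperators
open Claimed.Agent.R285.RG

theorem ker_per_pos (G : Geom) : 0 < per G := by
  obtain ⟨bc, M, hM⟩ := G
  cases bc <;> simp only [per] <;> omega

theorem ker_M_le_per (G : Geom) : G.M ≤ per G := by
  obtain ⟨bc, M, hM⟩ := G
  cases bc <;> simp only [per] <;> omega

theorem ker_per_le (G : Geom) : per G ≤ 2 * G.M := by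
  obtain ⟨bc, M, hM⟩ := G
  cases bc <;> simp only [per] <;> omega

theorem ker_imgs_card_pos (G : Geom) : 0 < (imgs G).card := by
  obtain ⟨bc, M, hM⟩ := G
  cases bc <;> simp [imgs]

theorem ker_imgs_card_le (G : Geom) : (imgs G).card ≤ 4 := by
  obtain ⟨bc, M, hM⟩ := G
  cases bc <;> simp [imgs]

/-- `card imgs / N² = 1 / M²` -/
theorem ker_imgs_card_per (G : Geom) : (imgs G).card * G.M ^ 2 = per G ^ 2 := by
  obtain ⟨bc, M, hM⟩ := G
  cases bc
  · simp [imgs, per]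
  · simp [imgs, per]; ring

theorem ker_ff_mem (G : Geom) : (false, false) ∈ imgs G := by
  obtain ⟨bc, M, hM⟩ := G
  cases bc <;> simp [imgs]

theorem ker_mem_imgs (G : Geom) (s : Bool × Bool) :
    s ∈ imgs G ↔ (s.1 = true → G.bc = BC.free) ∧ (s.2 = true → G.bc = BC.free) := by
  obtain ⟨bc, M, hM⟩ := G
  obtain ⟨s1, s2⟩ := s
  cases bc <;> cases s1 <;> cases s2 <;> simp [imgs]

theorem ker_dvd_sub_iff (N x y : ℤ) : N ∣ x - y ↔ x % N = y % N := by
  rw [Int.emod_eq_emod_iff_emod_sub_eq_zero, Int.dvd_iff_emod_eq_zero]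

theorem ker_refl_emod (N y : ℤ) (hN : 0 < N) : (-1 - y) % N = N - 1 - y % N := by
  have h1 := Int.emod_nonneg y hN.ne'
  have h2 := Int.emod_lt_of_pos y hN
  have h3 : -1 - y = (N - 1 - y % N) + N * (-(y / N) - 1) := by
    have := Int.mul_ediv_add_emod y N
    linarith
  rw [h3, Int.add_mul_emod_self_left, Int.emod_eq_of_lt (by omega) (by omega)]

theorem ker_fold_coe (G : Geom) (j : Fin G.M) : G.fold ((j : ℕ) : ℤ) = j := by
  obtain ⟨bc, M, hM⟩ := G
  have hj : ((j : ℕ) : ℤ) < M := by exact_mod_cast j.2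
  have hj0 : (0 : ℤ) ≤ ((j : ℕ) : ℤ) := by positivity
  cases bc
  · apply Fin.ext
    simp only [Geom.fold]
    rw [Int.emod_eq_of_lt hj0 hj]
    simp
  · apply Fin.ext
    simp only [Geom.fold]
    rw [Int.emod_eq_of_lt hj0 (by omega), if_pos hj]
    simp

theorem ker_fold_eq_iff (G : Geom) (x y : ℤ) :
    G.fold x = G.fold y ↔ ((per G : ℤ) ∣ x - y) ∨ (G.bc = BC.free ∧ (per G : ℤ) ∣ x + y + 1) := by
  obtain ⟨bc, M, hM⟩ := G
  cases bc
  · have h0 : (0 : ℤ) < M := by exact_mod_cast hM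
    have h1 := Int.emod_nonneg x h0.ne'
    have h1' := Int.emod_nonneg y h0.ne'
    simp only [Geom.fold, per, Fin.ext_iff, ker_dvd_sub_iff, reduceCtorEq, false_and, or_false]
    omega
  · have h0 : (0 : ℤ) < 2 * M := by omega
    have h1 := Int.emod_nonneg x h0.ne'
    have h1' := Int.emod_nonneg y h0.ne'
    have h2 := Int.emod_lt_of_pos x h0
    have h2' := Int.emod_lt_of_pos y h0
    have e : x + y + 1 = x - (-1 - y) := by ring
    simp only [Geom.fold, per, Fin.ext_iff, true_and, Nat.cast_mul, Nat.cast_ofNat]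
    rw [e, ker_dvd_sub_iff, ker_dvd_sub_iff, ker_refl_emod _ _ h0]
    generalize x % (2 * (M : ℤ)) = r at *
    generalize y % (2 * (M : ℤ)) = r' at *
    split_ifs <;> omega

theorem ker_pi_iota (G : Geom) (v : G.V) : G.π (G.ι v) = v := by
  simp only [Geom.π, Geom.ι, ker_fold_coe]

theorem ker_pi_surj (G : Geom) : Function.Surjective G.π := fun v => ⟨G.ι v, ker_pi_iota G v⟩

theorem ker_fold_eq_iff' (G : Geom) (x y : ℤ) :
    G.fold x = G.fold y ↔ ∃ s : Bool, (s = true → G.bc = BC.free) ∧ (per G : ℤ) ∣ x - rf1 s y := by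
  rw [ker_fold_eq_iff]
  constructor
  · rintro (h | ⟨h1, h2⟩)
    · exact ⟨false, by simp, by simpa [rf1] using h⟩
    · refine ⟨true, fun _ => h1, ?_⟩
      have e : x - rf1 true y = x + y + 1 := by simp [rf1]; ring
      rw [e]; exact h2
  · rintro ⟨s, h1, h2⟩
    cases s
    · left; simpa [rf1] using h2
    · right
      have e : x - rf1 true y = x + y + 1 := by simp [rf1]; ring
      rw [e] at h2
      exact ⟨h1 rfl, h2⟩

theorem ker_pi_eq_iff (G : Geom) (x y : ℤ × ℤ) :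
    G.π x = G.π y ↔ ∃ s ∈ imgs G, (per G : ℤ) ∣ (x - rf s y).1 ∧ (per G : ℤ) ∣ (x - rf s y).2 := by
  simp only [Geom.π, Prod.ext_iff, ker_fold_eq_iff', ker_mem_imgs, rf, Prod.fst_sub, Prod.snd_sub]
  constructor
  · rintro ⟨⟨s1, h1, h2⟩, ⟨s2, h3, h4⟩⟩
    exact ⟨(s1, s2), ⟨h1, h3⟩, h2, h4⟩
  · rintro ⟨⟨s1, s2⟩, ⟨h1, h3⟩, h2, h4⟩
    exact ⟨⟨s1, h1, h2⟩, ⟨s2, h3, h4⟩⟩

theorem ker_img_unique1 (G : Geom) (x y : ℤ) (s s' : Bool) (hs : s = true → G.bc = BC.free)
    (hs' : s' = true → G.bc = BC.free) (h : (per G : ℤ) ∣ x - rf1 s y) (h' : (per G : ℤ) ∣ x - rf1 s' y) : s = s' := by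
  obtain ⟨bc, M, hM⟩ := G
  cases bc
  · cases s
    · cases s'
      · rfl
      · simp at hs'
    · simp at hs
  · have h2 : (2 : ℤ) ∣ (per ⟨BC.free, M, hM⟩ : ℤ) := by simp [per]
    have k := h2.trans h
    have k' := h2.trans h'
    cases s <;> cases s' <;> simp only [rf1] at k k' <;> first | rfl | (exfalso; simp at k k'; omega)

theorem ker_img_unique (G : Geom) (x y : ℤ × ℤ) (s s' : Bool × Bool) (hs : s ∈ imgs G) (hs' : s' ∈ imgs G)
    (h1 : (per G : ℤ) ∣ (x - rf s y).1) (h2 : (per G : ℤ) ∣ (x - rf s y).2)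
    (h1' : (per G : ℤ) ∣ (x - rf s' y).1) (h2' : (per G : ℤ) ∣ (x - rf s' y).2) : s = s' := by
  rw [ker_mem_imgs] at hs hs'
  exact Prod.ext (ker_img_unique1 G x.1 y.1 s.1 s'.1 hs.1 hs'.1 h1 h1') (ker_img_unique1 G x.2 y.2 s.2 s'.2 hs.2 hs'.2 h2 h2')

theorem ker_pi_rf (G : Geom) (s : Bool × Bool) (hs : s ∈ imgs G) (x : ℤ × ℤ) : G.π (rf s x) = G.π x := by
  rw [ker_pi_eq_iff]
  exact ⟨s, hs, by simp, by simp⟩

theorem ker_rf1_coe_inj (G : Geom) (s : Bool) (v w : Fin G.M)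
    (h : (per G : ℤ) ∣ rf1 s ((v : ℕ) : ℤ) - rf1 s ((w : ℕ) : ℤ)) : v = w := by
  have hv : ((v : ℕ) : ℤ) < G.M := by exact_mod_cast v.2
  have hw : ((w : ℕ) : ℤ) < G.M := by exact_mod_cast w.2
  have hM : (G.M : ℤ) ≤ per G := by exact_mod_cast ker_M_le_per G
  have := Int.eq_zero_of_abs_lt_dvd h (by
    cases s <;> simp only [rf1] <;> rw [abs_lt] <;> constructor <;> simp <;> omega)
  apply Fin.ext
  cases s <;> simp only [rf1] at this <;> simp at this <;> omega

/-- the points `rf s (ι v)` are pairwise incongruent mod `N` (for ANY `s`, both conventions) -/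
theorem ker_rf_iota_inj (G : Geom) (s : Bool × Bool) (v w : G.V)
    (h1 : (per G : ℤ) ∣ (rf s (G.ι v) - rf s (G.ι w)).1) (h2 : (per G : ℤ) ∣ (rf s (G.ι v) - rf s (G.ι w)).2) : v = w :=
  Prod.ext (ker_rf1_coe_inj G s.1 v.1 w.1 h1) (ker_rf1_coe_inj G s.2 v.2 w.2 h2)

theorem ker_rf_add (s : Bool × Bool) (x e : ℤ × ℤ) : rf s (x + e) = rf s x + rl s e := by
  obtain ⟨s1, s2⟩ := s
  cases s1 <;> cases s2 <;> apply Prod.ext <;> simp [rf, rl, rf1, rl1] <;> ring

theorem ker_rf_rf (s s' : Bool × Bool) (x : ℤ × ℤ) : rf s (rf s' x) = rf (xor s.1 s'.1, xor s.2 s'.2) x := by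
  obtain ⟨s1, s2⟩ := s
  obtain ⟨t1, t2⟩ := s'
  cases s1 <;> cases s2 <;> cases t1 <;> cases t2 <;> simp [rf, rf1]

/-- `y - rf s x` is the reflection of `x - rf s y` in the UNMARKED coordinates -/
theorem ker_rf_swap (s : Bool × Bool) (x y : ℤ × ℤ) : y - rf s x = rl (!s.1, !s.2) (x - rf s y) := by
  obtain ⟨s1, s2⟩ := s
  cases s1 <;> cases s2 <;> simp [rf, rl, rf1, rl1, Prod.ext_iff] <;> (try constructor) <;> ring

theorem ker_neg_rl (s : Bool × Bool) (x : ℤ × ℤ) : -(rl s x) = rl (!s.1, !s.2) x := by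
  obtain ⟨s1, s2⟩ := s
  cases s1 <;> cases s2 <;> apply Prod.ext <;> simp [rl, rl1]

/-- if two integers have the same fold, an affine isometry `x ↦ ε x + c` compatible with the folding maps one to the other -/
theorem ker_fold_iso (G : Geom) (a b : ℤ) (h : G.fold a = G.fold b) :
    ∃ ε c : ℤ, (ε = 1 ∨ ε = -1) ∧ (∀ x, G.fold (ε * x + c) = G.fold x) ∧ ε * b + c = a := by
  rw [ker_fold_eq_iff] at h
  rcases h with h | ⟨h1, h2⟩
  · refine ⟨1, a - b, Or.inl rfl, fun x => ?_, by ring⟩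
    rw [ker_fold_eq_iff]
    left
    have e : 1 * x + (a - b) - x = a - b := by ring
    rw [e]; exact h
  · refine ⟨-1, a + b, Or.inr rfl, fun x => ?_, by ring⟩
    rw [ker_fold_eq_iff]
    right
    have e : -1 * x + (a + b) + x + 1 = a + b + 1 := by ring
    rw [e]; exact ⟨h1, h2⟩

end Claimed.Agent.R285.Ker
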