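import Claimed.Agent.R285.Ker.Defs

/-!
# ROW 285, [B] L4.1, leaf L41-COS: `∑_{j ≤ 2n} cos² (j θ) ≥ (7/32) n`  (cut by helper198)

Mathlib only.
PLAN.
* `ker_cos_pair`: `c = cos² θ`, `cos 2θ = 2c - 1` (`Real.cos_two_mul`): `c + (2c - 1)² = 4c² - 3c + 1 = 4 (c - 3/8)² + 7/16`; `nlinarith [sq_nonneg (cos θ ^ 2 - 3/8)]`.
* `ker_cos_sum`: the sets `A = Ioc (n/2) n` and `B = A.image (2 * ·) ⊆ Ioc n (2n)` are disjoint subsets of `range (2n+1)`, `A.card = n - n/2 ≥ n/2` (real: `(n : ℝ)/2 ≤ card`);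
  `∑_{range} ≥ ∑_A + ∑_B = ∑_{j ∈ A} (cos² (jθ) + cos² (2jθ)) ≥ (7/16) card A` (`Finset.sum_le_sum_of_subset_of_nonneg`, `Finset.sum_union`, `Finset.sum_image`, `Finset.card_nsmul_le_sum`).
  Alternative without sets: strong induction is awkward; keep the sets.
-/

set_option autoImplicit false

namespace Claimed.Agent.R285.Ker

open scoped BigOperators

theorem ker_cos_pair (θ : ℝ) : 7 / 16 ≤ Real.cos θ ^ 2 + Real.cos (2 * θ) ^ 2 := by
  rw [Real.cos_two_mul]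
  nlinarith [sq_nonneg (Real.cos θ ^ 2 - 3 / 8)]

theorem ker_cos_sum (n : ℕ) (θ : ℝ) : 7 / 32 * (n : ℝ) ≤ ∑ j ∈ Finset.range (2 * n + 1), Real.cos ((j : ℝ) * θ) ^ 2 := by
  classical
  set f : ℕ → ℝ := fun j => Real.cos ((j : ℝ) * θ) ^ 2 with hf
  have hdisj : Disjoint (Finset.Ioc (n / 2) n) ((Finset.Ioc (n / 2) n).image (fun j => 2 * j)) := by
    rw [Finset.disjoint_left]
    intro j hj hjB
    rw [Finset.mem_image] at hjB
    obtain ⟨i, hi, rfl⟩ := hjB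
    rw [Finset.mem_Ioc] at hj hi
    omega
  have hsub : Finset.Ioc (n / 2) n ∪ (Finset.Ioc (n / 2) n).image (fun j => 2 * j) ⊆ Finset.range (2 * n + 1) := by
    intro j hj
    rw [Finset.mem_union, Finset.mem_image] at hj
    rw [Finset.mem_range]
    rcases hj with hj | ⟨i, hi, rfl⟩
    · rw [Finset.mem_Ioc] at hj; omega
    · rw [Finset.mem_Ioc] at hi; omega
  have h1 : ∑ j ∈ Finset.Ioc (n / 2) n ∪ (Finset.Ioc (n / 2) n).image (fun j => 2 * j), f j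
      ≤ ∑ j ∈ Finset.range (2 * n + 1), f j :=
    Finset.sum_le_sum_of_subset_of_nonneg hsub (fun _ _ _ => sq_nonneg _)
  rw [Finset.sum_union hdisj, Finset.sum_image (fun a _ b _ h => by simpa using h), ← Finset.sum_add_distrib] at h1
  have h2 : ∑ _j ∈ Finset.Ioc (n / 2) n, (7 / 16 : ℝ) ≤ ∑ j ∈ Finset.Ioc (n / 2) n, (f j + f (2 * j)) := by
    apply Finset.sum_le_sum
    intro j _
    have := ker_cos_pair ((j : ℝ) * θ)
    simp only [hf]
    have e : ((2 * j : ℕ) : ℝ) * θ = 2 * ((j : ℝ) * θ) := by push_cast; ring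
    rw [e]
    exact this
  rw [Finset.sum_const, Nat.card_Ioc, nsmul_eq_mul] at h2
  have h3 : (n : ℝ) ≤ 2 * ((n - n / 2 : ℕ) : ℝ) := by
    have : n ≤ 2 * (n - n / 2) := by omega
    exact_mod_cast this
  linarith

end Claimed.Agent.R285.Ker
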