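import Claimed.Agent.R285.Ker.Quad
import Claimed.Agent.R285.Ker.Sum
import Claimed.Agent.R285.Ker.Cos

/-!
# ROW 285, [B] L4.1, leaf L41-DIAG: lower bound of the diagonal  (cut by helper198)

FROM `Ker/Quad.lean` (`ker_quad`), `Ker/Chi1.lean` (`ker_chi1_pair`, `ker_chi1_norm`), `Ker/Sum.lean` (`ker_lam1_upper`), `Ker/Cos.lean` (`ker_cos_sum`), `Ker/Fold.lean`.
PLAN.
* `ker_diag_formula`: `ker_quad h (Pi.single v 1)`: LHS `= Γ v v` (`simp [dotProduct, Matrix.mulVec, Pi.single_apply]`), `ftr G (Pi.single v 1) k = ∑_{s ∈ imgs G} χ_k (rf s (ι v))`.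
  Periodic: one term of modulus `1`, `card = 1`.   Free: `∑_s = (chi1 k₁ v₁ + chi1 k₁ (-1 - v₁)) (chi1 k₂ v₂ + chi1 k₂ (-1 - v₂))` (`Fintype.sum_prod_type`, `Fintype.sum_bool`), `norm_mul`, `mul_pow`, `ker_chi1_pair`:
  `‖ftr‖² = 16 cos² cos²`, `card = 4`, `wt1 wt1 = 4 cos² cos²`.   (cases: `obtain ⟨bc, M, hM⟩ := G; cases bc`, `simp [imgs, wt1, per]`.)
* `ker_wt_sum`: sum over `j : Fin N` with `j ≤ 2n` = sum over `range (2n+1)` (`2n < N`; `Finset.sum_bij`/`Fin.sum_univ_eq_sum_range` + `Finset.sum_filter`/`Finset.sum_subset`).  Periodic: `2n + 1 ≥ (7/32) n`.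
  Free: `2 ∑ cos² (j θ)`, `θ = π (2a+1)/N`, `ker_cos_sum`.
* `ker_diag_lower`, `c₁ = (7/256)²` works.  `n = N / (4t)` (natural division), `n ≥ 1`, `n ≥ N/(8t)` (real), `2n < N`, `4 t n ≤ N`.  Box `K = {k : k₁ ≤ 2n, k₂ ≤ 2n}`.  For `k ∈ K`: `t² lam1 N k_i ≤ t² 4π² (2n)²/N² ≤ π² ≤ 16`
  (`Real.pi_lt_four`/`Real.pi_le_four`), so `t² λ_k ≤ 32`, `m (λ_k) ≥ c₀ t²`.  All the terms are `≥ 0` (`wt1 ≥ 0`, `hm0`, `ker_lam_nonneg`, `ker_lam_le`), restrict the sum to `K` (`Finset.sum_le_sum_of_subset_of_nonneg`, `K = A ×ˢ A`,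
  `Finset.sum_product`, `Finset.sum_mul_sum`): `Γ v v ≥ N⁻² c₀ t² ((7/32) n)² ≥ c₀ (7/32)² (1/8)²`.
-/

set_option autoImplicit false

namespace Claimed.Agent.R285.Ker

open scoped BigOperators
open Claimed.Agent.R285.RG

/-- one-dimensional weight of the frequency `j` at the site `a` -/
noncomputable def wt1 (G : Geom) (a : Fin G.M) (j : Fin (per G)) : ℝ :=
  match G.bc with
  | BC.per => 1
  | BC.free => 2 * Real.cos (Real.pi * ((j : ℕ) : ℝ) * (2 * ((a : ℕ) : ℝ) + 1) / ((per G : ℕ) : ℝ)) ^ 2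

theorem ker_wt1_nonneg (G : Geom) (a : Fin G.M) (j : Fin (per G)) : 0 ≤ wt1 G a j := by
  obtain ⟨bc, M, hM⟩ := G
  cases bc
  · simp [wt1]
  · simp only [wt1]; positivity

theorem ker_ftr_single (G : Geom) (v : G.V) (k : Fin (per G) × Fin (per G)) :
    ftr G (Pi.single v 1) k = ∑ s ∈ imgs G, chi (per G) k (rf s (G.ι v)) := by
  classical
  unfold ftr
  apply Finset.sum_congr rfl
  intro s _
  rw [Finset.sum_eq_single v]
  · simp
  · intro w _ hw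
    simp [hw]
  · intro h; exact absurd (Finset.mem_univ v) h

theorem ker_ftr_single_norm (G : Geom) (v : G.V) (k : Fin (per G) × Fin (per G)) :
    ‖ftr G (Pi.single v 1) k‖ ^ 2 = ((imgs G).card : ℝ) * (wt1 G v.1 k.1 * wt1 G v.2 k.2) := by
  rw [ker_ftr_single]
  obtain ⟨bc, M, hM⟩ := G
  cases bc
  · simp [imgs, wt1, ker_chi_norm]
  · have e : ∑ s ∈ imgs ⟨BC.free, M, hM⟩, chi (per ⟨BC.free, M, hM⟩) k (rf s (Geom.ι ⟨BC.free, M, hM⟩ v))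
        = (chi1 (per ⟨BC.free, M, hM⟩) k.1 ((v.1 : ℕ) : ℤ) + chi1 (per ⟨BC.free, M, hM⟩) k.1 (-1 - ((v.1 : ℕ) : ℤ)))
          * (chi1 (per ⟨BC.free, M, hM⟩) k.2 ((v.2 : ℕ) : ℤ) + chi1 (per ⟨BC.free, M, hM⟩) k.2 (-1 - ((v.2 : ℕ) : ℤ))) := by
      simp only [imgs, Fintype.sum_prod_type, Fintype.sum_bool, chi, rf, rf1, Geom.ι, if_true, if_false,
        Bool.false_eq_true]
      ring
    rw [e, norm_mul, mul_pow, ker_chi1_pair, ker_chi1_pair]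
    simp only [imgs, wt1, Finset.card_univ, Fintype.card_prod, Fintype.card_bool]
    push_cast
    ring

theorem ker_diag_formula {G : Geom} {Γ : Matrix G.V G.V ℝ} {m : ℝ → ℝ} (h : HasMul G Γ m) (v : G.V) :
    Γ v v = (((per G : ℕ) : ℝ) ^ 2)⁻¹ * ∑ k : Fin (per G) × Fin (per G),
      m (lam (per G) k) * (wt1 G v.1 k.1 * wt1 G v.2 k.2) := by
  classical
  have h1 := ker_quad h (Pi.single v 1)
  have h2 : (Pi.single v 1 : G.V → ℝ) ⬝ᵥ Γ.mulVec (Pi.single v 1) = Γ v v := by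
    simp [Matrix.mulVec_single]
  rw [h2] at h1
  rw [h1]
  simp only [ker_ftr_single_norm]
  have hc : ((imgs G).card : ℝ) ≠ 0 := by
    have := ker_imgs_card_pos G
    exact_mod_cast this.ne'
  rw [mul_assoc, Finset.mul_sum, Finset.mul_sum, Finset.mul_sum]
  apply Finset.sum_congr rfl
  intro k _
  field_simp

theorem ker_sum_fin_le (N n : ℕ) (hn : n < N) (W : ℕ → ℝ) :
    ∑ j ∈ Finset.univ.filter (fun j : Fin N => (j : ℕ) ≤ n), W (j : ℕ) = ∑ j ∈ Finset.range (n + 1), W j := by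
  rw [Finset.sum_filter, Fin.sum_univ_eq_sum_range (fun j => if j ≤ n then W j else 0) N, ← Finset.sum_filter]
  congr 1
  ext j
  simp only [Finset.mem_filter, Finset.mem_range]
  omega

theorem ker_wt_sum (G : Geom) (a : Fin G.M) (n : ℕ) (hn : 2 * n < per G) :
    7 / 32 * (n : ℝ) ≤ ∑ j ∈ Finset.univ.filter (fun j : Fin (per G) => (j : ℕ) ≤ 2 * n), wt1 G a j := by
  obtain ⟨bc, M, hM⟩ := G
  cases bc
  · simp only [wt1]
    rw [ker_sum_fin_le _ _ hn (fun _ => (1 : ℝ))]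
    simp
    have : (0 : ℝ) ≤ (n : ℝ) := by positivity
    linarith
  · simp only [wt1]
    rw [ker_sum_fin_le _ _ hn (fun j => 2 * Real.cos (Real.pi * (j : ℝ) * (2 * ((a : ℕ) : ℝ) + 1)
      / ((per ⟨BC.free, M, hM⟩ : ℕ) : ℝ)) ^ 2)]
    have := ker_cos_sum n (Real.pi * (2 * ((a : ℕ) : ℝ) + 1) / ((per ⟨BC.free, M, hM⟩ : ℕ) : ℝ))
    rw [← Finset.mul_sum]
    have e : ∑ j ∈ Finset.range (2 * n + 1), Real.cos (Real.pi * (j : ℝ) * (2 * ((a : ℕ) : ℝ) + 1)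
        / ((per ⟨BC.free, M, hM⟩ : ℕ) : ℝ)) ^ 2
        = ∑ j ∈ Finset.range (2 * n + 1), Real.cos ((j : ℝ) * (Real.pi * (2 * ((a : ℕ) : ℝ) + 1)
          / ((per ⟨BC.free, M, hM⟩ : ℕ) : ℝ))) ^ 2 := by
      apply Finset.sum_congr rfl
      intro j _
      congr 2
      ring
    rw [e]
    have h0 : (0 : ℝ) ≤ (n : ℝ) := by positivity
    linarith

theorem ker_diag_lower : ∃ c1 : ℝ, 0 < c1 ∧ ∀ (G : Geom) (Γ : Matrix G.V G.V ℝ) (m : ℝ → ℝ) (t : ℕ) (c0 : ℝ),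
    HasMul G Γ m → 0 ≤ c0 → (∀ x : ℝ, 0 ≤ x → x ≤ 8 → 0 ≤ m x) →
    (∀ x : ℝ, 0 ≤ x → x ≤ 8 → (t : ℝ) ^ 2 * x ≤ 32 → c0 * (t : ℝ) ^ 2 ≤ m x) → 1 ≤ t → 4 * t ≤ per G →
    ∀ v : G.V, c1 * c0 ≤ Γ v v := by
  refine ⟨(7 / 256) ^ 2, by positivity, fun G Γ m t c0 h hc0 hm0 hm ht htN v => ?_⟩
  classical
  set N := per G with hN
  set n := N / (4 * t) with hn
  have h4t : 0 < 4 * t := by omega
  have hn1 : 1 ≤ n := (Nat.one_le_div_iff h4t).2 htN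
  have hnN : 4 * t * n ≤ N := Nat.mul_div_le N (4 * t)
  have hnN2 : N < 4 * t * (n + 1) := by
    have := Nat.lt_mul_div_succ N h4t
    simpa [hn] using this
  have h2n : 2 * n < N := by
    have : 4 * n ≤ 4 * t * n := by nlinarith
    omega
  have hNpos : (0 : ℝ) < (N : ℝ) := by
    have : 0 < N := by omega
    exact_mod_cast this
  have ht' : (1 : ℝ) ≤ (t : ℝ) := by exact_mod_cast ht
  have hn' : (1 : ℝ) ≤ (n : ℝ) := by exact_mod_cast hn1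
  have hnN' : 4 * (t : ℝ) * (n : ℝ) ≤ (N : ℝ) := by exact_mod_cast hnN
  have hnN2' : (N : ℝ) ≤ 8 * (t : ℝ) * (n : ℝ) := by
    have : (N : ℝ) < 4 * (t : ℝ) * ((n : ℝ) + 1) := by exact_mod_cast hnN2
    nlinarith
  set A : Finset (Fin N) := Finset.univ.filter (fun j : Fin N => (j : ℕ) ≤ 2 * n) with hA
  have hl : ∀ j ∈ A, (t : ℝ) ^ 2 * lam1 N j ≤ 16 := by
    intro j hj
    rw [hA, Finset.mem_filter] at hj
    have hj' : ((j : ℕ) : ℝ) ≤ 2 * (n : ℝ) := by exact_mod_cast hj.2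
    have h1 := ker_lam1_upper N j
    have h2 : (t : ℝ) * ((j : ℕ) : ℝ) ≤ (N : ℝ) / 2 := by nlinarith
    have h3 : ((t : ℝ) * ((j : ℕ) : ℝ)) ^ 2 ≤ ((N : ℝ) / 2) ^ 2 := pow_le_pow_left₀ (by positivity) h2 2
    have hpi : Real.pi ^ 2 ≤ 16 := by nlinarith [Real.pi_le_four, Real.pi_pos]
    calc (t : ℝ) ^ 2 * lam1 N j ≤ (t : ℝ) ^ 2 * (4 * Real.pi ^ 2 * ((j : ℕ) : ℝ) ^ 2 / (N : ℝ) ^ 2) :=
          mul_le_mul_of_nonneg_left h1 (sq_nonneg _)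
      _ = 4 * Real.pi ^ 2 * ((t : ℝ) * ((j : ℕ) : ℝ)) ^ 2 / (N : ℝ) ^ 2 := by ring
      _ ≤ 4 * Real.pi ^ 2 * ((N : ℝ) / 2) ^ 2 / (N : ℝ) ^ 2 := by
          apply div_le_div_of_nonneg_right _ (by positivity)
          exact mul_le_mul_of_nonneg_left h3 (by positivity)
      _ = Real.pi ^ 2 := by field_simp; ring
      _ ≤ 16 := hpi
  rw [ker_diag_formula h v]
  have s1 := ker_wt_sum G v.1 n h2n
  have s2 := ker_wt_sum G v.2 n h2n
  have hsum : c0 * (t : ℝ) ^ 2 * ((∑ j ∈ A, wt1 G v.1 j) * (∑ j ∈ A, wt1 G v.2 j))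
      ≤ ∑ k : Fin N × Fin N, m (lam N k) * (wt1 G v.1 k.1 * wt1 G v.2 k.2) := by
    calc c0 * (t : ℝ) ^ 2 * ((∑ j ∈ A, wt1 G v.1 j) * (∑ j ∈ A, wt1 G v.2 j))
        = ∑ k ∈ A ×ˢ A, c0 * (t : ℝ) ^ 2 * (wt1 G v.1 k.1 * wt1 G v.2 k.2) := by
          rw [Finset.sum_mul_sum, Finset.sum_product, Finset.mul_sum]
          apply Finset.sum_congr rfl
          intro i _
          rw [Finset.mul_sum]
      _ ≤ ∑ k ∈ A ×ˢ A, m (lam N k) * (wt1 G v.1 k.1 * wt1 G v.2 k.2) := by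
          apply Finset.sum_le_sum
          intro k hk
          rw [Finset.mem_product] at hk
          apply mul_le_mul_of_nonneg_right _ (mul_nonneg (ker_wt1_nonneg _ _ _) (ker_wt1_nonneg _ _ _))
          apply hm _ (ker_lam_nonneg N k) (ker_lam_le N k)
          have a1 := hl k.1 hk.1
          have a2 := hl k.2 hk.2
          unfold lam
          linarith
      _ ≤ ∑ k : Fin N × Fin N, m (lam N k) * (wt1 G v.1 k.1 * wt1 G v.2 k.2) := by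
          apply Finset.sum_le_sum_of_subset_of_nonneg (Finset.subset_univ _)
          intro k _ _
          exact mul_nonneg (hm0 _ (ker_lam_nonneg N k) (ker_lam_le N k))
            (mul_nonneg (ker_wt1_nonneg _ _ _) (ker_wt1_nonneg _ _ _))
  have hprod : (7 / 32 * (n : ℝ)) * (7 / 32 * (n : ℝ)) ≤ (∑ j ∈ A, wt1 G v.1 j) * (∑ j ∈ A, wt1 G v.2 j) :=
    mul_le_mul s1 s2 (by positivity) (le_trans (by positivity) s1)
  rw [le_inv_mul_iff₀ (by positivity)]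
  refine le_trans ?_ hsum
  have h5 : (N : ℝ) ^ 2 ≤ (8 * (t : ℝ) * (n : ℝ)) ^ 2 := pow_le_pow_left₀ hNpos.le hnN2' 2
  calc (N : ℝ) ^ 2 * ((7 / 256) ^ 2 * c0) ≤ (8 * (t : ℝ) * (n : ℝ)) ^ 2 * ((7 / 256) ^ 2 * c0) :=
        mul_le_mul_of_nonneg_right h5 (by positivity)
    _ = c0 * (t : ℝ) ^ 2 * ((7 / 32 * (n : ℝ)) * (7 / 32 * (n : ℝ))) := by ring
    _ ≤ _ := mul_le_mul_of_nonneg_left hprod (by positivity)

end Claimed.Agent.R285.Ker
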