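import Claimed.Agent.R285.Ker.Defs

/-!
# ROW 285, [B] L4.1, leaf L41-DY: sums over the dyadic scales that reach distance `D`  (cut by helper198)

Mathlib only.  `J = {j < ℓ : D ≤ 64 (2^j u) + d'}` (the pieces whose range reaches `D`).   `A = 65 + d'`.
KEY: for `j ∈ J`, `t = 2^j u ≥ u ≥ 1`: `u + D ≤ t + 64 t + d' ≤ A t`.
PLAN.
* `ker_dyadic_sum`, `C = 2 A^12`.  If `J = ∅` the sum is `0`.  Otherwise `j₀ = J.min'`, every `j ∈ J` is `j₀ + i`, `i < ℓ`, so `∑_{j ∈ J} t_j^{-s} ≤ ∑_{i < ℓ} (2^i t_{j₀})^{-s} ≤ t_{j₀}^{-s} ∑_i (1/2)^i ≤ 2 t_{j₀}^{-s}`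
  (`s ≥ 1`: `(2^i)^{-s} ≤ (1/2)^i`; geometric sum: `geom_sum_eq`/`sum_geometric_two_le`), and `t_{j₀}^{-s} ≤ A^s (u + D)^{-s} ≤ A^12 (u + D)^{-s}`.
  Alternative avoiding `min'`: `J` is an up-set in `range ℓ`; induct on `ℓ` downward; or bound `t_j^{-s} ≤ t_j^{-1} · (A/(u+D))^{s-1}` and `∑_{j ∈ J} 1/t_j ≤ 2/t_{j₀}`.
* `ker_dyadic_card`, `C = 1 + log A / log 2 + 1 / log 2`-type.  If `J ≠ ∅`: `card J ≤ ℓ - j₀` (`J ⊆ Ico j₀ ℓ`), `2^{ℓ - j₀} = 2^ℓ u / t_{j₀} ≤ A · 2^ℓ u/(u + D)`; take logs: `(ℓ - j₀) log 2 ≤ log A + log (2^ℓ u/(u+D)) ≤ log A + log⁺ (..)`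
  (`Real.log_le_posLog`/`Real.posLog_def`‑type lemma: `Real.posLog x = max 0 (log x)`; `Real.log_pow`, `Real.log_mul`, `Real.log_le_log`).
-/

set_option autoImplicit false

namespace Claimed.Agent.R285.Ker

open scoped BigOperators

theorem ker_dy_sum_aux (x : ℝ) (hx : 0 < x) (ℓ : ℕ) (u : ℝ) (hu : 0 < u) :
    ∑ j ∈ Finset.range ℓ, (if x ≤ 2 ^ j * u then (2 ^ j * u)⁻¹ else 0) ≤ 2 / x := by
  induction ℓ generalizing u with
  | zero => simp; positivity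
  | succ ℓ ih =>
    by_cases h : x ≤ u
    · calc ∑ j ∈ Finset.range (ℓ + 1), (if x ≤ 2 ^ j * u then (2 ^ j * u)⁻¹ else 0)
          ≤ ∑ j ∈ Finset.range (ℓ + 1), (1 / 2 : ℝ) ^ j * u⁻¹ := by
            apply Finset.sum_le_sum
            intro j _
            split_ifs
            · rw [mul_inv, one_div, inv_pow]
            · positivity
        _ = (∑ j ∈ Finset.range (ℓ + 1), (1 / 2 : ℝ) ^ j) * u⁻¹ := by rw [Finset.sum_mul]
        _ ≤ 2 * u⁻¹ := mul_le_mul_of_nonneg_right (sum_geometric_two_le _) (by positivity)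
        _ ≤ 2 * x⁻¹ := by
            apply mul_le_mul_of_nonneg_left _ (by norm_num)
            exact inv_anti₀ hx h
        _ = 2 / x := by ring
    · rw [Finset.sum_range_succ']
      simp only [pow_zero, one_mul, if_neg h, add_zero]
      have := ih (2 * u) (by positivity)
      refine le_trans (le_of_eq ?_) this
      apply Finset.sum_congr rfl
      intro j _
      have e : (2 : ℝ) ^ (j + 1) * u = 2 ^ j * (2 * u) := by ring
      rw [e]

theorem ker_dyadic_sum (d' : ℕ) : ∃ C : ℝ, 0 ≤ C ∧ ∀ u ℓ D s : ℕ, 1 ≤ u → 1 ≤ s → s ≤ 12 →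
    ∑ j ∈ (Finset.range ℓ).filter (fun j => D ≤ 64 * (2 ^ j * u) + d'), ((((2 ^ j * u : ℕ) : ℝ)) ^ s)⁻¹
      ≤ C * (((u : ℝ) + (D : ℝ)) ^ s)⁻¹ := by
  set A : ℝ := 65 + (d' : ℝ) with hA
  have hA1 : 1 ≤ A := by rw [hA]; have : (0 : ℝ) ≤ (d' : ℝ) := by positivity
                         linarith
  refine ⟨2 * A ^ 12, by positivity, fun u ℓ D s hu hs hs12 => ?_⟩
  have hu' : (1 : ℝ) ≤ (u : ℝ) := by exact_mod_cast hu
  have hD : (0 : ℝ) ≤ (D : ℝ) := by positivity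
  set x : ℝ := ((u : ℝ) + (D : ℝ)) / A with hx
  have hx0 : 0 < x := by positivity
  have key : ∀ j : ℕ, D ≤ 64 * (2 ^ j * u) + d' → x ≤ 2 ^ j * (u : ℝ) := by
    intro j hj
    have hj' : (D : ℝ) ≤ 64 * (2 ^ j * (u : ℝ)) + (d' : ℝ) := by exact_mod_cast hj
    have h2 : (1 : ℝ) ≤ 2 ^ j := one_le_pow₀ (by norm_num)
    have h3 : (u : ℝ) ≤ 2 ^ j * (u : ℝ) := by nlinarith
    have h4 : (1 : ℝ) ≤ 2 ^ j * (u : ℝ) := by linarith
    rw [hx, div_le_iff₀ (by positivity), hA]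
    have : (0 : ℝ) ≤ (d' : ℝ) := by positivity
    nlinarith
  obtain ⟨s', rfl⟩ : ∃ s', s = s' + 1 := ⟨s - 1, by omega⟩
  rw [Finset.sum_filter]
  calc ∑ j ∈ Finset.range ℓ, (if D ≤ 64 * (2 ^ j * u) + d' then ((((2 ^ j * u : ℕ) : ℝ)) ^ (s' + 1))⁻¹ else 0)
      ≤ ∑ j ∈ Finset.range ℓ, (x ^ s')⁻¹ * (if x ≤ 2 ^ j * (u : ℝ) then (2 ^ j * (u : ℝ))⁻¹ else 0) := by
        apply Finset.sum_le_sum
        intro j _
        split_ifs with h1 h2 h2
        · push_cast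
          rw [pow_succ, mul_inv]
          apply mul_le_mul_of_nonneg_right _ (by positivity)
          apply inv_anti₀ (by positivity)
          exact pow_le_pow_left₀ hx0.le h2 _
        · exact absurd (key j h1) h2
        · positivity
        · simp
    _ = (x ^ s')⁻¹ * ∑ j ∈ Finset.range ℓ, (if x ≤ 2 ^ j * (u : ℝ) then (2 ^ j * (u : ℝ))⁻¹ else 0) := by
        rw [Finset.mul_sum]
    _ ≤ (x ^ s')⁻¹ * (2 / x) :=
        mul_le_mul_of_nonneg_left (ker_dy_sum_aux x hx0 ℓ u (by linarith)) (by positivity)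
    _ = 2 * A ^ (s' + 1) * (((u : ℝ) + (D : ℝ)) ^ (s' + 1))⁻¹ := by
        rw [hx]
        have : (u : ℝ) + (D : ℝ) ≠ 0 := by positivity
        have : A ≠ 0 := by positivity
        rw [div_pow, pow_succ, pow_succ]
        field_simp
    _ ≤ 2 * A ^ 12 * (((u : ℝ) + (D : ℝ)) ^ (s' + 1))⁻¹ := by
        apply mul_le_mul_of_nonneg_right _ (by positivity)
        apply mul_le_mul_of_nonneg_left _ (by norm_num)
        exact pow_le_pow_right₀ hA1 hs12

theorem ker_log_le_posLog (x : ℝ) : Real.log x ≤ Real.posLog x := by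
  rw [Real.posLog_def]
  exact le_sup_right

theorem ker_dy_card_aux (x : ℝ) (hx : 0 < x) (ℓ : ℕ) (u : ℝ) (hu : 0 < u) :
    ((((Finset.range ℓ).filter (fun j => x ≤ 2 ^ j * u)).card : ℕ) : ℝ) * Real.log 2 ≤ Real.posLog (2 ^ ℓ * u / x) := by
  induction ℓ generalizing u with
  | zero => simp; exact Real.posLog_nonneg
  | succ ℓ ih =>
    by_cases h : x ≤ u
    · have h1 : ((((Finset.range (ℓ + 1)).filter (fun j => x ≤ 2 ^ j * u)).card : ℕ) : ℝ) ≤ ((ℓ + 1 : ℕ) : ℝ) := by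
        have := Finset.card_filter_le (Finset.range (ℓ + 1)) (fun j => x ≤ 2 ^ j * u)
        rw [Finset.card_range] at this
        exact_mod_cast this
      have h2 : (0 : ℝ) ≤ Real.log 2 := Real.log_nonneg (by norm_num)
      calc _ ≤ ((ℓ + 1 : ℕ) : ℝ) * Real.log 2 := mul_le_mul_of_nonneg_right h1 h2
        _ = Real.log (2 ^ (ℓ + 1)) := by rw [Real.log_pow]
        _ ≤ Real.log (2 ^ (ℓ + 1) * u / x) := by
            apply Real.log_le_log (by positivity)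
            rw [le_div_iff₀ hx]
            exact mul_le_mul_of_nonneg_left h (by positivity)
        _ ≤ _ := ker_log_le_posLog _
    · have := ih (2 * u) (by positivity)
      have e : (2 : ℝ) ^ (ℓ + 1) * u / x = 2 ^ ℓ * (2 * u) / x := by ring
      rw [e]
      refine le_trans (le_of_eq ?_) this
      congr 2
      rw [Finset.card_filter, Finset.card_filter, Finset.sum_range_succ']
      simp only [pow_zero, one_mul, if_neg h, add_zero]
      apply Finset.sum_congr rfl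
      intro j _
      have e : (2 : ℝ) ^ (j + 1) * u = 2 ^ j * (2 * u) := by ring
      rw [e]

theorem ker_dyadic_card (d' : ℕ) : ∃ C : ℝ, 0 ≤ C ∧ ∀ u ℓ D : ℕ, 1 ≤ u →
    ((((Finset.range ℓ).filter (fun j => D ≤ 64 * (2 ^ j * u) + d')).card : ℕ) : ℝ)
      ≤ C * (1 + Real.posLog ((((2 ^ ℓ : ℕ) : ℝ) * (u : ℝ)) / ((u : ℝ) + (D : ℝ)))) := by
  set A : ℝ := 65 + (d' : ℝ) with hA
  have hA1 : 1 ≤ A := by rw [hA]; have : (0 : ℝ) ≤ (d' : ℝ) := by positivity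
                         linarith
  have hl2 : (0 : ℝ) < Real.log 2 := Real.log_pos (by norm_num)
  refine ⟨(1 + Real.posLog A) / Real.log 2, by have := @Real.posLog_nonneg A; positivity, fun u ℓ D hu => ?_⟩
  have hu' : (1 : ℝ) ≤ (u : ℝ) := by exact_mod_cast hu
  have hD : (0 : ℝ) ≤ (D : ℝ) := by positivity
  set x : ℝ := ((u : ℝ) + (D : ℝ)) / A with hx
  have hx0 : 0 < x := by positivity
  have key : ∀ j : ℕ, D ≤ 64 * (2 ^ j * u) + d' → x ≤ 2 ^ j * (u : ℝ) := by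
    intro j hj
    have hj' : (D : ℝ) ≤ 64 * (2 ^ j * (u : ℝ)) + (d' : ℝ) := by exact_mod_cast hj
    have h2 : (1 : ℝ) ≤ 2 ^ j := one_le_pow₀ (by norm_num)
    have h3 : (u : ℝ) ≤ 2 ^ j * (u : ℝ) := by nlinarith
    have h4 : (1 : ℝ) ≤ 2 ^ j * (u : ℝ) := by linarith
    rw [hx, div_le_iff₀ (by positivity), hA]
    have : (0 : ℝ) ≤ (d' : ℝ) := by positivity
    nlinarith
  have h1 : ((((Finset.range ℓ).filter (fun j => D ≤ 64 * (2 ^ j * u) + d')).card : ℕ) : ℝ)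
      ≤ ((((Finset.range ℓ).filter (fun j => x ≤ 2 ^ j * (u : ℝ))).card : ℕ) : ℝ) := by
    have : ((Finset.range ℓ).filter (fun j => D ≤ 64 * (2 ^ j * u) + d')).card
        ≤ ((Finset.range ℓ).filter (fun j => x ≤ 2 ^ j * (u : ℝ))).card := by
      apply Finset.card_le_card
      intro j hj
      rw [Finset.mem_filter] at hj ⊢
      exact ⟨hj.1, key j hj.2⟩
    exact_mod_cast this
  have h2 := ker_dy_card_aux x hx0 ℓ u (by linarith)
  set z : ℝ := (((2 ^ ℓ : ℕ) : ℝ) * (u : ℝ)) / ((u : ℝ) + (D : ℝ)) with hz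
  have e : (2 : ℝ) ^ ℓ * (u : ℝ) / x = A * z := by
    rw [hx, hz]
    have : (u : ℝ) + (D : ℝ) ≠ 0 := by positivity
    have : A ≠ 0 := by positivity
    push_cast
    field_simp
  rw [e] at h2
  have h3 := @Real.posLog_mul A z
  have h4 := @Real.posLog_nonneg A
  have h5 := @Real.posLog_nonneg z
  rw [div_mul_eq_mul_div, le_div_iff₀ hl2]
  calc _ ≤ ((((Finset.range ℓ).filter (fun j => x ≤ 2 ^ j * (u : ℝ))).card : ℕ) : ℝ) * Real.log 2 :=
        mul_le_mul_of_nonneg_right h1 hl2.le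
    _ ≤ Real.posLog A + Real.posLog z := h2.trans h3
    _ ≤ (1 + Real.posLog A) * (1 + Real.posLog z) := by nlinarith [mul_nonneg h4 h5]

end Claimed.Agent.R285.Ker
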