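import Claimed.Agent.R285.Ker.Asm1
import Claimed.Agent.R285.Ker.Diag
import Claimed.Agent.R285.Ker.Dy

/-!
# ROW 285, [B] L4.1, leaf L41-ASM2: the five bounds of `ShellBounds`  (cut by helper198)

FROM `Ker/Asm1.lean`, `Ker/Diag.lean`, `Ker/Dy.lean`, `Ker/Sym2.lean`, `Ker/Kd.lean`, `Ker/Quad.lean`, `Ker/Lin.lean`, `Ker/Fold.lean`.     `Γ = shell G F u (2^ℓ u) = ∑_{j<ℓ} Γ_j`, `Γ_j = shell G F t_j (2 t_j)`, `t_j = 2^j u`.
PLAN.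
* `ker_mixed`, `ker_pointwise`: `ker_shell_split`, `ker_kdif_sum`, `Finset.abs_sum_le_sum_abs`.  With `D = G.dist v w` (`π (ι v) = v`): the terms with `64 t_j + (d + 12) < D` vanish (`ker_piece_zero`), i.e. only
  `j ∈ J = (range ℓ).filter (D ≤ 64 t_j + (d+12))` remain (`Finset.sum_filter_add_sum_filter_not`/`Finset.sum_filter_of_ne`‑type, `not_le`); on `J`: `ker_piece_bound` (`t_j ≤ 2^ℓ u ≤ per G`), then
  `ker_dyadic_sum (d+12)` (`s = r + r' ≥ 1`), resp. `ker_dyadic_card (d+12)` (`r = r' = 0`: `ker_kdif_nil`, `(t^0)⁻¹ = 1`, `Finset.sum_const`).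
* `ker_diag`: `Γ v v = ∑_j Γ_j v v` (`Matrix.sum_apply`), each `≥ c₁ c₀`, `c₀ = b0 (2/π)^66/(2 cmax)` (`ker_diag_lower` with `m = (shellP t (2t)).eval`, `ker_cov_mul`, `ker_piece_nonneg`, `ker_piece_ge`; `4 t_j ≤ 4·2^ℓ u ≤ per G`);
  `log (2^ℓ) = ℓ log 2 ≤ ℓ` (`Real.log_pow`, `Real.log_two_lt_d9` or `Real.log_le_sub_one_of_pos`).  `c = c₁ c₀` if `cmax > 0`; to have `0 < c` for ALL `cmax` take `c₀ = b0 (2/π)^66/(2 max cmax 16)` and if `b0 ≤ 0` the hypothesis `Adm` is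
  contradictory (`hF.b0_pos`): choose `c = c₁ · max-type expression` or `by_cases h : 0 < b0`.
* `ker_opnorm`: `ker_cov_le` + `ker_shell_le`.     `ker_grad`: `ker_kdif_form (ker_cov_mul ..)` with `B = b1 (2cmax)^5 (u^{2(r-1)})⁻¹` (`ker_shell_pow`, `abs_of_nonneg (ker_shell_nonneg ..)`).
-/

set_option autoImplicit false

namespace Claimed.Agent.R285.Ker

open scoped BigOperators
open Polynomial
open Claimed.Agent.R285.RG

/-- common step: a shell is bounded by the sum over the pieces that reach the distance -/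
theorem ker_shell_reach (G : Geom) {F : Fam} {b0 b1 : ℝ} {d : ℕ} (hF : F.Adm b0 b1 d) (C1 : ℝ)
    (ℓ u : ℕ) {r r' : ℕ} (hr : r + r' ≤ 12) (a : Fin r → Fin 4) (b : Fin r' → Fin 4)
    (hC1 : ∀ j ∈ Finset.range ℓ, ∀ x y : ℤ × ℤ,
      |kdif G a b (shell G F (2 ^ j * u) (2 * (2 ^ j * u))) x y| ≤ C1 * ((((2 ^ j * u : ℕ) : ℝ)) ^ (r + r'))⁻¹)
    (v w : G.V) :
    |kdif G a b (shell G F u (2 ^ ℓ * u)) (G.ι v) (G.ι w)| ≤
      C1 * ∑ j ∈ (Finset.range ℓ).filter (fun j => G.dist v w ≤ 64 * (2 ^ j * u) + (d + 12)),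
        ((((2 ^ j * u : ℕ) : ℝ)) ^ (r + r'))⁻¹ := by
  rw [ker_shell_split, ker_kdif_sum]
  refine (Finset.abs_sum_le_sum_abs _ _).trans ?_
  rw [← Finset.sum_filter_of_ne (p := fun j => G.dist v w ≤ 64 * (2 ^ j * u) + (d + 12)), Finset.mul_sum]
  · exact Finset.sum_le_sum fun j hj => hC1 j (Finset.mem_filter.mp hj).1 _ _
  · intro j _ hne
    by_contra hcon
    apply hne
    rw [abs_eq_zero]
    refine ker_piece_zero G hF _ hr a b _ _ ?_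
    rw [ker_pi_iota, ker_pi_iota]
    exact not_le.mp hcon

theorem ker_mixed (b0 b1 cmax : ℝ) (d : ℕ) : ∃ C : ℝ, 0 ≤ C ∧ ∀ (G : Geom) (F : Fam), F.Adm b0 b1 d → F.c ≤ cmax →
    ∀ ℓ u : ℕ, 1 ≤ u → 2 ^ ℓ * u ≤ per G → ∀ r r' : ℕ, 1 ≤ r + r' → r + r' ≤ 12 →
      ∀ (a : Fin r → Fin 4) (b : Fin r' → Fin 4) (v w : G.V),
        |kdif G a b (shell G F u (2 ^ ℓ * u)) (G.ι v) (G.ι w)| ≤ C * (((u : ℝ) + G.dist v w) ^ (r + r'))⁻¹ := by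
  obtain ⟨C1, hC1, h1⟩ := ker_piece_bound b0 b1 cmax d
  obtain ⟨C2, hC2, h2⟩ := ker_dyadic_sum (d + 12)
  refine ⟨C1 * C2, by positivity, ?_⟩
  intro G F hF hc ℓ u hu hper r r' hr1 hr12 a b v w
  have hp : ∀ j ∈ Finset.range ℓ, ∀ x y : ℤ × ℤ,
      |kdif G a b (shell G F (2 ^ j * u) (2 * (2 ^ j * u))) x y| ≤ C1 * ((((2 ^ j * u : ℕ) : ℝ)) ^ (r + r'))⁻¹ := by
    intro j hj x y
    have hj' : j < ℓ := Finset.mem_range.mp hj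
    have h3 : 2 ^ j * u ≤ 2 ^ ℓ * u := Nat.mul_le_mul_right _ (Nat.pow_le_pow_right (by norm_num) hj'.le)
    have h4 : 1 ≤ 2 ^ j * u := Nat.mul_pos (by positivity) hu
    exact h1 G F hF hc _ h4 (h3.trans hper) r r' hr12 a b x y
  refine (ker_shell_reach G hF C1 ℓ u hr12 a b hp v w).trans ?_
  rw [mul_assoc]
  exact mul_le_mul_of_nonneg_left (h2 u ℓ (G.dist v w) (r + r') hu hr1 hr12) hC1

theorem ker_pointwise (b0 b1 cmax : ℝ) (d : ℕ) : ∃ C : ℝ, 0 ≤ C ∧ ∀ (G : Geom) (F : Fam), F.Adm b0 b1 d → F.c ≤ cmax →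
    ∀ ℓ u : ℕ, 1 ≤ u → 2 ^ ℓ * u ≤ per G → ∀ v w : G.V,
      |shell G F u (2 ^ ℓ * u) v w| ≤ C * (1 + Real.posLog ((((2 ^ ℓ : ℕ) : ℝ) * (u : ℝ)) / ((u : ℝ) + G.dist v w))) := by
  obtain ⟨C1, hC1, h1⟩ := ker_piece_bound b0 b1 cmax d
  obtain ⟨C2, hC2, h2⟩ := ker_dyadic_card (d + 12)
  refine ⟨C1 * C2, by positivity, ?_⟩
  intro G F hF hc ℓ u hu hper v w
  let a0 : Fin 0 → Fin 4 := Fin.elim0
  have hp : ∀ j ∈ Finset.range ℓ, ∀ x y : ℤ × ℤ,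
      |kdif G a0 a0 (shell G F (2 ^ j * u) (2 * (2 ^ j * u))) x y| ≤ C1 * ((((2 ^ j * u : ℕ) : ℝ)) ^ (0 + 0))⁻¹ := by
    intro j hj x y
    have hj' : j < ℓ := Finset.mem_range.mp hj
    have h3 : 2 ^ j * u ≤ 2 ^ ℓ * u := Nat.mul_le_mul_right _ (Nat.pow_le_pow_right (by norm_num) hj'.le)
    have h4 : 1 ≤ 2 ^ j * u := Nat.mul_pos (by positivity) hu
    exact h1 G F hF hc _ h4 (h3.trans hper) 0 0 (by norm_num) a0 a0 x y
  have h5 := ker_shell_reach G hF C1 ℓ u (by norm_num) a0 a0 hp v w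
  rw [ker_kdif_nil, ker_pi_iota, ker_pi_iota] at h5
  refine h5.trans ?_
  rw [mul_assoc]
  refine mul_le_mul_of_nonneg_left ?_ hC1
  refine le_trans (le_of_eq ?_) (h2 u ℓ (G.dist v w) hu)
  simp

theorem ker_diag (b0 b1 cmax : ℝ) (d : ℕ) : ∃ c : ℝ, 0 < c ∧ ∀ (G : Geom) (F : Fam), F.Adm b0 b1 d → F.c ≤ cmax →
    ∀ ℓ u : ℕ, 1 ≤ u → 4 * (2 ^ ℓ * u) ≤ per G → ∀ v : G.V,
      c * Real.log ((2 ^ ℓ : ℕ) : ℝ) ≤ shell G F u (2 ^ ℓ * u) v v := by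
  obtain ⟨c1, hc1, h1⟩ := ker_diag_lower
  by_cases hpar : 0 < b0 ∧ 0 < cmax
  · obtain ⟨hb0, hcm⟩ := hpar
    have hc0 : 0 < b0 * (2 / Real.pi) ^ 66 / (2 * cmax) := by
      have := Real.pi_pos
      positivity
    refine ⟨c1 * (b0 * (2 / Real.pi) ^ 66 / (2 * cmax)), by positivity, ?_⟩
    intro G F hF hc ℓ u hu hper v
    rw [ker_shell_split, Matrix.sum_apply]
    have hpiece : ∀ j ∈ Finset.range ℓ,
        c1 * (b0 * (2 / Real.pi) ^ 66 / (2 * cmax)) ≤ shell G F (2 ^ j * u) (2 * (2 ^ j * u)) v v := by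
      intro j hj
      have hj' : j < ℓ := Finset.mem_range.mp hj
      have h3 : 2 ^ j * u ≤ 2 ^ ℓ * u := Nat.mul_le_mul_right _ (Nat.pow_le_pow_right (by norm_num) hj'.le)
      have h4 : 1 ≤ 2 ^ j * u := Nat.mul_pos (by positivity) hu
      refine h1 G _ _ (2 ^ j * u) _ (ker_cov_mul G (F.shellP (2 ^ j * u) (2 * (2 ^ j * u)))) hc0.le ?_ ?_ h4
        (by omega) v
      · intro x h0 h8
        exact ker_piece_nonneg hF _ h4 x h0 h8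
      · intro x h0 h8 h32
        exact ker_piece_ge hF cmax hc _ h4 x h0 h8 h32
    have hsum := Finset.card_nsmul_le_sum _ _ _ hpiece
    rw [Finset.card_range, nsmul_eq_mul] at hsum
    refine le_trans ?_ hsum
    have hlog : Real.log ((2 ^ ℓ : ℕ) : ℝ) ≤ (ℓ : ℝ) := by
      push_cast
      rw [Real.log_pow]
      have : Real.log 2 ≤ 1 := by
        have := Real.log_le_sub_one_of_pos (show (0 : ℝ) < 2 by norm_num)
        linarith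
      have hl : (0 : ℝ) ≤ ℓ := Nat.cast_nonneg _
      nlinarith
    have hpos : 0 ≤ c1 * (b0 * (2 / Real.pi) ^ 66 / (2 * cmax)) := by positivity
    calc c1 * (b0 * (2 / Real.pi) ^ 66 / (2 * cmax)) * Real.log ((2 ^ ℓ : ℕ) : ℝ)
        ≤ c1 * (b0 * (2 / Real.pi) ^ 66 / (2 * cmax)) * (ℓ : ℝ) := mul_le_mul_of_nonneg_left hlog hpos
      _ = (ℓ : ℝ) * (c1 * (b0 * (2 / Real.pi) ^ 66 / (2 * cmax))) := by ring
  · refine ⟨1, one_pos, ?_⟩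
    intro G F hF hc
    exfalso
    apply hpar
    refine ⟨hF.b0_pos, ?_⟩
    have := hF.c_ge
    linarith

theorem ker_opnorm (G : Geom) {F : Fam} {b0 b1 : ℝ} {d : ℕ} (hF : F.Adm b0 b1 d) (ℓ u : ℕ) (hu : 1 ≤ u) (f : G.V → ℝ) :
    f ⬝ᵥ (shell G F u (2 ^ ℓ * u)).mulVec f ≤ b1 * (((2 ^ ℓ : ℕ) : ℝ) * (u : ℝ)) ^ 2 * (f ⬝ᵥ f) := by
  refine ker_cov_le G _ _ ?_ f
  intro x h0 h8
  have := ker_shell_le hF u hu ℓ x h0 h8
  push_cast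
  exact this

theorem ker_grad (G : Geom) {F : Fam} {b0 b1 : ℝ} {d : ℕ} (hF : F.Adm b0 b1 d) (cmax : ℝ) (hc : F.c ≤ cmax) (ℓ u : ℕ)
    (hu : 1 ≤ u) (r : ℕ) (hr1 : 1 ≤ r) (hr6 : r ≤ 6) (a : Fin r → Fin 4) (φ : G.V → ℝ) :
    ∑ v, ∑ w, φ v * φ w * kdif G a a (shell G F u (2 ^ ℓ * u)) (G.ι v) (G.ι w)
      ≤ 4 * (b1 * (2 * cmax) ^ 5) * ((u : ℝ) ^ (2 * (r - 1)))⁻¹ * ∑ v, φ v ^ 2 := by
  have h := ker_kdif_form (ker_cov_mul G (F.shellP u (2 ^ ℓ * u))) a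
    (b1 * (2 * cmax) ^ 5 * (((u : ℝ) ^ (2 * (r - 1))))⁻¹) ?_ φ
  · refine h.trans (le_of_eq ?_)
    ring
  · intro k
    rw [abs_of_nonneg (ker_shell_nonneg hF u hu ℓ _ (ker_lam_nonneg _ k) (ker_lam_le _ k))]
    exact ker_shell_pow hF cmax hc u hu ℓ _ (ker_lam_nonneg _ k) (ker_lam_le _ k) r hr1 hr6

end Claimed.Agent.R285.Ker
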