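import Claimed.Agent.R285.Ker.Ed
import Claimed.Agent.R285.Ker.Asm2

/-!
# ROW 285, [F] L6.2 (block KER of `Obs.pair_stop`), K1: THE FREE DIAGONAL BY IMAGES  (helper198)

* `dbl G` = the torus of side `2 M`;  `ker_cov_images`: the kernel of a polynomial of the free Laplacian is the sum over the four reflected images of the kernel of the doubled torus.
* `ker_shell_lower`: `-C ≤ shell G F u (2^ℓ u) v w` for ALL `v w`, `C` independent of `ℓ, u, G` (binary pieces of side `t`: zero beyond the range, `≥ -C d/t` otherwise, because the diagonal of a piece is `≥ 0`).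
* `ker_free_diag`: `ℓ log 2 / 2π - C ≤ shell G Fam.entry u (2^ℓ u) v v` for every boundary convention, `C` independent of `ℓ, u, G, v`.
No sorry.
-/

set_option autoImplicit false

namespace Claimed.Agent.R285.Ker

open scoped BigOperators
open Polynomial
open Claimed.Agent.R285.RG

/-- the doubled torus -/
def dbl (G : Geom) : Geom := ⟨BC.per, 2 * G.M, by have := G.hM; omega⟩

theorem ker_rf_ff (y : ℤ × ℤ) : rf (false, false) y = y := by
  simp [rf, rf1]

theorem ker_gker_images (G : Geom) (hG : G.bc = BC.free) (m : ℝ → ℝ) (x y : ℤ × ℤ) :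
    gker G m x y = ∑ s : Bool × Bool, gker (dbl G) m x (rf s y) := by
  obtain ⟨bc, M, hM⟩ := G
  simp only at hG
  subst hG
  have h1 : ∀ z : ℤ × ℤ, gker (dbl ⟨BC.free, M, hM⟩) m x z
      = ((((2 * M : ℕ) : ℕ) : ℂ) ^ 2)⁻¹ * ∑ k : Fin (2 * M) × Fin (2 * M), ((m (lam (2 * M) k) : ℝ) : ℂ) * chi (2 * M) k (x - z) := by
    intro z
    show ((((2 * M : ℕ) : ℕ) : ℂ) ^ 2)⁻¹ * ∑ s ∈ ({(false, false)} : Finset (Bool × Bool)), ∑ k : Fin (2 * M) × Fin (2 * M),
      ((m (lam (2 * M) k) : ℝ) : ℂ) * chi (2 * M) k (x - rf s z) = _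
    rw [Finset.sum_singleton, ker_rf_ff]
  simp only [h1]
  rw [← Finset.mul_sum]
  rfl

/-- **the method of images** -/
theorem ker_cov_images (G : Geom) (hG : G.bc = BC.free) (P : ℝ[X]) (x y : ℤ × ℤ) :
    cov G P (G.π x) (G.π y) = ∑ s : Bool × Bool, cov (dbl G) P ((dbl G).π x) ((dbl G).π (rf s y)) := by
  apply Complex.ofReal_injective
  rw [ker_cov_mul G P x y, ker_gker_images G hG, Complex.ofReal_sum]
  exact Finset.sum_congr rfl fun s _ => (ker_cov_mul (dbl G) P x (rf s y)).symm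

theorem ker_lip1 (f : ℤ → ℝ) (K : ℝ) (h : ∀ z, |f (z + 1) - f z| ≤ K) (a : ℤ) (n : ℕ) : |f (a + n) - f a| ≤ K * n := by
  induction n with
  | zero => simp
  | succ n ih =>
    have h1 := h (a + n)
    have e : f (a + ((n + 1 : ℕ) : ℤ)) - f a = (f (a + n + 1) - f (a + n)) + (f (a + n) - f a) := by
      push_cast
      rw [← add_assoc]
      ring
    rw [e]
    refine (abs_add_le _ _).trans ?_
    push_cast
    linarith

theorem ker_lip1' (f : ℤ → ℝ) (K : ℝ) (h : ∀ z, |f (z + 1) - f z| ≤ K) (a b : ℤ) : |f b - f a| ≤ K * (b - a).natAbs := by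
  rcases le_total a b with hab | hab
  · have := ker_lip1 f K h a (b - a).natAbs
    have e : a + ((b - a).natAbs : ℤ) = b := by omega
    rwa [e] at this
  · have := ker_lip1 f K h b (b - a).natAbs
    have e : b + ((b - a).natAbs : ℤ) = a := by omega
    rw [e, abs_sub_comm] at this
    exact this

theorem ker_lip2 (f : ℤ × ℤ → ℝ) (K : ℝ) (hK : 0 ≤ K) (h : ∀ (z : ℤ × ℤ) (e : Fin 4), |f (z + dir e) - f z| ≤ K) (x y : ℤ × ℤ) :
    |f y - f x| ≤ K * (2 * (sd x y : ℝ)) := by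
  have h1 := ker_lip1' (fun t => f (t, y.2)) K (fun z => by simpa [dir] using h (z, y.2) 0) x.1 y.1
  have h2 := ker_lip1' (fun t => f (x.1, t)) K (fun z => by simpa [dir] using h (x.1, z) 2) x.2 y.2
  have e : f y - f x = (f (y.1, y.2) - f (x.1, y.2)) + (f (x.1, y.2) - f (x.1, x.2)) := by
    simp
  rw [e]
  refine (abs_add_le _ _).trans ?_
  have h3 : (((y.1 - x.1).natAbs : ℕ) : ℝ) ≤ (sd x y : ℝ) := by exact_mod_cast le_max_left _ _
  have h4 : (((y.2 - x.2).natAbs : ℕ) : ℝ) ≤ (sd x y : ℝ) := by exact_mod_cast le_max_right _ _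
  nlinarith [mul_le_mul_of_nonneg_left h3 hK, mul_le_mul_of_nonneg_left h4 hK]

theorem ker_kdif_01 (G : Geom) (a : Fin 0 → Fin 4) (e : Fin 4) (Γ : Matrix G.V G.V ℝ) (x y : ℤ × ℤ) :
    kdif G a (fun _ : Fin 1 => e) Γ x y = Γ (G.π x) (G.π (y + dir e)) - Γ (G.π x) (G.π y) := by
  simp [kdif, ker_difs_nil, ker_difs_succ, dif]

/-- one binary piece: a lower bound off the diagonal -/
theorem ker_piece_lower (b0 b1 cmax : ℝ) (d : ℕ) : ∃ C : ℝ, 0 ≤ C ∧ ∀ (G : Geom) (F : Fam), F.Adm b0 b1 d → F.c ≤ cmax →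
    ∀ t : ℕ, 1 ≤ t → t ≤ per G → ∀ x y : ℤ × ℤ, -(C * (sd x y : ℝ) * ((t : ℝ) ^ 1)⁻¹) ≤ shell G F t (2 * t) (G.π x) (G.π y) := by
  obtain ⟨C1, hC1, h1⟩ := ker_piece_bound b0 b1 cmax d
  refine ⟨2 * C1, by positivity, ?_⟩
  intro G F hF hc t ht htN x y
  have hK : 0 ≤ C1 * ((t : ℝ) ^ 1)⁻¹ := by positivity
  have h2 := ker_lip2 (fun z => shell G F t (2 * t) (G.π x) (G.π z)) (C1 * ((t : ℝ) ^ 1)⁻¹) hK (fun z e => by
    have := h1 G F hF hc t ht htN 0 1 (by norm_num) Fin.elim0 (fun _ => e) x z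
    rw [ker_kdif_01] at this
    simpa using this) x y
  have h3 : 0 ≤ shell G F t (2 * t) (G.π x) (G.π x) := by
    have := ker_shell_psd G F hF 1 t ht
    rw [pow_one] at this
    exact this.diag_nonneg
  have h4 := (abs_le.1 h2).1
  nlinarith [h4, h3]

/-- **lower bound of a shell off the diagonal, uniform in the number of binary pieces** -/
theorem ker_shell_lower (b0 b1 cmax : ℝ) (d : ℕ) : ∃ C : ℝ, 0 ≤ C ∧ ∀ (G : Geom) (F : Fam), F.Adm b0 b1 d → F.c ≤ cmax →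
    ∀ ℓ u : ℕ, 1 ≤ u → 2 ^ ℓ * u ≤ per G → ∀ v w : G.V, -C ≤ shell G F u (2 ^ ℓ * u) v w := by
  obtain ⟨C1, hC1, h1⟩ := ker_piece_lower b0 b1 cmax d
  obtain ⟨C2, hC2, h2⟩ := ker_dyadic_sum (d + 12)
  refine ⟨C1 * C2, by positivity, ?_⟩
  intro G F hF hc ℓ u hu hper v w
  obtain ⟨y, hy, hd⟩ := ker_dist_attained G (G.ι v) w
  rw [ker_pi_iota] at hd
  set D : ℕ := G.dist v w with hD
  rw [ker_shell_split, Matrix.sum_apply]
  have hterm : ∀ j ∈ Finset.range ℓ,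
      (if D ≤ 64 * (2 ^ j * u) + (d + 12) then -(C1 * (D : ℝ) * ((((2 ^ j * u : ℕ) : ℝ)) ^ 1)⁻¹) else 0)
        ≤ shell G F (2 ^ j * u) (2 * (2 ^ j * u)) v w := by
    intro j hj
    have hj' : j < ℓ := Finset.mem_range.mp hj
    have h3 : 2 ^ j * u ≤ 2 ^ ℓ * u := Nat.mul_le_mul_right _ (Nat.pow_le_pow_right (by norm_num) hj'.le)
    have h4 : 1 ≤ 2 ^ j * u := Nat.mul_pos (by positivity) hu
    split_ifs with hc'
    · have := h1 G F hF hc _ h4 (h3.trans hper) (G.ι v) y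
      rw [ker_pi_iota, hy, hd] at this
      exact this
    · have := ker_piece_zero G hF (2 ^ j * u) (r := 0) (r' := 0) (by norm_num) Fin.elim0 Fin.elim0 (G.ι v) (G.ι w)
        (by rw [ker_pi_iota, ker_pi_iota]; exact not_le.mp hc')
      rw [ker_kdif_nil, ker_pi_iota, ker_pi_iota] at this
      rw [this]
  refine le_trans ?_ (Finset.sum_le_sum hterm)
  rw [← Finset.sum_filter, Finset.sum_neg_distrib, neg_le_neg_iff, ← Finset.mul_sum]
  have h5 := h2 u ℓ D 1 hu le_rfl (by norm_num)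
  have hu0 : (0 : ℝ) < u := by exact_mod_cast hu
  have hD0 : (0 : ℝ) ≤ (D : ℝ) := Nat.cast_nonneg D
  calc C1 * (D : ℝ) * ∑ j ∈ (Finset.range ℓ).filter (fun j => D ≤ 64 * (2 ^ j * u) + (d + 12)), ((((2 ^ j * u : ℕ) : ℝ)) ^ 1)⁻¹
      ≤ C1 * (D : ℝ) * (C2 * (((u : ℝ) + (D : ℝ)) ^ 1)⁻¹) := mul_le_mul_of_nonneg_left h5 (by positivity)
    _ = C1 * C2 * ((D : ℝ) / ((u : ℝ) + (D : ℝ))) := by rw [pow_one]; ring
    _ ≤ C1 * C2 * 1 := by
        refine mul_le_mul_of_nonneg_left ?_ (by positivity)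
        rw [div_le_one (by linarith)]
        linarith
    _ = C1 * C2 := by ring

/-- **K1: the diagonal of an entry shell, every boundary convention**: `≥ log L / 2π - C`, `C` independent of `L = 2^ℓ`, of the side `u`, of the volume and of the point -/
theorem ker_free_diag : ∃ C : ℝ, ∀ (ℓ : ℕ) (G : Geom) (u : ℕ), 1 ≤ u → 64 * (2 ^ ℓ * u) < G.M → ∀ v : G.V,
    ℓ * Real.log 2 / (2 * Real.pi) - C ≤ shell G Fam.entry u (2 ^ ℓ * u) v v := by
  obtain ⟨C1, h1⟩ := ker_entry_diag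
  obtain ⟨C2, hC2, h2⟩ := ker_shell_lower 1 1 64 0
  have hdiag : ∀ (ℓ : ℕ) (G : Geom), G.bc = BC.per → ∀ u : ℕ, 1 ≤ u → 64 * (2 ^ ℓ * u) < G.M → ∀ v : G.V,
      ℓ * Real.log 2 / (2 * Real.pi) - |C1| ≤ shell G Fam.entry u (2 ^ ℓ * u) v v := by
    intro ℓ G hG u hu hM v
    have h3 := (abs_le.1 (h1 ℓ G hG u hu hM v)).1
    have hs : 1 ≤ Real.sqrt u := by
      rw [Real.one_le_sqrt]; exact_mod_cast hu
    have h4 : C1 / Real.sqrt u ≤ |C1| := by
      refine (div_le_div_of_nonneg_right (le_abs_self C1) (by linarith)).trans ?_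
      exact div_le_self (abs_nonneg _) hs
    linarith
  refine ⟨|C1| + 3 * C2, ?_⟩
  intro ℓ G u hu hM v
  rcases hbc : G.bc with _ | _
  · have := hdiag ℓ G hbc u hu hM v
    linarith
  · have e := ker_cov_images G hbc (Fam.entry.shellP u (2 ^ ℓ * u)) (G.ι v) (G.ι v)
    rw [ker_pi_iota] at e
    show _ ≤ cov G (Fam.entry.shellP u (2 ^ ℓ * u)) v v
    rw [e, Fintype.sum_prod_type]
    simp only [Fintype.sum_bool]
    have hM2 : 64 * (2 ^ ℓ * u) < (dbl G).M := by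
      show 64 * (2 ^ ℓ * u) < 2 * G.M
      omega
    have hper : 2 ^ ℓ * u ≤ per (dbl G) := by
      have := ker_M_le_per (dbl G)
      omega
    have a0 := hdiag ℓ (dbl G) rfl u hu hM2 ((dbl G).π (G.ι v))
    have a1 := h2 (dbl G) Fam.entry ker_entry_adm (by norm_num [Fam.entry]) ℓ u hu hper ((dbl G).π (G.ι v)) ((dbl G).π (rf (true, true) (G.ι v)))
    have a2 := h2 (dbl G) Fam.entry ker_entry_adm (by norm_num [Fam.entry]) ℓ u hu hper ((dbl G).π (G.ι v)) ((dbl G).π (rf (true, false) (G.ι v)))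
    have a3 := h2 (dbl G) Fam.entry ker_entry_adm (by norm_num [Fam.entry]) ℓ u hu hper ((dbl G).π (G.ι v)) ((dbl G).π (rf (false, true) (G.ι v)))
    rw [ker_rf_ff]
    simp only [shell] at a0 a1 a2 a3
    linarith

end Claimed.Agent.R285.Ker
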