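import Claimed.Agent.R285.Ker.Ext
import Claimed.Agent.R285.Sp.CovCopy

/-!
# ROW 285: polynomial kernels = plane kernels away from the walls, for BOTH boundary conventions  (helper198)

Generalises `Sp/CovCopy.lean` (helper214, tori) through `ker_nbr_sum`: `(cov G P f) ∘ π = P (Δ_{ℤ²}) (f ∘ π)` for every `G`.
Exports: `ker_cov_lift`, `ker_cov_plane_box` (kernel of a square at a point whose ball of radius `deg P` is inside the fundamental box `[0, M)²`), `ker_cov_copy_shift`.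
No sorry.
-/

set_option autoImplicit false

namespace Claimed.Agent.R285.Ker

open scoped BigOperators
open Polynomial Matrix
open Claimed.Agent.R285.RG

theorem ker_lap_lift (G : Geom) (f : G.V → ℝ) (x : ℤ × ℤ) :
    (lap G).mulVec f (G.π x) = spLapZ (G.lift f) x := by
  show ∑ w, lap G (G.π x) w * f w = ∑ e : Fin 4, (G.lift f x - G.lift f (x + dir e))
  simp only [lap, Finset.sum_mul, sub_mul, ite_mul, one_mul, zero_mul]
  rw [Finset.sum_comm]
  have h1 : ∀ e : Fin 4, ∑ w : G.V, ((if G.π x = w then f w else 0) - if G.π (G.ι (G.π x) + dir e) = w then f w else 0)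
      = f (G.π x) - f (G.π (G.ι (G.π x) + dir e)) := by
    intro e
    rw [Finset.sum_sub_distrib, Finset.sum_ite_eq, Finset.sum_ite_eq]
    simp
  rw [Finset.sum_congr rfl (fun e _ => h1 e), Finset.sum_sub_distrib, ker_nbr_sum G f x, ← Finset.sum_sub_distrib]
  rfl

theorem ker_pow_lift (G : Geom) (n : ℕ) (f : G.V → ℝ) :
    G.lift ((lap G ^ n).mulVec f) = (spLapZ ^ n) (G.lift f) := by
  induction n generalizing f with
  | zero => simp
  | succ n ih =>
    rw [pow_succ, pow_succ, ← Matrix.mulVec_mulVec, ih, Module.End.mul_apply]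
    congr 1
    funext x
    exact ker_lap_lift G f x

theorem ker_cov_lift (G : Geom) (P : ℝ[X]) (f : G.V → ℝ) (x : ℤ × ℤ) :
    (cov G P).mulVec f (G.π x) = (aeval spLapZ P) (G.lift f) x := by
  unfold cov
  rw [Polynomial.aeval_eq_sum_range, Polynomial.aeval_eq_sum_range, Matrix.sum_mulVec, Finset.sum_apply,
    LinearMap.sum_apply, Finset.sum_apply]
  refine Finset.sum_congr rfl fun n _ => ?_
  rw [Matrix.smul_mulVec, LinearMap.smul_apply, Pi.smul_apply, Pi.smul_apply, ← ker_pow_lift G]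
  rfl

theorem ker_lapZ_shift (t : ℤ × ℤ) (f : ℤ × ℤ → ℝ) :
    spLapZ (fun x => f (x + t)) = fun x => spLapZ f (x + t) := by
  funext x
  show ∑ e : Fin 4, (f (x + t) - f (x + dir e + t)) = ∑ e : Fin 4, (f (x + t) - f (x + t + dir e))
  refine Finset.sum_congr rfl fun e _ => ?_
  rw [add_right_comm]

theorem ker_lapZ_pow_shift (n : ℕ) (t : ℤ × ℤ) (f : ℤ × ℤ → ℝ) :
    (spLapZ ^ n) (fun x => f (x + t)) = fun x => (spLapZ ^ n) f (x + t) := by
  induction n generalizing f with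
  | zero => simp
  | succ n ih =>
    rw [pow_succ, Module.End.mul_apply, ker_lapZ_shift, ih]
    rfl

theorem ker_aeval_shift (P : ℝ[X]) (t : ℤ × ℤ) (f : ℤ × ℤ → ℝ) (x : ℤ × ℤ) :
    (aeval spLapZ P) (fun x => f (x + t)) x = (aeval spLapZ P) f (x + t) := by
  rw [Polynomial.aeval_eq_sum_range, LinearMap.sum_apply, LinearMap.sum_apply, Finset.sum_apply, Finset.sum_apply]
  refine Finset.sum_congr rfl fun n _ => ?_
  rw [LinearMap.smul_apply, LinearMap.smul_apply, Pi.smul_apply, Pi.smul_apply, ker_lapZ_pow_shift]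

theorem ker_fold_of_mem (G : Geom) (z : ℤ) (h0 : 0 ≤ z) (h1 : z < G.M) : ((G.fold z : ℕ) : ℤ) = z := by
  obtain ⟨n, rfl⟩ := Int.eq_ofNat_of_zero_le h0
  have hn : n < G.M := by exact_mod_cast h1
  have := ker_fold_coe G ⟨n, hn⟩
  simp only at this
  rw [this]

theorem ker_iota_pi_of_mem (G : Geom) (z : ℤ × ℤ) (h0 : 0 ≤ z.1) (h1 : z.1 < G.M) (h2 : 0 ≤ z.2) (h3 : z.2 < G.M) :
    G.ι (G.π z) = z :=
  Prod.ext (ker_fold_of_mem G z.1 h0 h1) (ker_fold_of_mem G z.2 h2 h3)

/-- the kernel at a point whose ball of radius `deg P` lies in the fundamental box is the plane kernel (any boundary convention) -/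
theorem ker_cov_plane_box (G : Geom) (P : ℝ[X]) (x y : G.V)
    (hx : P.natDegree ≤ (x.1 : ℕ) ∧ (x.1 : ℕ) + P.natDegree < G.M ∧ P.natDegree ≤ (x.2 : ℕ) ∧ (x.2 : ℕ) + P.natDegree < G.M) :
    cov G P x y = (aeval spLapZ P) (Pi.single (G.ι y) 1) (G.ι x) := by
  have h0 : cov G P x y = (cov G P).mulVec (Pi.single y 1) (G.π (G.ι x)) := by
    rw [Matrix.mulVec_single_one, ker_pi_iota]; rfl
  rw [h0, ker_cov_lift]
  refine sp_aeval_local P _ _ _ fun z hz => ?_
  have h3 := le_max_left (z.1 - (G.ι x).1).natAbs (z.2 - (G.ι x).2).natAbs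
  have h4 := le_max_right (z.1 - (G.ι x).1).natAbs (z.2 - (G.ι x).2).natAbs
  have e1 : (G.ι x).1 = ((x.1 : ℕ) : ℤ) := rfl
  have e2 : (G.ι x).2 = ((x.2 : ℕ) : ℤ) := rfl
  obtain ⟨a1, a2, a3, a4⟩ := hx
  have hz' : G.ι (G.π z) = z := ker_iota_pi_of_mem G z (by omega) (by omega) (by omega) (by omega)
  by_cases hzy : z = G.ι y
  · subst hzy
    simp [Geom.lift, ker_pi_iota]
  · have hne : G.π z ≠ y := by
      intro e
      apply hzy
      rw [← hz', e]
    simp [Geom.lift, hzy, hne]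

/-- two squares (any conventions), the second containing a shifted copy of the first: the kernels agree away from the walls of the first -/
theorem ker_cov_copy_shift (P : ℝ[X]) (G G' : Geom) (s : ℕ) (hs : G.M + s ≤ G'.M)
    (e : G.V → G'.V) (he : ∀ x, ((e x).1 : ℕ) = x.1 + s ∧ ((e x).2 : ℕ) = x.2 + s) (x y : G.V)
    (hx : P.natDegree ≤ (x.1 : ℕ) ∧ (x.1 : ℕ) + P.natDegree < G.M ∧ P.natDegree ≤ (x.2 : ℕ) ∧ (x.2 : ℕ) + P.natDegree < G.M) :
    cov G' P (e x) (e y) = cov G P x y := by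
  obtain ⟨a1, a2, a3, a4⟩ := hx
  have b := he x
  rw [ker_cov_plane_box G P x y ⟨a1, a2, a3, a4⟩,
    ker_cov_plane_box G' P (e x) (e y) ⟨by omega, by omega, by omega, by omega⟩]
  have hι : ∀ v : G.V, G'.ι (e v) = G.ι v + ((s : ℤ), (s : ℤ)) := by
    intro v
    have c := he v
    refine Prod.ext ?_ ?_
    · show (((e v).1 : ℕ) : ℤ) = ((v.1 : ℕ) : ℤ) + s
      rw [c.1]; push_cast; ring
    · show (((e v).2 : ℕ) : ℤ) = ((v.2 : ℕ) : ℤ) + s
      rw [c.2]; push_cast; ring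
  rw [hι x, hι y, ← ker_aeval_shift]
  have hf : (fun z : ℤ × ℤ => (Pi.single (G.ι y + ((s : ℤ), (s : ℤ))) (1 : ℝ) : ℤ × ℤ → ℝ) (z + ((s : ℤ), (s : ℤ))))
      = Pi.single (G.ι y) 1 := by
    funext z
    by_cases hz : z = G.ι y
    · subst hz; simp
    · have : z + ((s : ℤ), (s : ℤ)) ≠ G.ι y + ((s : ℤ), (s : ℤ)) := fun h => hz (add_right_cancel h)
      simp [hz, this]
  rw [hf]

end Claimed.Agent.R285.Ker
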