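import Claimed.Agent.R285.Ker.Dg

/-!
# ROW 285, [B] L8.1 `entry_diag`, leaf L81-CB: the product lazy walk and central binomial coefficients  (architect helper198)

`cb i = C(2i, i)/4^i`.   Mathlib (`Real.Wallis`, `harmonic`) + `Ker/Chi1.lean` (`ker_chi1_sum`).
PLAN.
* `ker_cb_sq`: `Real.Wallis.W_eq_factorial_ratio i : W i = 2^(4i) i!^4/((2i)!^2 (2i+1))`, `Nat.centralBinom_eq_two_mul_choose`, `Nat.choose` through factorials (`Nat.succ_mul_centralBinom_succ` is NOT needed: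
  `(Nat.centralBinom i : ℝ) = (2i)!/(i! i!)` from `Nat.centralBinom_eq_two_mul_choose`, `Nat.choose_eq_factorial_div_factorial`/`Nat.cast_choose ℝ`, `two_mul`, `Nat.add_sub_cancel`); `4^i = 2^(2i)`; `field_simp`.
* lower/upper: `Real.Wallis.W_le`, `Real.Wallis.le_W`, `Real.Wallis.W_pos`.  Upper, `i ≥ 1`: `cb² = 1/(W (2i+1)) ≤ (2i+2)/((2i+1)² (π/2))` and `(2i+2) (2i) ≤ (2i+1)²`.
* `ker_cb_sum`: lower: `cb i² ≥ 2/(π (2i+1)) ≥ 1/(π (i+1))`, `∑_{i<m} 1/(i+1) = harmonic m ≥ log (m+1) ≥ log m` (`log_add_one_le_harmonic`; `harmonic` is `ℚ`-valued: `harmonic_eq_sum_Icc`, casts; or prove `log (m+1) ≤ ∑_{i<m} 1/(i+1)`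
  directly by induction with `Real.add_one_le_exp`/`Real.log_le_sub_one_of_pos`).  Upper: `cb 0 = 1`, `∑_{1 ≤ i < m} 1/(π i) ≤ (1 + log m)/π` (`harmonic_le_one_add_log`, or induction with `1/(i+1) ≤ log (i+1) - log i`).  `1/π ≤ 1`.
* `ker_cos_pow_sum`: `cos φ = (e^{iφ} + e^{-iφ})/2`, `φ = π j/N`: `cos^{2i} φ = 4^{-i} ∑_{l ≤ 2i} C(2i,l) e^{i(2l - 2i)φ}` (`add_pow`), `e^{i (2l - 2i) π j/N} = chi1 N j (l - i)`; `∑_j chi1 N j (l - i) = N 1[N ∣ l - i]` (`ker_chi1_sum`), and `|l - i| ≤ i < N`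
  forces `l = i` (`Int.eq_zero_of_abs_lt_dvd`).  Work in `ℂ`, finish with `Complex.ofReal_injective`.   `Nat.centralBinom i = (2i).choose i`.
* `ker_g_sum`: `1 - lam1 N j/4 = cos² (π j/N)`; `mul_pow`, `Fintype.sum_prod_type`, `Finset.sum_mul_sum`, `ker_cos_pow_sum`.
-/

set_option autoImplicit false

namespace Claimed.Agent.R285.Ker

open scoped BigOperators
open Claimed.Agent.R285.RG

/-- return probability of the lazy walk -/
noncomputable def cb (i : ℕ) : ℝ := (Nat.centralBinom i : ℝ) / 4 ^ i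

theorem ker_cb_sq (i : ℕ) : cb i ^ 2 * (Real.Wallis.W i * (2 * (i : ℝ) + 1)) = 1 := by
  have h1 : ((Nat.centralBinom i : ℕ) : ℝ) * (i.factorial : ℝ) * (i.factorial : ℝ) = ((2 * i).factorial : ℝ) := by
    have h := Nat.add_choose_mul_factorial_mul_factorial i i
    rw [← two_mul, ← Nat.centralBinom_eq_two_mul_choose] at h
    exact_mod_cast h
  have hf : (0 : ℝ) < (i.factorial : ℝ) := by exact_mod_cast Nat.factorial_pos i
  have hF : (0 : ℝ) < ((2 * i).factorial : ℝ) := by exact_mod_cast Nat.factorial_pos (2 * i)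
  have hi : (0 : ℝ) < 2 * (i : ℝ) + 1 := by positivity
  have h4 : (2 : ℝ) ^ (4 * i) = (4 ^ i) ^ 2 := by
    rw [← pow_mul, show (4 : ℝ) = 2 ^ 2 by norm_num, ← pow_mul]
    congr 1
    ring
  rw [Real.Wallis.W_eq_factorial_ratio, cb, h4, ← h1]
  have hc : (0 : ℝ) < ((Nat.centralBinom i : ℕ) : ℝ) := by exact_mod_cast Nat.centralBinom_pos i
  field_simp

theorem ker_cb_sq_lower (i : ℕ) : 2 / (Real.pi * (2 * (i : ℝ) + 1)) ≤ cb i ^ 2 := by
  have h1 := ker_cb_sq i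
  have hW := Real.Wallis.W_pos i
  have hW2 := Real.Wallis.W_le i
  have hi : (0 : ℝ) < 2 * (i : ℝ) + 1 := by positivity
  have hpi := Real.pi_pos
  have h2 : cb i ^ 2 = 1 / (Real.Wallis.W i * (2 * (i : ℝ) + 1)) := by
    rw [eq_div_iff (by positivity)]
    exact h1
  rw [h2, div_le_div_iff₀ (by positivity) (by positivity)]
  nlinarith [mul_le_mul_of_nonneg_right hW2 hi.le]

theorem ker_cb_sq_upper (i : ℕ) (hi : 1 ≤ i) : cb i ^ 2 ≤ 1 / (Real.pi * (i : ℝ)) := by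
  have h1 := ker_cb_sq i
  have hW := Real.Wallis.W_pos i
  have hW2 := Real.Wallis.le_W i
  have hi0 : (1 : ℝ) ≤ (i : ℝ) := by exact_mod_cast hi
  have hi1 : (0 : ℝ) < 2 * (i : ℝ) + 1 := by positivity
  have hi2 : (0 : ℝ) < 2 * (i : ℝ) + 2 := by positivity
  have hpi := Real.pi_pos
  have h2 : cb i ^ 2 = 1 / (Real.Wallis.W i * (2 * (i : ℝ) + 1)) := by
    rw [eq_div_iff (by positivity)]
    exact h1
  rw [h2, div_le_div_iff₀ (by positivity) (by positivity), one_mul, one_mul]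
  have h3 : (2 * (i : ℝ) + 1) * (Real.pi / 2) ≤ Real.Wallis.W i * (2 * (i : ℝ) + 2) := by
    rw [div_mul_eq_mul_div, div_le_iff₀ hi2] at hW2
    exact hW2
  have h4 : (2 * (i : ℝ) + 1) * ((2 * (i : ℝ) + 1) * (Real.pi / 2)) ≤ (2 * (i : ℝ) + 1) * (Real.Wallis.W i * (2 * (i : ℝ) + 2)) :=
    mul_le_mul_of_nonneg_left h3 hi1.le
  have h5 : Real.pi * (i : ℝ) * (2 * (i : ℝ) + 2) ≤ (2 * (i : ℝ) + 1) * ((2 * (i : ℝ) + 1) * (Real.pi / 2)) := by
    nlinarith
  have h6 : Real.pi * (i : ℝ) * (2 * (i : ℝ) + 2) ≤ Real.Wallis.W i * (2 * (i : ℝ) + 1) * (2 * (i : ℝ) + 2) := by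
    linarith
  exact le_of_mul_le_mul_right h6 hi2

theorem ker_cb_zero : cb 0 = 1 := by simp [cb]

theorem ker_cb_sum_lower (m : ℕ) : Real.log ((m : ℝ) + 1) / Real.pi ≤ ∑ i ∈ Finset.range m, cb i ^ 2 := by
  induction m with
  | zero => simp
  | succ m ih =>
    rw [Finset.sum_range_succ]
    have hpi := Real.pi_pos
    have hm : (0 : ℝ) < (m : ℝ) + 1 := by positivity
    have h1 := ker_cb_sq_lower m
    have h2 : Real.log (((m : ℝ) + 2) / ((m : ℝ) + 1)) ≤ ((m : ℝ) + 2) / ((m : ℝ) + 1) - 1 :=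
      Real.log_le_sub_one_of_pos (by positivity)
    rw [Real.log_div (by positivity) (by positivity)] at h2
    have h3 : ((m : ℝ) + 2) / ((m : ℝ) + 1) - 1 = 1 / ((m : ℝ) + 1) := by field_simp; ring
    have h4 : 1 / ((m : ℝ) + 1) / Real.pi ≤ 2 / (Real.pi * (2 * (m : ℝ) + 1)) := by
      rw [div_div, div_le_div_iff₀ (by positivity) (by positivity)]
      nlinarith
    have h5 : Real.log ((m : ℝ) + 2) / Real.pi ≤ Real.log ((m : ℝ) + 1) / Real.pi + 1 / ((m : ℝ) + 1) / Real.pi := by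
      rw [← add_div]
      exact div_le_div_of_nonneg_right (by linarith) hpi.le
    have e : ((m + 1 : ℕ) : ℝ) + 1 = (m : ℝ) + 2 := by push_cast; ring
    rw [e]
    linarith

theorem ker_cb_sum_upper (m : ℕ) :
    ∑ i ∈ Finset.range (m + 2), cb i ^ 2 ≤ 1 + (1 + Real.log ((m : ℝ) + 1)) / Real.pi := by
  have hpi := Real.pi_pos
  induction m with
  | zero =>
    have h1 := ker_cb_sq_upper 1 le_rfl
    simp only [Finset.sum_range_succ, Finset.sum_range_zero, ker_cb_zero, Nat.cast_zero, zero_add, Real.log_one,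
      add_zero, one_pow]
    simp only [Nat.cast_one, mul_one] at h1
    linarith
  | succ m ih =>
    rw [Finset.sum_range_succ]
    have hm : (0 : ℝ) < (m : ℝ) + 1 := by positivity
    have h1 := ker_cb_sq_upper (m + 2) (by omega)
    have h2 : Real.log (((m : ℝ) + 1) / ((m : ℝ) + 2)) ≤ ((m : ℝ) + 1) / ((m : ℝ) + 2) - 1 :=
      Real.log_le_sub_one_of_pos (by positivity)
    rw [Real.log_div (by positivity) (by positivity)] at h2
    have h3 : ((m : ℝ) + 1) / ((m : ℝ) + 2) - 1 = -(1 / ((m : ℝ) + 2)) := by field_simp; ring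
    have e : ((m + 2 : ℕ) : ℝ) = (m : ℝ) + 2 := by push_cast; ring
    have e' : ((m + 1 : ℕ) : ℝ) + 1 = (m : ℝ) + 2 := by push_cast; ring
    rw [e] at h1
    rw [e']
    have h4 : 1 / (Real.pi * ((m : ℝ) + 2)) = 1 / ((m : ℝ) + 2) / Real.pi := by
      rw [div_div, mul_comm]
    have h5 : (1 + Real.log ((m : ℝ) + 1)) / Real.pi + 1 / ((m : ℝ) + 2) / Real.pi ≤ (1 + Real.log ((m : ℝ) + 2)) / Real.pi := by
      rw [← add_div]
      exact div_le_div_of_nonneg_right (by linarith) hpi.le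
    linarith

theorem ker_cb_sum (m : ℕ) (hm : 1 ≤ m) : |∑ i ∈ Finset.range m, cb i ^ 2 - Real.log m / Real.pi| ≤ 2 := by
  have hpi := Real.pi_pos
  have hpi3 := Real.pi_gt_three
  have hm0 : (1 : ℝ) ≤ (m : ℝ) := by exact_mod_cast hm
  have hl := ker_cb_sum_lower m
  have h1 : Real.log m / Real.pi ≤ Real.log ((m : ℝ) + 1) / Real.pi :=
    div_le_div_of_nonneg_right (Real.log_le_log (by linarith) (by linarith)) hpi.le
  have hinv : 1 / Real.pi ≤ 1 := by
    rw [div_le_one hpi]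
    linarith
  rw [abs_le]
  refine ⟨by linarith, ?_⟩
  obtain ⟨k, rfl⟩ : ∃ k, m = k + 1 := ⟨m - 1, by omega⟩
  rcases k with _ | k
  · simp [ker_cb_zero]
  · have hu := ker_cb_sum_upper k
    have h2 : Real.log ((k : ℝ) + 1) / Real.pi ≤ Real.log ((k + 1 + 1 : ℕ) : ℝ) / Real.pi := by
      refine div_le_div_of_nonneg_right (Real.log_le_log (by positivity) ?_) hpi.le
      push_cast
      linarith
    rw [add_div] at hu
    linarith

theorem ker_cos_pow_sum (N i : ℕ) (h : i < N) :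
    ∑ j : Fin N, Real.cos (Real.pi * ((j : ℕ) : ℝ) / (N : ℝ)) ^ (2 * i) = (N : ℝ) * cb i := by
  have key : ∀ j : Fin N, (2 * Complex.cos ((Real.pi * ((j : ℕ) : ℝ) / (N : ℝ) : ℝ) : ℂ)) ^ (2 * i)
      = ∑ l ∈ Finset.range (2 * i + 1), chi1 N j ((l : ℤ) - (i : ℤ)) * (((2 * i).choose l : ℕ) : ℂ) := by
    intro j
    rw [Complex.two_cos, add_pow]
    refine Finset.sum_congr rfl fun l hl => ?_
    have hl' : l ≤ 2 * i := Nat.lt_succ_iff.1 (Finset.mem_range.1 hl)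
    congr 1
    rw [← Complex.exp_nat_mul, ← Complex.exp_nat_mul, ← Complex.exp_add, chi1, Nat.cast_sub hl']
    congr 1
    push_cast
    ring
  have h2 : ∑ j : Fin N, (2 * Complex.cos ((Real.pi * ((j : ℕ) : ℝ) / (N : ℝ) : ℝ) : ℂ)) ^ (2 * i)
      = (N : ℂ) * ((Nat.centralBinom i : ℕ) : ℂ) := by
    simp only [key]
    rw [Finset.sum_comm]
    simp only [← Finset.sum_mul, ker_chi1_sum]
    rw [Finset.sum_eq_single i]
    · simp [Nat.centralBinom_eq_two_mul_choose]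
    · intro l hl hne
      have hl' : l ≤ 2 * i := Nat.lt_succ_iff.1 (Finset.mem_range.1 hl)
      rw [if_neg, zero_mul]
      intro hd
      have h0 := Int.eq_zero_of_abs_lt_dvd hd (by
        rw [abs_lt]
        constructor <;> omega)
      omega
    · intro hn
      exact absurd (Finset.mem_range.2 (by omega)) hn
  have h3 : ((∑ j : Fin N, Real.cos (Real.pi * ((j : ℕ) : ℝ) / (N : ℝ)) ^ (2 * i) : ℝ) : ℂ) * 4 ^ i
      = (N : ℂ) * ((Nat.centralBinom i : ℕ) : ℂ) := by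
    rw [← h2, Complex.ofReal_sum, Finset.sum_mul]
    refine Finset.sum_congr rfl fun j _ => ?_
    rw [mul_pow, Complex.ofReal_pow, Complex.ofReal_cos, pow_mul 2 2 i]
    norm_num
    ring
  have h4 : (∑ j : Fin N, Real.cos (Real.pi * ((j : ℕ) : ℝ) / (N : ℝ)) ^ (2 * i)) * 4 ^ i
      = (N : ℝ) * ((Nat.centralBinom i : ℕ) : ℝ) := by
    exact_mod_cast h3
  rw [cb, mul_div_assoc', eq_div_iff (by positivity)]
  exact h4

theorem ker_g_sum (N i : ℕ) (h : i < N) :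
    ((N : ℝ) ^ 2)⁻¹ * ∑ k : Fin N × Fin N, ((1 - lam1 N k.1 / 4) * (1 - lam1 N k.2 / 4)) ^ i = cb i ^ 2 := by
  have hN : (0 : ℝ) < (N : ℝ) := by
    have : 0 < N := by omega
    exact_mod_cast this
  have h1 : ∀ j : Fin N, (1 - lam1 N j / 4) ^ i = Real.cos (Real.pi * ((j : ℕ) : ℝ) / (N : ℝ)) ^ (2 * i) := by
    intro j
    rw [pow_mul, lam1, Real.cos_sq']
    congr 1
    ring
  have h2 : ∑ k : Fin N × Fin N, ((1 - lam1 N k.1 / 4) * (1 - lam1 N k.2 / 4)) ^ i = ((N : ℝ) * cb i) ^ 2 := by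
    rw [Fintype.sum_prod_type, sq, ← ker_cos_pow_sum N i h, Finset.sum_mul_sum]
    refine Finset.sum_congr rfl fun a _ => Finset.sum_congr rfl fun b _ => ?_
    rw [mul_pow, h1, h1]
  rw [h2, mul_pow]
  field_simp

end Claimed.Agent.R285.Ker
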