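import Claimed.Agent.R285.Ker.Dup
import Claimed.Agent.R285.Ker.Cb

/-!
# ROW 285, [B] L8.1 `entry_diag`, leaves L81-CES-T (`ker_ces_term`) and L81-CES-S (`ker_ces`): identification of the constant `log 2/(2π)`  (architect helper198)

FROM `Ker/Dup.lean`, `Ker/Cb.lean`, `Ker/Dg.lean`, `Ker/Sum.lean` (`ker_master`), `Ker/Sym2.lean` (`ker_shellP_eval`, `ker_shell_nonneg`, `ker_shell_le`).  `q_s = qq 64 s`, `t = 2^n u`, `m = t²`.

## `ker_ces_term` (pure real analysis in `α, β ∈ [0,4]`)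
`x = α + β ∈ [0,8]`, `g = (1 - α/4)(1 - β/4) ∈ [0,1]`, `Gc = 1 - g = x/4 - αβ/16`, `x/8 ≤ Gc ≤ x/4` (`αβ ≤ 2 (α + β)`), `h = (shellP u t).eval x`, `x h = q_u (x) - q_t (x)` (`ker_shellP_eval`, `pref = 1`, `c = 64`), `y = t² x`.
* `x = 0`: `g = 1`, `∑_{i<m} 1 = t²`, `0 ≤ h ≤ t²` (`ker_shell_nonneg`, `ker_shell_le` with `ker_entry_adm`, `b1 = 1`): `|4h - t²| ≤ 4 t²`.
* `x > 0`: `∑_{i<m} g^i = (1 - g^m)/Gc` (`geom_sum_eq`/`mul_geom_sum`: `(∑ g^i)(1 - g) = 1 - g^m`).  `4h - ∑ = 4 (g^m - q_t)/x + (1 - g^m)(4/x - 1/Gc) - 4 (1 - q_u)/x`.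
   - `0 ≤ 4 (1 - q_u)/x ≤ 4 u²` (`ker_qe_one_sub_le`, `ker_qe_le_one`).      - `|4/x - 1/Gc| = (αβ/4)/(x Gc) ≤ (x²/16)/(x²/8) = 1/2`, `0 ≤ 1 - g^m ≤ 1`.
   - `y ≤ 1`: `|g^m - q_t| ≤ (1 - g^m) + (1 - q_t) ≤ m Gc + t² x ≤ (5/4) t² x` (Bernoulli `one_add_mul_le_pow`: `1 - m Gc ≤ (1 - Gc)^m`): term `≤ 5 t² ≤ 20 t²/(1+y)²`.
   - `y > 1`: `g^m = (1 - Gc)^m ≤ 1/(1 + m Gc) ≤ 8/y` (`(1 - Gc)(1 + Gc) ≤ 1`, `(1 + Gc)^m ≥ 1 + m Gc`), `q_t ≤ 128/y` (`ker_qe_mul_pow_le`, `n = 1`): term `≤ 4·136/(y x) = 544 t²/y² ≤ 2176 t²/(1+y)²`.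
## `ker_ces`: fix `u`; for `n`: `t = 2^n u`, `N = 64 t² + 1` (`64 t < N`, `t² < N`, `t ≤ N`).  `∑_{j<n} dl (2^j u) = psum N (shellP u t)` (`ker_psum_shell`), `∑_{i<t²} cb i² = N⁻² ∑_k ∑_{i<t²} g_k^i` (`ker_g_sum`, `Finset.sum_comm`, `Finset.mul_sum`),
 `α = lam1 N k.1`, `β = lam1 N k.2 ∈ [0,4]` (`ker_lam1_nonneg`, `ker_lam1_le`), `lam N k = α + β`.  Termwise `ker_ces_term`, `N⁻² ∑_k 1 = 1`, `ker_master N t`: `|4 ∑ dl - ∑_{i<t²} cb i²| ≤ 4u² + 1 + C C₂`.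
 `ker_cb_sum (t²)`: `log (t²) = 2 n log 2 + 2 log u` (`Real.log_pow`, `Real.log_mul`, casts).  `K = (4u² + 1 + C C₂ + 2 + 2 log u/π)/4`.
-/

set_option autoImplicit false

namespace Claimed.Agent.R285.Ker

open scoped BigOperators
open Polynomial
open Claimed.Agent.R285.RG

theorem ker_ces_small (w y : ℝ) (hw0 : 0 ≤ w) (hw : w ≤ 5 / 4 * y) (hy1 : y ≤ 1) :
    4 * w * (1 + y) ^ 2 ≤ 2176 * y := by
  have h4 : (1 + y) ^ 2 ≤ 4 := by
    have := pow_le_pow_left₀ (by linarith : 0 ≤ 1 + y) (by linarith : 1 + y ≤ 2) 2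
    linarith
  calc 4 * w * (1 + y) ^ 2 ≤ 4 * w * 4 := mul_le_mul_of_nonneg_left h4 (by linarith)
    _ ≤ 2176 * y := by linarith

theorem ker_ces_large (w y : ℝ) (hw0 : 0 ≤ w) (hw : w * y ≤ 136) (hy1 : 1 < y) :
    4 * w * (1 + y) ^ 2 ≤ 2176 * y := by
  have h4 : (1 + y) ^ 2 ≤ (2 * y) ^ 2 := pow_le_pow_left₀ (by linarith) (by linarith) 2
  calc 4 * w * (1 + y) ^ 2 ≤ 4 * w * (2 * y) ^ 2 := mul_le_mul_of_nonneg_left h4 (by linarith)
    _ = 16 * (w * y) * y := by ring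
    _ ≤ 16 * 136 * y := by
        refine mul_le_mul_of_nonneg_right ?_ (by linarith)
        linarith
    _ = 2176 * y := by ring

/-- the real-analysis core of `ker_ces_term` -/
theorem ker_ces_core (m : ℕ) (T U α β h qu qt : ℝ) (hT : (m : ℝ) = T) (hU : 0 ≤ U)
    (hα0 : 0 ≤ α) (hα4 : α ≤ 4) (hβ0 : 0 ≤ β) (hβ4 : β ≤ 4)
    (hh : (α + β) * h = qu - qt) (hh0 : 0 ≤ h) (hhT : h ≤ T)
    (hqt0 : 0 ≤ qt) (hqt1 : qt ≤ 1) (hqu1 : qu ≤ 1) (hqu : 1 - qu ≤ U * (α + β)) (hqt : 1 - qt ≤ T * (α + β))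
    (hdec : qt * (T * (α + β) / 128) ≤ 1) :
    |4 * h - ∑ i ∈ Finset.range m, ((1 - α / 4) * (1 - β / 4)) ^ i|
      ≤ 4 * U + 1 + 2176 * (T / (1 + T * (α + β)) ^ 2) := by
  have hT0 : 0 ≤ T := by rw [← hT]; positivity
  rcases eq_or_lt_of_le (add_nonneg hα0 hβ0) with hx | hx
  · -- `x = 0`
    have ha : α = 0 := by linarith
    have hb : β = 0 := by linarith
    subst ha hb
    simp only [zero_div, sub_zero, mul_one, one_pow, Finset.sum_const, Finset.card_range, nsmul_eq_mul, add_zero,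
      mul_zero, div_one, hT]
    rw [abs_le]
    constructor <;> linarith
  · set x := α + β with hxdef
    set g := (1 - α / 4) * (1 - β / 4) with hg
    set Gc := 1 - g with hGc
    set P := g ^ m with hP
    set S := ∑ i ∈ Finset.range m, g ^ i with hS
    set y := T * x with hy
    have hy0 : 0 ≤ y := mul_nonneg hT0 hx.le
    have hab0 : 0 ≤ α * β := mul_nonneg hα0 hβ0
    have hab1 : α * β ≤ 2 * x := by
      have h1 : α * β ≤ 4 * β := mul_le_mul_of_nonneg_right hα4 hβ0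
      have h2 : α * β ≤ α * 4 := mul_le_mul_of_nonneg_left hβ4 hα0
      rw [hxdef]; linarith
    have hab2 : α * β ≤ x ^ 2 / 4 := by
      have := sq_nonneg (α - β)
      rw [hxdef]; nlinarith
    have hGeq : Gc = x / 4 - α * β / 16 := by rw [hGc, hg, hxdef]; ring
    have hG1 : x / 8 ≤ Gc := by rw [hGeq]; linarith
    have hG2 : Gc ≤ x / 4 := by rw [hGeq]; linarith
    have hGpos : 0 < Gc := by linarith
    have hg0 : 0 ≤ g := mul_nonneg (by linarith) (by linarith)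
    have hg1 : g ≤ 1 := by linarith
    have hP0 : 0 ≤ P := pow_nonneg hg0 m
    have hP1 : P ≤ 1 := pow_le_one₀ hg0 hg1
    have hSG : S * Gc = 1 - P := geom_sum_mul_neg g m
    -- Bernoulli
    have hB1 : 1 - P ≤ T * Gc := by
      have := one_add_mul_le_pow (a := -Gc) (by linarith) m
      have e : 1 + -Gc = g := by rw [hGc]; ring
      rw [e, hT] at this
      linarith
    have hB2 : P * (T * Gc) ≤ 1 := by
      have h1 := one_add_mul_le_pow (a := Gc) (by linarith) m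
      rw [hT] at h1
      have h2 : P * (1 + Gc) ^ m ≤ 1 := by
        rw [hP, ← mul_pow]
        refine pow_le_one₀ (mul_nonneg hg0 (by linarith)) ?_
        have : g * (1 + Gc) = 1 - Gc ^ 2 := by rw [hGc]; ring
        rw [this]
        linarith [sq_nonneg Gc]
      have h3 : P * (1 + T * Gc) ≤ P * (1 + Gc) ^ m := mul_le_mul_of_nonneg_left h1 hP0
      have h4 : P * (1 + T * Gc) = P + P * (T * Gc) := by ring
      linarith
    -- the main term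
    set w := |P - qt| with hw
    have hw0 : 0 ≤ w := abs_nonneg _
    have hTG1 : T * Gc ≤ y / 4 := by
      have := mul_le_mul_of_nonneg_left hG2 hT0
      rw [hy]; linarith
    have hTG2 : y / 8 ≤ T * Gc := by
      have := mul_le_mul_of_nonneg_left hG1 hT0
      rw [hy]; linarith
    have key : 4 * w * (1 + y) ^ 2 ≤ 2176 * y := by
      rcases le_or_gt y 1 with hy1 | hy1
      · refine ker_ces_small w y hw0 ?_ hy1
        rw [hw, abs_le]
        constructor <;> linarith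
      · refine ker_ces_large w y hw0 ?_ hy1
        have hPy : P * y ≤ 8 := by
          have : P * (y / 8) ≤ P * (T * Gc) := mul_le_mul_of_nonneg_left hTG2 hP0
          linarith
        have hqy : qt * y ≤ 128 := by
          have : qt * (y / 128) ≤ 1 := hdec
          linarith
        have h1 : w ≤ P + qt := by
          rw [hw, abs_le]; constructor <;> linarith
        have h2 : w * y ≤ (P + qt) * y := mul_le_mul_of_nonneg_right h1 hy0
        linarith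
    have hA1 : |4 * (P - qt) / x| ≤ 2176 * (T / (1 + y) ^ 2) := by
      rw [abs_div, abs_mul, abs_of_pos hx, abs_of_pos (by norm_num : (0:ℝ) < 4), ← hw, div_le_iff₀ hx,
        mul_div_assoc', div_mul_eq_mul_div, le_div_iff₀ (by positivity)]
      calc 4 * w * (1 + y) ^ 2 ≤ 2176 * y := key
        _ = 2176 * T * x := by rw [hy]; ring
    have hA2 : |(1 - P) * (4 / x - 1 / Gc)| ≤ 1 / 2 := by
      have e : 4 / x - 1 / Gc = -((α * β / 4) / (x * Gc)) := by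
        have e0 : α * β / 4 = x - 4 * Gc := by rw [hGeq]; ring
        have hG' := hGpos.ne'
        have hx' := hx.ne'
        rw [e0]
        field_simp
        ring
      have h1 : (α * β / 4) / (x * Gc) ≤ 1 / 2 := by
        rw [div_le_iff₀ (mul_pos hx hGpos)]
        have h2 : x * (x / 8) ≤ x * Gc := mul_le_mul_of_nonneg_left hG1 hx.le
        have h3 : x * (x / 8) = x ^ 2 / 8 := by ring
        linarith
      have h0 : 0 ≤ (α * β / 4) / (x * Gc) := div_nonneg (by linarith) (mul_pos hx hGpos).le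
      rw [abs_mul, e, abs_neg, abs_of_nonneg h0, abs_of_nonneg (by linarith : 0 ≤ 1 - P)]
      calc (1 - P) * ((α * β / 4) / (x * Gc)) ≤ 1 * (1 / 2) := mul_le_mul (by linarith) h1 h0 (by norm_num)
        _ = 1 / 2 := by norm_num
    have hA3 : |4 * (1 - qu) / x| ≤ 4 * U := by
      rw [abs_of_nonneg (div_nonneg (by linarith) hx.le), div_le_iff₀ hx]
      linarith
    have hdecomp : 4 * h - S = 4 * (P - qt) / x + (1 - P) * (4 / x - 1 / Gc) - 4 * (1 - qu) / x := by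
      have e1 : h = (qu - qt) / x := by rw [eq_div_iff hx.ne']; linarith
      have e2 : S = (1 - P) / Gc := by rw [eq_div_iff hGpos.ne']; exact hSG
      rw [e1, e2]
      field_simp
      ring
    rw [hdecomp]
    calc |4 * (P - qt) / x + (1 - P) * (4 / x - 1 / Gc) - 4 * (1 - qu) / x|
        ≤ |4 * (P - qt) / x + (1 - P) * (4 / x - 1 / Gc)| + |4 * (1 - qu) / x| := abs_sub _ _
      _ ≤ |4 * (P - qt) / x| + |(1 - P) * (4 / x - 1 / Gc)| + |4 * (1 - qu) / x| := by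
          gcongr; exact abs_add_le _ _
      _ ≤ 2176 * (T / (1 + y) ^ 2) + 1 / 2 + 4 * U := by gcongr
      _ ≤ 4 * U + 1 + 2176 * (T / (1 + y) ^ 2) := by linarith

/-- LEAF L81-CES-T -/
theorem ker_ces_term : ∃ C : ℝ, 0 ≤ C ∧ ∀ u : ℕ, 1 ≤ u → ∀ n : ℕ, ∀ α β : ℝ, 0 ≤ α → α ≤ 4 → 0 ≤ β → β ≤ 4 →
    |4 * (Fam.entry.shellP u (2 ^ n * u)).eval (α + β)
        - ∑ i ∈ Finset.range ((2 ^ n * u) ^ 2), ((1 - α / 4) * (1 - β / 4)) ^ i|
      ≤ 4 * (u : ℝ) ^ 2 + 1 + C * ((((2 ^ n * u : ℕ) : ℝ)) ^ 2 / (1 + (((2 ^ n * u : ℕ) : ℝ)) ^ 2 * (α + β)) ^ 2) := by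
  refine ⟨2176, by norm_num, fun u hu n α β hα0 hα4 hβ0 hβ4 => ?_⟩
  have ht : 1 ≤ 2 ^ n * u := Nat.mul_pos (by positivity) hu
  have h0 : 0 ≤ α + β := add_nonneg hα0 hβ0
  have h8 : α + β ≤ 8 := by linarith
  have e := ker_shellP_eval Fam.entry u (2 ^ n * u) hu ht (α + β)
  have e1 : Fam.entry.pref.eval (α + β) = 1 := by simp [Fam.entry]
  have e2 : Fam.entry.c = 64 := rfl
  rw [e1, e2, one_mul] at e
  have hle := ker_shell_le ker_entry_adm u hu n (α + β) h0 h8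
  have hdec := ker_qq_mul_pow_le 64 (by norm_num) (2 ^ n * u) ht (α + β) h0 h8 1 (by norm_num)
  refine ker_ces_core ((2 ^ n * u) ^ 2) _ _ α β _ (qq 64 u (α + β)) (qq 64 (2 ^ n * u) (α + β)) (by push_cast; ring) (by positivity)
    hα0 hα4 hβ0 hβ4 e (ker_shell_nonneg ker_entry_adm u hu n (α + β) h0 h8) ?_ (ker_qq_nonneg _ _ _)
    (ker_qq_le_one 64 (by norm_num) _ ht _ h0 h8) (ker_qq_le_one 64 (by norm_num) _ hu _ h0 h8)
    (ker_qe_one_sub_le u hu _ h0 (by linarith)) (ker_qe_one_sub_le _ ht _ h0 (by linarith)) ?_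
  · refine hle.trans (le_of_eq ?_)
    push_cast
    ring
  · rw [pow_one] at hdec
    norm_num at hdec ⊢
    exact hdec

/-- LEAF L81-CES-S -/
theorem ker_ces (u : ℕ) (hu : 1 ≤ u) : ∃ K : ℝ, ∀ n : ℕ,
    |∑ j ∈ Finset.range n, dl (2 ^ j * u) - n * (Real.log 2 / (2 * Real.pi))| ≤ K := by
  obtain ⟨C, hC, hterm⟩ := ker_ces_term
  obtain ⟨C3, hC3, h3⟩ := ker_master
  refine ⟨(4 * (u : ℝ) ^ 2 + 1 + C * C3 + 2 + 2 * Real.log u / Real.pi) / 4, ?_⟩
  intro n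
  have hpi := Real.pi_pos
  have hu0 : (0 : ℝ) < u := by positivity
  obtain ⟨t, ht⟩ : ∃ t : ℕ, t = 2 ^ n * u := ⟨_, rfl⟩
  have ht1 : 1 ≤ t := by rw [ht]; exact Nat.mul_pos (by positivity) hu
  obtain ⟨N, hN⟩ : ∃ N : ℕ, N = 64 * t ^ 2 + 1 := ⟨_, rfl⟩
  have htt : t ≤ t ^ 2 := by nlinarith
  have hN0 : 0 < N := by omega
  have hNr : (0 : ℝ) < N := by exact_mod_cast hN0
  have htN : t ≤ N := by omega
  have e1 : ∑ j ∈ Finset.range n, dl (2 ^ j * u) = psum N (Fam.entry.shellP u t) :=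
    by rw [ht]; exact (ker_psum_shell u n N (by rw [← ht]; omega)).symm
  have e2 : ∑ i ∈ Finset.range (t ^ 2), cb i ^ 2
      = ((N : ℝ) ^ 2)⁻¹ * ∑ k : Fin N × Fin N, ∑ i ∈ Finset.range (t ^ 2), ((1 - lam1 N k.1 / 4) * (1 - lam1 N k.2 / 4)) ^ i := by
    rw [Finset.sum_comm, Finset.mul_sum]
    refine Finset.sum_congr rfl fun i hi => ?_
    rw [Finset.mem_range] at hi
    exact (ker_g_sum N i (by omega)).symm
  have hNi : (0 : ℝ) ≤ ((N : ℝ) ^ 2)⁻¹ := by positivity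
  have hcard : ((N : ℝ) ^ 2)⁻¹ * ∑ _k : Fin N × Fin N, (4 * (u : ℝ) ^ 2 + 1) = 4 * (u : ℝ) ^ 2 + 1 := by
    rw [Finset.sum_const, nsmul_eq_mul]
    have : ((Finset.univ : Finset (Fin N × Fin N)).card : ℝ) = (N : ℝ) ^ 2 := by
      simp [Fintype.card_prod, sq]
    rw [this, ← mul_assoc, inv_mul_cancel₀ (by positivity), one_mul]
  have hA : |4 * psum N (Fam.entry.shellP u t) - ∑ i ∈ Finset.range (t ^ 2), cb i ^ 2|
      ≤ 4 * (u : ℝ) ^ 2 + 1 + C * C3 := by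
    rw [e2]
    unfold psum
    have e3 : 4 * (((N : ℝ) ^ 2)⁻¹ * ∑ k : Fin N × Fin N, (Fam.entry.shellP u t).eval (lam N k))
        - ((N : ℝ) ^ 2)⁻¹ * ∑ k : Fin N × Fin N, ∑ i ∈ Finset.range (t ^ 2), ((1 - lam1 N k.1 / 4) * (1 - lam1 N k.2 / 4)) ^ i
        = ((N : ℝ) ^ 2)⁻¹ * ∑ k : Fin N × Fin N, (4 * (Fam.entry.shellP u t).eval (lam N k)
          - ∑ i ∈ Finset.range (t ^ 2), ((1 - lam1 N k.1 / 4) * (1 - lam1 N k.2 / 4)) ^ i) := by
      rw [Finset.sum_sub_distrib, ← Finset.mul_sum]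
      ring
    rw [e3, abs_mul, abs_of_nonneg hNi]
    have b3 := h3 N t ht1 htN
    calc ((N : ℝ) ^ 2)⁻¹ * |∑ k : Fin N × Fin N, (4 * (Fam.entry.shellP u t).eval (lam N k)
          - ∑ i ∈ Finset.range (t ^ 2), ((1 - lam1 N k.1 / 4) * (1 - lam1 N k.2 / 4)) ^ i)|
        ≤ ((N : ℝ) ^ 2)⁻¹ * ∑ k : Fin N × Fin N,
            (4 * (u : ℝ) ^ 2 + 1 + C * ((t : ℝ) ^ 2 / (1 + (t : ℝ) ^ 2 * lam N k) ^ 2)) := by
          refine mul_le_mul_of_nonneg_left ((Finset.abs_sum_le_sum_abs _ _).trans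
            (Finset.sum_le_sum fun k _ => ?_)) hNi
          have := hterm u hu n (lam1 N k.1) (lam1 N k.2) (ker_lam1_nonneg N k.1) (ker_lam1_le N k.1)
            (ker_lam1_nonneg N k.2) (ker_lam1_le N k.2)
          rw [← ht] at this
          have el : lam N k = lam1 N k.1 + lam1 N k.2 := rfl
          rw [el]
          exact this
      _ = ((N : ℝ) ^ 2)⁻¹ * ∑ _k : Fin N × Fin N, (4 * (u : ℝ) ^ 2 + 1)
            + C * (((N : ℝ) ^ 2)⁻¹ * ∑ k : Fin N × Fin N, (t : ℝ) ^ 2 / (1 + (t : ℝ) ^ 2 * lam N k) ^ 2) := by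
          rw [Finset.sum_add_distrib, ← Finset.mul_sum]
          ring
      _ ≤ _ := by
          rw [hcard]
          linarith [mul_le_mul_of_nonneg_left b3 hC]
  have hB := ker_cb_sum (t ^ 2) (by nlinarith)
  have elog : Real.log ((t ^ 2 : ℕ) : ℝ) = 2 * (n * Real.log 2) + 2 * Real.log u := by
    rw [ht]
    push_cast
    rw [Real.log_pow, Real.log_mul (by positivity) hu0.ne', Real.log_pow]
    push_cast
    ring
  rw [elog] at hB
  rw [e1]
  have hlog : 0 ≤ Real.log u := Real.log_nonneg (by exact_mod_cast hu)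
  have hlp : 0 ≤ 2 * Real.log u / Real.pi := by positivity
  obtain ⟨P, hP⟩ : ∃ P, P = psum N (Fam.entry.shellP u t) := ⟨_, rfl⟩
  obtain ⟨S, hS⟩ : ∃ S, S = ∑ i ∈ Finset.range (t ^ 2), cb i ^ 2 := ⟨_, rfl⟩
  rw [← hP, ← hS] at hA
  rw [← hS] at hB
  rw [← hP]
  have e4 : P - n * (Real.log 2 / (2 * Real.pi))
      = ((4 * P - S) + (S - (2 * (n * Real.log 2) + 2 * Real.log u) / Real.pi) + 2 * Real.log u / Real.pi) / 4 := by
    field_simp
    ring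
  rw [e4, abs_div, abs_of_pos (by norm_num : (0 : ℝ) < 4)]
  apply div_le_div_of_nonneg_right _ (by norm_num)
  refine (abs_add_three _ _ _).trans ?_
  rw [abs_of_nonneg hlp]
  linarith

end Claimed.Agent.R285.Ker
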