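import Claimed.Agent.R285.Ker.Defs

/-!
# ROW 285, [B] L4.1, leaf L41-CHI1: one-dimensional characters and eigenvalues  (cut by helper198)

`chi1 N j x = exp (2πi (j x / N))`, `lam1 N j = 4 sin² (π j / N)`.  `j : Fin N` gives `0 < N` for free (`j.pos` / `Fin.pos j`).
PLAN.
* `add`, `zero`: `Complex.exp_add`, `push_cast`, `ring_nf`.  `neg`: `← Complex.exp_conj`, `simp [Complex.conj_ofReal ..]`.  `norm`: `Complex.norm_exp_ofReal_mul_I` after rewriting the exponent as `(θ : ℝ) * I`.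
* `dvd`: `x = N c`: exponent `= (j c) * (2πi)`: `Complex.exp_int_mul_two_pi_mul_I` / `Complex.exp_eq_one_iff`.
* `sum`: `ζ = exp (2πi x / N)`, `chi1 N j x = ζ ^ j`, `Fin.sum_univ_eq_sum_range`, `ζ ^ N = 1`; if `ζ ≠ 1`: `geom_sum_eq`; `ζ = 1 ↔ N ∣ x` by `Complex.exp_eq_one_iff`.
* `step`, `lap`: `chi1 N j 1 = cos θ + i sin θ`, `θ = 2π j / N`; `|e^{iθ} - 1|² = 2 - 2 cos θ = 4 sin² (θ/2)` (`Real.cos_sq_half`/`Real.cos_two_mul`, `Complex.sq_norm`, `Complex.normSq_apply`).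
* `sum_neg`: reindex by the involution `j ↦ (N - j) % N` of `Fin N` (`Fintype.sum_equiv` / `Finset.sum_nbij'`, or `Equiv.neg (Fin N)` with `NeZero N`):
  `chi1 N (-j) x = chi1 N j (-x)` (difference of exponents is `2πi x` or `0`), `lam1 N (-j) = lam1 N j` (`sin (π - θ) = sin θ`).
* `lam1 = 0`: `0 ≤ π j / N < π`, `Real.sin_pos_of_pos_of_lt_pi`.
-/

set_option autoImplicit false

namespace Claimed.Agent.R285.Ker

open scoped BigOperators
open Claimed.Agent.R285.RG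

theorem ker_chi1_eq (N : ℕ) (j : Fin N) (x : ℤ) :
    chi1 N j x = Complex.exp (((2 * Real.pi * ((j : ℕ) : ℝ) * (x : ℝ) / (N : ℝ) : ℝ) : ℂ) * Complex.I) := by
  unfold chi1
  congr 1
  push_cast
  ring

theorem ker_chi1_zero (N : ℕ) (j : Fin N) : chi1 N j 0 = 1 := by
  simp [chi1]

theorem ker_chi1_add (N : ℕ) (j : Fin N) (x y : ℤ) : chi1 N j (x + y) = chi1 N j x * chi1 N j y := by
  unfold chi1
  rw [← Complex.exp_add]
  congr 1
  push_cast
  ring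

theorem ker_chi1_neg (N : ℕ) (j : Fin N) (x : ℤ) : chi1 N j (-x) = (starRingEnd ℂ) (chi1 N j x) := by
  rw [ker_chi1_eq, ker_chi1_eq, ← Complex.exp_conj]
  congr 1
  rw [map_mul, Complex.conj_ofReal, Complex.conj_I]
  push_cast
  ring

theorem ker_chi1_norm (N : ℕ) (j : Fin N) (x : ℤ) : ‖chi1 N j x‖ = 1 := by
  rw [ker_chi1_eq, Complex.norm_exp_ofReal_mul_I]

theorem ker_chi1_dvd (N : ℕ) (j : Fin N) (x : ℤ) (h : (N : ℤ) ∣ x) : chi1 N j x = 1 := by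
  obtain ⟨c, rfl⟩ := h
  have hN : (N : ℂ) ≠ 0 := by
    have := Fin.pos j
    exact_mod_cast this.ne'
  rw [← Complex.exp_int_mul_two_pi_mul_I (((j : ℕ) : ℤ) * c)]
  unfold chi1
  congr 1
  push_cast
  field_simp

theorem ker_chi1_freq_zero (N : ℕ) (j : Fin N) (hj : (j : ℕ) = 0) (x : ℤ) : chi1 N j x = 1 := by
  simp [chi1, hj]

/-- completeness -/
theorem ker_chi1_sum (N : ℕ) (x : ℤ) : ∑ j : Fin N, chi1 N j x = if (N : ℤ) ∣ x then (N : ℂ) else 0 := by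
  rcases Nat.eq_zero_or_pos N with rfl | hN
  · simp
  have hN' : (N : ℂ) ≠ 0 := by exact_mod_cast hN.ne'
  split_ifs with h
  · simp [ker_chi1_dvd _ _ _ h]
  · set ζ : ℂ := Complex.exp (2 * (Real.pi : ℂ) * Complex.I * ((x : ℂ) / (N : ℂ))) with hζ
    have e : ∀ j : Fin N, chi1 N j x = ζ ^ (j : ℕ) := by
      intro j
      rw [hζ, ← Complex.exp_nat_mul]
      unfold chi1
      congr 1
      ring
    simp only [e]
    rw [Fin.sum_univ_eq_sum_range (fun j => ζ ^ j) N]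
    have h1 : ζ ≠ 1 := by
      intro h1
      rw [hζ, Complex.exp_eq_one_iff] at h1
      obtain ⟨n, hn⟩ := h1
      apply h
      refine ⟨n, ?_⟩
      have h2 : (x : ℂ) / (N : ℂ) = n := by
        have := Complex.two_pi_I_ne_zero
        apply mul_left_cancel₀ this
        rw [hn]; ring
      rw [div_eq_iff hN'] at h2
      have h3 : (x : ℂ) = ((N * n : ℤ) : ℂ) := by rw [h2]; push_cast; ring
      exact_mod_cast h3
    have h2 : ζ ^ N = 1 := by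
      rw [hζ, ← Complex.exp_nat_mul, ← Complex.exp_int_mul_two_pi_mul_I x]
      congr 1
      field_simp
    rw [geom_sum_eq h1, h2]
    simp

theorem ker_norm_exp_sub_one (θ : ℝ) : ‖Complex.exp ((θ : ℂ) * Complex.I) - 1‖ ^ 2 = 4 * Real.sin (θ / 2) ^ 2 := by
  rw [mul_comm, Complex.norm_exp_I_mul_ofReal_sub_one, Real.norm_eq_abs, sq_abs]
  ring

theorem ker_chi1_step (N : ℕ) (j : Fin N) : ‖chi1 N j 1 - 1‖ ^ 2 = lam1 N j := by
  rw [ker_chi1_eq, ker_norm_exp_sub_one, lam1]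
  congr 3
  push_cast
  ring

theorem ker_chi1_step' (N : ℕ) (j : Fin N) : ‖chi1 N j (-1) - 1‖ ^ 2 = lam1 N j := by
  rw [← ker_chi1_step, ker_chi1_neg]
  congr 1
  rw [← Complex.norm_conj (chi1 N j 1 - 1), map_sub, map_one]

theorem ker_chi1_lap (N : ℕ) (j : Fin N) : (1 - chi1 N j 1) + (1 - chi1 N j (-1)) = ((lam1 N j : ℝ) : ℂ) := by
  rw [ker_chi1_neg]
  have h := Complex.add_conj (chi1 N j 1)
  have h2 : (1 - chi1 N j 1) + (1 - (starRingEnd ℂ) (chi1 N j 1)) = 2 - (chi1 N j 1 + (starRingEnd ℂ) (chi1 N j 1)) := by ring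
  rw [h2, h, ker_chi1_eq, Complex.exp_ofReal_mul_I_re, lam1]
  have h3 : 2 * Real.pi * ((j : ℕ) : ℝ) * ((1 : ℤ) : ℝ) / (N : ℝ) = 2 * (Real.pi * ((j : ℕ) : ℝ) / (N : ℝ)) := by
    push_cast; ring
  rw [h3, Real.cos_two_mul]
  have h4 := Real.sin_sq_add_cos_sq (Real.pi * ((j : ℕ) : ℝ) / (N : ℝ))
  have h5 : Real.cos (Real.pi * ((j : ℕ) : ℝ) / (N : ℝ)) ^ 2 = 1 - Real.sin (Real.pi * ((j : ℕ) : ℝ) / (N : ℝ)) ^ 2 := by linarith
  rw [h5]
  push_cast
  ring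

theorem ker_neg_val (N : ℕ) (j : Fin N) : ((j : ℕ) = 0 ∧ ((-j : Fin N) : ℕ) = 0) ∨ (((-j : Fin N) : ℕ) + (j : ℕ) = N) := by
  have hj := j.2
  rw [Fin.val_neg']
  rcases Nat.eq_zero_or_pos (j : ℕ) with h | h
  · left; simp [h]
  · right
    rw [Nat.mod_eq_of_lt (by omega)]
    omega

theorem ker_chi1_negfreq (N : ℕ) (j : Fin N) (x : ℤ) : chi1 N (-j) x = chi1 N j (-x) := by
  have hN : (N : ℂ) ≠ 0 := by
    have := Fin.pos j
    exact_mod_cast this.ne'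
  rcases ker_neg_val N j with ⟨h1, h2⟩ | h
  · rw [ker_chi1_freq_zero _ _ h1, ker_chi1_freq_zero _ _ h2]
  · have h' : (((-j : Fin N) : ℕ) : ℂ) = (N : ℂ) - ((j : ℕ) : ℂ) := by
      rw [eq_sub_iff_add_eq]; exact_mod_cast h
    have e : chi1 N (-j) x = chi1 N j (-x) * Complex.exp ((x : ℂ) * (2 * (Real.pi : ℂ) * Complex.I)) := by
      unfold chi1
      rw [← Complex.exp_add, h']
      congr 1
      push_cast
      field_simp
      ring
    rw [e, Complex.exp_int_mul_two_pi_mul_I, mul_one]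

theorem ker_lam1_negfreq (N : ℕ) (j : Fin N) : lam1 N (-j) = lam1 N j := by
  have hN : (N : ℝ) ≠ 0 := by
    have := Fin.pos j
    exact_mod_cast this.ne'
  rcases ker_neg_val N j with ⟨h1, h2⟩ | h
  · simp [lam1, h1, h2]
  · have h' : (((-j : Fin N) : ℕ) : ℝ) = (N : ℝ) - ((j : ℕ) : ℝ) := by
      rw [eq_sub_iff_add_eq]; exact_mod_cast h
    unfold lam1
    rw [h']
    have e : Real.pi * ((N : ℝ) - ((j : ℕ) : ℝ)) / (N : ℝ) = Real.pi - Real.pi * ((j : ℕ) : ℝ) / (N : ℝ) := by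
      field_simp
    rw [e, Real.sin_pi_sub]

/-- sums of (function of the eigenvalue) × character are even -/
theorem ker_chi1_sum_neg (N : ℕ) (φ : ℝ → ℂ) (x : ℤ) :
    ∑ j : Fin N, φ (lam1 N j) * chi1 N j (-x) = ∑ j : Fin N, φ (lam1 N j) * chi1 N j x := by
  rcases Nat.eq_zero_or_pos N with rfl | hN
  · simp
  have : NeZero N := ⟨hN.ne'⟩
  apply Fintype.sum_equiv (Equiv.neg (Fin N))
  intro j
  simp only [Equiv.neg_apply]
  rw [ker_chi1_negfreq, ker_lam1_negfreq]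

theorem ker_lam1_nonneg (N : ℕ) (j : Fin N) : 0 ≤ lam1 N j := by
  unfold lam1; positivity

theorem ker_lam1_le (N : ℕ) (j : Fin N) : lam1 N j ≤ 4 := by
  unfold lam1
  have := Real.sin_sq_le_one (Real.pi * ((j : ℕ) : ℝ) / (N : ℝ))
  linarith

theorem ker_lam1_eq_zero (N : ℕ) (j : Fin N) : lam1 N j = 0 ↔ (j : ℕ) = 0 := by
  have hN : (0 : ℝ) < (N : ℝ) := by
    have := Fin.pos j
    exact_mod_cast this
  constructor
  · intro h
    by_contra hj
    have hj' : (0 : ℝ) < ((j : ℕ) : ℝ) := by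
      have : 0 < (j : ℕ) := Nat.pos_of_ne_zero hj
      exact_mod_cast this
    have hjN : ((j : ℕ) : ℝ) < (N : ℝ) := by exact_mod_cast j.2
    have h1 : 0 < Real.sin (Real.pi * ((j : ℕ) : ℝ) / (N : ℝ)) := by
      apply Real.sin_pos_of_pos_of_lt_pi
      · positivity
      · rw [div_lt_iff₀ hN]
        exact mul_lt_mul_of_pos_left hjN Real.pi_pos
    unfold lam1 at h
    have : 0 < 4 * Real.sin (Real.pi * ((j : ℕ) : ℝ) / (N : ℝ)) ^ 2 := by positivity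
    linarith
  · intro h
    simp [lam1, h]

/-- `e^{iθ a} + e^{-iθ (1 + a)}` has modulus `2 |cos (θ (2a+1)/2)|` -/
theorem ker_chi1_pair (N : ℕ) (j : Fin N) (a : ℤ) :
    ‖chi1 N j a + chi1 N j (-1 - a)‖ ^ 2 = 4 * Real.cos (Real.pi * ((j : ℕ) : ℝ) * (2 * (a : ℝ) + 1) / (N : ℝ)) ^ 2 := by
  rw [ker_chi1_eq, ker_chi1_eq, Complex.sq_norm, Complex.normSq_apply]
  simp only [Complex.add_re, Complex.add_im, Complex.exp_ofReal_mul_I_re, Complex.exp_ofReal_mul_I_im]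
  set A : ℝ := 2 * Real.pi * ((j : ℕ) : ℝ) * (a : ℝ) / (N : ℝ) with hA
  set B : ℝ := 2 * Real.pi * ((j : ℕ) : ℝ) * ((-1 - a : ℤ) : ℝ) / (N : ℝ) with hB
  have e : 2 * (Real.pi * ((j : ℕ) : ℝ) * (2 * (a : ℝ) + 1) / (N : ℝ)) = A - B := by
    rw [hA, hB]; push_cast; ring
  rw [Real.cos_sq, e, Real.cos_sub]
  have h1 := Real.sin_sq_add_cos_sq A
  have h2 := Real.sin_sq_add_cos_sq B
  nlinarith

end Claimed.Agent.R285.Ker
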