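import Claimed.Agent.R285.Base.RG

/-!
# ROW 285, [B] L4.1, cut BP-CUT-B4-L41 (architect helper198): DEFINITIONS of the Fourier representation

Nothing is sorried here.  ROUTE (simplification of `Ker/Plan.lean`): ONE representation for both boundary conventions, directly on the lifts.
* `N = per G` (`M` periodic, `2M` free), frequencies `k : Fin N × Fin N`, characters `chi N k x = chi1 N k.1 x.1 * chi1 N k.2 x.2`, `chi1 N j x = exp (2πi j x / N)`,
  eigenvalues `lam N k = lam1 N k.1 + lam1 N k.2`, `lam1 N j = 4 sin² (π j / N)`.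
* images: `rf s y`, `s : Bool × Bool`, reflects the coordinates marked `true` (`y ↦ -1 - y`); `imgs G = {(false,false)}` (periodic), all four (free).  `rl s` = linear part of `rf s`.
* `gker G m x y = N⁻² ∑_{s ∈ imgs G} ∑_k m (λ_k) χ_k (x - rf s y)`: kernel with multiplier `m : ℝ → ℝ` (a function of the EIGENVALUE: evenness in `k` is automatic).
* `HasMul G Γ m`: `Γ (π x) (π y) = gker G m x y` for ALL lifts `x y : ℤ²`.  Hence `kdif` of `Γ` = differences of `gker`: no torus-of-side-2M geometry, no extension operators.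
* `ftr G f k = ∑_{s ∈ imgs G} ∑_v f v χ_k (rf s (ι v))`: Fourier transform of the even extension.
* `sd x y` = sup distance on `ℤ²`, so that `G.dist v w = sInf {n | ∃ x, π x = w ∧ n = sd (ι v) x}` by `rfl`.
-/

set_option autoImplicit false

namespace Claimed.Agent.R285.Ker

open scoped BigOperators
open Polynomial
open Claimed.Agent.R285.RG

noncomputable section

/-- the period of the folding map -/
def per (G : Geom) : ℕ :=
  match G.bc with
  | BC.per => G.M
  | BC.free => 2 * G.M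

/-- one-dimensional reflection across `-1/2` -/
def rf1 (s : Bool) (x : ℤ) : ℤ := if s then -1 - x else x

/-- its linear part -/
def rl1 (s : Bool) (x : ℤ) : ℤ := if s then -x else x

/-- reflection of the marked coordinates -/
def rf (s : Bool × Bool) (x : ℤ × ℤ) : ℤ × ℤ := (rf1 s.1 x.1, rf1 s.2 x.2)

/-- its linear part -/
def rl (s : Bool × Bool) (x : ℤ × ℤ) : ℤ × ℤ := (rl1 s.1 x.1, rl1 s.2 x.2)

/-- the images used by the boundary convention -/
def imgs (G : Geom) : Finset (Bool × Bool) :=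
  match G.bc with
  | BC.per => {(false, false)}
  | BC.free => Finset.univ

/-- one-dimensional character -/
def chi1 (N : ℕ) (j : Fin N) (x : ℤ) : ℂ :=
  Complex.exp (2 * (Real.pi : ℂ) * Complex.I * (((j : ℕ) : ℂ) * (x : ℂ) / (N : ℂ)))

/-- character of `(ℤ / N)²` -/
def chi (N : ℕ) (k : Fin N × Fin N) (x : ℤ × ℤ) : ℂ := chi1 N k.1 x.1 * chi1 N k.2 x.2

/-- one-dimensional eigenvalue -/
def lam1 (N : ℕ) (j : Fin N) : ℝ := 4 * Real.sin (Real.pi * ((j : ℕ) : ℝ) / (N : ℝ)) ^ 2

/-- eigenvalue of the Laplacian -/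
def lam (N : ℕ) (k : Fin N × Fin N) : ℝ := lam1 N k.1 + lam1 N k.2

/-- the kernel with multiplier `m`, on lifts -/
def gker (G : Geom) (m : ℝ → ℝ) (x y : ℤ × ℤ) : ℂ :=
  (((per G : ℕ) : ℂ) ^ 2)⁻¹ * ∑ s ∈ imgs G, ∑ k : Fin (per G) × Fin (per G),
    ((m (lam (per G) k) : ℝ) : ℂ) * chi (per G) k (x - rf s y)

/-- `Γ` is the operator with multiplier `m` -/
def HasMul (G : Geom) (Γ : Matrix G.V G.V ℝ) (m : ℝ → ℝ) : Prop :=
  ∀ x y : ℤ × ℤ, ((Γ (G.π x) (G.π y) : ℝ) : ℂ) = gker G m x y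

/-- Fourier transform of the (even) extension of `f` -/
def ftr (G : Geom) (f : G.V → ℝ) (k : Fin (per G) × Fin (per G)) : ℂ :=
  ∑ s ∈ imgs G, ∑ v : G.V, ((f v : ℝ) : ℂ) * chi (per G) k (rf s (G.ι v))

/-- sup distance on `ℤ²` -/
def sd (x y : ℤ × ℤ) : ℕ := max (y.1 - x.1).natAbs (y.2 - x.2).natAbs

/-- symbol of the differences in the first variable -/
def wA (N : ℕ) (k : Fin N × Fin N) {r : ℕ} (a : Fin r → Fin 4) : ℂ := ∏ i, (chi N k (dir (a i)) - 1)

/-- symbol of the differences in the second variable, image `s` -/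
def wB (N : ℕ) (k : Fin N × Fin N) (s : Bool × Bool) {r : ℕ} (c : Fin r → Fin 4) : ℂ :=
  ∏ i, (chi N k (-(rl s (dir (c i)))) - 1)

/-- the symbol `q_t (x) = Q_t (1 - x / c)` -/
def qq (c : ℝ) (t : ℕ) (x : ℝ) : ℝ := (Qs c t).eval x

theorem ker_dist_def (G : Geom) (v w : G.V) :
    G.dist v w = sInf {n : ℕ | ∃ x : ℤ × ℤ, G.π x = w ∧ n = sd (G.ι v) x} := rfl

end

end Claimed.Agent.R285.Ker
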