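import Claimed.Agent.R285.Ker.B8a

/-!
# ROW 285, [B] L8.1 `entry_diag` (post BP-B8-L81, architect helper198), leaf L81-DG: diagonals of polynomial kernels on tori as frequency sums

ROUTE OF `entry_diag` (no integral anywhere; files `Ker/{Dg, Dup, Emb, Two, Cb, Ces, Ed}.lean`):
`dl t` = diagonal of the binary piece `shell t (2t)` of the entry family (`c = 64`, `pref = 1`) on ANY torus of side `> 64 t` (`ker_psum_indep`: polynomial kernels do not see the torus).
 (1) two scales (`Two`): `|dl u - dl (2u)| ≤ C/√u`, termwise comparison of the frequency sums on the tori `N` and `2N` through the EXACT duplication `Q_{2t}(y) = Q_t (2y² - 1) ((1+y)/2)^{32}` (`Dup`) and the embedding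
     `Fin N → Fin 2N` of centred frequencies (`Emb`), `lam1 N j = a (4 - a)`, `a = lam1 (2N) (emb j)`.
 (2) Cesàro (`Ces`): `|∑_{j<n} dl (2^j u) - n log 2/(2π)| ≤ K_u`: compare `4 (q_u - q_t)/λ` with `∑_{i<t²} g^i`, `g = cos² cos²` = product of two lazy walks, whose diagonal is `cb i ²`, `cb i = C(2i,i)/4^i`;
     `∑_{i<m} cb i ² = log m/π + O(1)` by Mathlib's Wallis bounds (`Cb`).
 (3) (`Ed`) `|a_j - a_0| ≤ K₁` and `|∑_{j<n} a_j - n L| ≤ K` for all `n` give `|a_0 - L| ≤ K₁`; sum over the `ℓ` binary pieces.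

THIS FILE.  PLAN.
* `ker_cov_diag_per`: `obtain ⟨bc, M, hM⟩ := G; subst/cases hG`; then `per ⟨BC.per, M, hM⟩ = M` by `rfl`; `ker_diag_formula (ker_cov_mul _ P) v`, `wt1 = 1` (`simp [wt1]`/`rfl`).
* `ker_psum_indep`: `G = ⟨BC.per, N, _⟩`, `G' = ⟨BC.per, N', _⟩`; `sp_cov_copy G G' rfl rfl P 0 0` (hypotheses: `0 + natDegree < N`), both sides by `ker_cov_diag_per`.
* linearity: `Polynomial.eval_add`, `eval_finset_sum`, `Finset.sum_add_distrib`, `Finset.sum_comm`, `Finset.mul_sum`.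
* `ker_Hp_natDegree`: `ker_shellP_natDegree Fam.entry 0 ker_entry_adm.deg t (2t)`, `pp = 32`.
* `ker_shell_diag_dl`: `ker_cov_diag_per`, `ker_shellP_split`, `ker_psum_sum`, `ker_dl_eq` (`64 (2^j u) < M` for `j < ℓ`).
-/

set_option autoImplicit false

namespace Claimed.Agent.R285.Ker

open scoped BigOperators
open Polynomial
open Claimed.Agent.R285.RG

/-- normalised sum of a polynomial over the spectrum of the torus of side `N` -/
noncomputable def psum (N : ℕ) (P : ℝ[X]) : ℝ := ((N : ℝ) ^ 2)⁻¹ * ∑ k : Fin N × Fin N, P.eval (lam N k)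

/-- the multiplier of the binary piece of the entry family -/
noncomputable def Hp (t : ℕ) : ℝ[X] := Fam.entry.shellP t (2 * t)

/-- the diagonal of the binary piece `t → 2t` (on any torus of side `> 64 t`) -/
noncomputable def dl (t : ℕ) : ℝ := psum (64 * t + 1) (Hp t)

theorem ker_cov_diag_per (G : Geom) (hG : G.bc = BC.per) (P : ℝ[X]) (v : G.V) : cov G P v v = psum G.M P := by
  obtain ⟨bc, M, hM⟩ := G
  simp only at hG
  subst hG
  have h := ker_diag_formula (ker_cov_mul ⟨BC.per, M, hM⟩ P) v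
  rw [h]
  show ((M : ℝ) ^ 2)⁻¹ * ∑ k : Fin M × Fin M, P.eval (lam M k) * ((1 : ℝ) * 1) = psum M P
  simp [psum]

theorem ker_psum_indep (P : ℝ[X]) (N N' : ℕ) (h : P.natDegree < N) (h' : P.natDegree < N') : psum N P = psum N' P := by
  have hN : 0 < N := by omega
  have hN' : 0 < N' := by omega
  have h1 := sp_cov_copy ⟨BC.per, N, hN⟩ ⟨BC.per, N', hN'⟩ rfl rfl P 0 0 (by simpa using h) (by simpa using h')
  rw [ker_cov_diag_per ⟨BC.per, N, hN⟩ rfl, ker_cov_diag_per ⟨BC.per, N', hN'⟩ rfl] at h1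
  exact h1

theorem ker_psum_add (N : ℕ) (P P' : ℝ[X]) : psum N (P + P') = psum N P + psum N P' := by
  simp only [psum, eval_add, Finset.sum_add_distrib, mul_add]

theorem ker_psum_sum (N : ℕ) {ι : Type} (s : Finset ι) (P : ι → ℝ[X]) : psum N (∑ i ∈ s, P i) = ∑ i ∈ s, psum N (P i) := by
  simp only [psum, eval_finset_sum]
  rw [Finset.sum_comm, Finset.mul_sum]

theorem ker_Hp_natDegree (t : ℕ) : (Hp t).natDegree ≤ 64 * t := by
  have h := ker_shellP_natDegree Fam.entry 0 ker_entry_adm.deg t (2 * t) (by omega)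
  have h2 : pp * (2 * t) + 0 = 64 * t := by
    have : pp = 32 := rfl
    rw [this]; ring
  rw [h2] at h
  exact h

theorem ker_dl_eq (t N : ℕ) (h : 64 * t < N) : psum N (Hp t) = dl t :=
  ker_psum_indep _ _ _ (lt_of_le_of_lt (ker_Hp_natDegree t) h) (lt_of_le_of_lt (ker_Hp_natDegree t) (by omega))

theorem ker_psum_shell (u n N : ℕ) (h : 64 * (2 ^ n * u) < N) :
    psum N (Fam.entry.shellP u (2 ^ n * u)) = ∑ j ∈ Finset.range n, dl (2 ^ j * u) := by
  rw [ker_shellP_split, ker_psum_sum]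
  refine Finset.sum_congr rfl fun j hj => ?_
  have hj' : j < n := Finset.mem_range.mp hj
  have h3 : 2 ^ j * u ≤ 2 ^ n * u := Nat.mul_le_mul_right _ (Nat.pow_le_pow_right (by norm_num) hj'.le)
  exact ker_dl_eq _ _ (by omega)

theorem ker_shell_diag_dl (G : Geom) (hG : G.bc = BC.per) (u ℓ : ℕ) (h : 64 * (2 ^ ℓ * u) < G.M) (v : G.V) :
    shell G Fam.entry u (2 ^ ℓ * u) v v = ∑ j ∈ Finset.range ℓ, dl (2 ^ j * u) := by
  rw [← ker_psum_shell u ℓ G.M h]
  exact ker_cov_diag_per G hG _ v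

end Claimed.Agent.R285.Ker
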