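import Claimed.Agent.R285.Ker.Term

/-!
# ROW 285, post BP-F5-L53, leaf L53-K4 `scale_cov` (helper127): TOOLS for the comparison of the tori `N` and `L N`, `L = 2^ℓ`

Nothing is sorried here.  Finite Fourier sums only.
* symbols: `ker_sc_dbl` (`4^n s - 16^n s²/3 ≤ sin² (2^n θ) ≤ 4^n s`), `ker_sc_cos_lip` (`|cos nα - cos nβ| ≤ n² |cos α - cos β|`), `ker_sc_Q_lip`, `ker_sc_Q_fac` (`Q_{Lt} (cos z) = Q_t (cos Lz) Q_L (cos z)`),
  `ker_sc_sym`: `|P_u (x)/x - P_{Lu} (x')/(L² x')| ≤ 257³ (1 + u² x)⁻²` if `x ≤ L² x' ≤ 5x/2`, `L² x' - x ≤ (L² x')²/12`.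
* sums: `ker_sc_half`: `N⁻² ∑_k μ_k √λ_k ≤ K/u` (dyadic pieces `ker_piece_sym` + `ker_master`, downwards induction on the scale).
* frequencies: `scs N N'` embeds `Fin N` into `Fin N'` by signed representatives; `ker_sc_chi1`, `ker_sc_lam1_cmp`, `ker_sc_lam1_high`, `ker_sc_chi_sub`.
-/

set_option autoImplicit false

namespace Claimed.Agent.R285.Ker

open scoped BigOperators
open Polynomial
open Claimed.Agent.R285.RG

/-! ## 1. Symbols -/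

/-- doubling: `4^n s - 16^n s²/3 ≤ sin² (2^n θ) ≤ 4^n s`, `s = sin² θ` -/
theorem ker_sc_dbl (n : ℕ) (θ : ℝ) :
    Real.sin ((2 : ℝ) ^ n * θ) ^ 2 ≤ (4 : ℝ) ^ n * Real.sin θ ^ 2 ∧
      (4 : ℝ) ^ n * Real.sin θ ^ 2 - (16 : ℝ) ^ n / 3 * (Real.sin θ ^ 2) ^ 2 ≤ Real.sin ((2 : ℝ) ^ n * θ) ^ 2 := by
  induction n with
  | zero =>
    simp only [pow_zero, one_mul]
    refine ⟨le_refl _, ?_⟩
    have : 0 ≤ (Real.sin θ ^ 2) ^ 2 := by positivity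
    linarith
  | succ n ih =>
    obtain ⟨h1, h2⟩ := ih
    set s := Real.sin θ ^ 2 with hs
    set σ := Real.sin ((2 : ℝ) ^ n * θ) ^ 2 with hσ
    have e : Real.sin ((2 : ℝ) ^ (n + 1) * θ) ^ 2 = 4 * σ * (1 - σ) := by
      have e1 : (2 : ℝ) ^ (n + 1) * θ = 2 * ((2 : ℝ) ^ n * θ) := by ring
      rw [e1, Real.sin_two_mul, hσ]
      have c1 := Real.sin_sq_add_cos_sq ((2 : ℝ) ^ n * θ)
      have c2 : Real.cos ((2 : ℝ) ^ n * θ) ^ 2 = 1 - Real.sin ((2 : ℝ) ^ n * θ) ^ 2 := by linarith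
      calc (2 * Real.sin ((2 : ℝ) ^ n * θ) * Real.cos ((2 : ℝ) ^ n * θ)) ^ 2
          = 4 * Real.sin ((2 : ℝ) ^ n * θ) ^ 2 * Real.cos ((2 : ℝ) ^ n * θ) ^ 2 := by ring
        _ = _ := by rw [c2]
    have hσ0 : 0 ≤ σ := sq_nonneg _
    have hs0 : 0 ≤ s := sq_nonneg _
    rw [e]
    have h4 : (4 : ℝ) ^ (n + 1) = 4 * 4 ^ n := by ring
    have h16 : (16 : ℝ) ^ (n + 1) = 16 * 16 ^ n := by ring
    have h16' : (16 : ℝ) ^ n = (4 : ℝ) ^ n * 4 ^ n := by rw [← mul_pow]; norm_num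
    refine ⟨by rw [h4]; nlinarith, ?_⟩
    have h3 : σ ^ 2 ≤ ((4 : ℝ) ^ n * s) ^ 2 := pow_le_pow_left₀ hσ0 h1 2
    rw [h4, h16]
    have h5 : ((4 : ℝ) ^ n * s) ^ 2 = (16 : ℝ) ^ n * s ^ 2 := by rw [h16']; ring
    rw [h5] at h3
    nlinarith

theorem ker_sc_cos_lip (n : ℕ) (α β : ℝ) :
    |Real.cos (n * α) - Real.cos (n * β)| ≤ (n : ℝ) ^ 2 * |Real.cos α - Real.cos β| := by
  rw [Real.cos_sub_cos, Real.cos_sub_cos]
  have e1 : ((n : ℝ) * α + n * β) / 2 = n * ((α + β) / 2) := by ring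
  have e2 : ((n : ℝ) * α - n * β) / 2 = n * ((α - β) / 2) := by ring
  rw [e1, e2]
  have h1 := ker_sin_nat_mul_le n ((α + β) / 2)
  have h2 := ker_sin_nat_mul_le n ((α - β) / 2)
  simp only [abs_mul, abs_neg, abs_two]
  calc 2 * |Real.sin (n * ((α + β) / 2))| * |Real.sin (n * ((α - β) / 2))|
      ≤ 2 * (n * |Real.sin ((α + β) / 2)|) * (n * |Real.sin ((α - β) / 2)|) := by
        gcongr
    _ = _ := by ring

theorem ker_sc_fej_lip (t : ℕ) (α β : ℝ) :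
    |(Fej t).eval (Real.cos α) - (Fej t).eval (Real.cos β)| ≤ 2 * (t : ℝ) ^ 4 * |Real.cos α - Real.cos β| := by
  rw [ker_Fej_eval, ker_Fej_eval]
  have e : (t : ℝ) + 2 * ∑ k ∈ Finset.Ico 1 t, ((t : ℝ) - k) * Real.cos (k * α)
      - ((t : ℝ) + 2 * ∑ k ∈ Finset.Ico 1 t, ((t : ℝ) - k) * Real.cos (k * β))
      = 2 * ∑ k ∈ Finset.Ico 1 t, ((t : ℝ) - k) * (Real.cos (k * α) - Real.cos (k * β)) := by
    simp only [mul_sub, Finset.sum_sub_distrib]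
    ring
  rw [e, abs_mul, abs_two]
  have h1 : |∑ k ∈ Finset.Ico 1 t, ((t : ℝ) - k) * (Real.cos (k * α) - Real.cos (k * β))|
      ≤ ∑ k ∈ Finset.Ico 1 t, (t : ℝ) ^ 3 * |Real.cos α - Real.cos β| := by
    refine (Finset.abs_sum_le_sum_abs _ _).trans (Finset.sum_le_sum fun k hk => ?_)
    rw [Finset.mem_Ico] at hk
    have hk1 : (k : ℝ) ≤ t := by exact_mod_cast hk.2.le
    have hk0 : (0 : ℝ) ≤ k := by positivity
    rw [abs_mul, abs_of_nonneg (by linarith : (0 : ℝ) ≤ (t : ℝ) - k)]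
    have h2 := ker_sc_cos_lip k α β
    have h3 : (k : ℝ) ^ 2 ≤ (t : ℝ) ^ 2 := pow_le_pow_left₀ hk0 hk1 2
    calc ((t : ℝ) - k) * |Real.cos (k * α) - Real.cos (k * β)|
        ≤ (t : ℝ) * ((t : ℝ) ^ 2 * |Real.cos α - Real.cos β|) := by
          refine mul_le_mul (by linarith) (h2.trans ?_) (abs_nonneg _) (by positivity)
          exact mul_le_mul_of_nonneg_right h3 (abs_nonneg _)
      _ = _ := by ring
  rw [Finset.sum_const, nsmul_eq_mul] at h1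
  have h4 : (((Finset.Ico 1 t).card : ℕ) : ℝ) ≤ t := by
    rw [Nat.card_Ico]
    exact_mod_cast Nat.sub_le t 1
  have h5 : (((Finset.Ico 1 t).card : ℕ) : ℝ) * ((t : ℝ) ^ 3 * |Real.cos α - Real.cos β|)
      ≤ (t : ℝ) * ((t : ℝ) ^ 3 * |Real.cos α - Real.cos β|) :=
    mul_le_mul_of_nonneg_right h4 (by positivity)
  calc 2 * |∑ k ∈ Finset.Ico 1 t, ((t : ℝ) - k) * (Real.cos (k * α) - Real.cos (k * β))|
      ≤ 2 * ((t : ℝ) * ((t : ℝ) ^ 3 * |Real.cos α - Real.cos β|)) := by linarith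
    _ = _ := by ring

/-- the normalised Fejér symbol lies in `[0, 1]` and decays -/
theorem ker_sc_fj (t : ℕ) (ht : 1 ≤ t) (z : ℝ) :
    0 ≤ ((t : ℝ) ^ 2)⁻¹ * (Fej t).eval (Real.cos z) ∧ ((t : ℝ) ^ 2)⁻¹ * (Fej t).eval (Real.cos z) ≤ 1 ∧
      ((t : ℝ) ^ 2)⁻¹ * (Fej t).eval (Real.cos z) * ((t : ℝ) ^ 2 * Real.sin (z / 2) ^ 2) ≤ 1 := by
  have ht0 : (0 : ℝ) < t := by positivity
  have ht2 : (0 : ℝ) < (t : ℝ) ^ 2 := by positivity
  have hsp := ker_Fej_spec t z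
  have h3 : ((t : ℝ) ^ 2)⁻¹ * (Fej t).eval (Real.cos z) * ((t : ℝ) ^ 2 * Real.sin (z / 2) ^ 2) ≤ 1 := by
    have e : ((t : ℝ) ^ 2)⁻¹ * (Fej t).eval (Real.cos z) * ((t : ℝ) ^ 2 * Real.sin (z / 2) ^ 2)
        = (Fej t).eval (Real.cos z) * Real.sin (z / 2) ^ 2 := by
      field_simp
    rw [e, hsp]
    exact Real.sin_sq_le_one _
  by_cases hz : Real.sin (z / 2) = 0
  · rw [ker_cos_of_sin_half hz, ker_Fej_one] at *
    rw [inv_mul_cancel₀ ht2.ne'] at *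
    exact ⟨by norm_num, le_refl _, h3⟩
  · have hpos : 0 < Real.sin (z / 2) ^ 2 := by positivity
    have hF : (Fej t).eval (Real.cos z) = Real.sin (t * z / 2) ^ 2 / Real.sin (z / 2) ^ 2 := by
      rw [eq_div_iff hpos.ne', hsp]
    refine ⟨?_, ?_, h3⟩
    · rw [hF]; positivity
    · rw [hF, inv_mul_le_iff₀ ht2, mul_one, div_le_iff₀ hpos]
      exact ker_sin_sq_le t z

theorem ker_sc_Q_lip (t : ℕ) (ht : 1 ≤ t) (α β M : ℝ)
    (hα : ((t : ℝ) ^ 2)⁻¹ * (Fej t).eval (Real.cos α) ≤ M) (hβ : ((t : ℝ) ^ 2)⁻¹ * (Fej t).eval (Real.cos β) ≤ M) :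
    |(Q t).eval (Real.cos α) - (Q t).eval (Real.cos β)| ≤ 64 * (t : ℝ) ^ 2 * |Real.cos α - Real.cos β| * M ^ 31 := by
  have ht0 : (0 : ℝ) < t := by positivity
  simp only [Q, eval_pow, eval_mul, eval_C]
  set a := ((t : ℝ) ^ 2)⁻¹ * (Fej t).eval (Real.cos α) with ha
  set b := ((t : ℝ) ^ 2)⁻¹ * (Fej t).eval (Real.cos β) with hb
  have ha0 : 0 ≤ a := (ker_sc_fj t ht α).1
  have hb0 : 0 ≤ b := (ker_sc_fj t ht β).1
  have h1 := abs_pow_sub_pow_le a b pp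
  have h2 : |a - b| ≤ 2 * (t : ℝ) ^ 2 * |Real.cos α - Real.cos β| := by
    have e : a - b = ((t : ℝ) ^ 2)⁻¹ * ((Fej t).eval (Real.cos α) - (Fej t).eval (Real.cos β)) := by
      rw [ha, hb]; ring
    rw [e, abs_mul, abs_of_nonneg (by positivity : (0 : ℝ) ≤ ((t : ℝ) ^ 2)⁻¹), inv_mul_le_iff₀ (by positivity)]
    refine (ker_sc_fej_lip t α β).trans (le_of_eq ?_)
    ring
  have h3 : max |a| |b| ≤ M := by
    rw [abs_of_nonneg ha0, abs_of_nonneg hb0]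
    exact max_le hα hβ
  have h4 : (max |a| |b|) ^ (pp - 1) ≤ M ^ 31 := pow_le_pow_left₀ (le_max_of_le_left (abs_nonneg _)) h3 31
  have hM : 0 ≤ M := ha0.trans hα
  have hpp : ((pp : ℕ) : ℝ) = 32 := by norm_num [pp]
  rw [hpp] at h1
  calc |a ^ pp - b ^ pp| ≤ |a - b| * 32 * max |a| |b| ^ (pp - 1) := h1
    _ ≤ (2 * (t : ℝ) ^ 2 * |Real.cos α - Real.cos β|) * 32 * M ^ 31 := by
        gcongr
    _ = _ := by ring

/-- `Q_{L t} (cos z) = Q_t (cos (L z)) Q_L (cos z)` -/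
theorem ker_sc_Q_fac (L t : ℕ) (hL : 1 ≤ L) (ht : 1 ≤ t) (z : ℝ) :
    (Q (L * t)).eval (Real.cos z) = (Q t).eval (Real.cos (L * z)) * (Q L).eval (Real.cos z) := by
  have hL0 : (L : ℝ) ≠ 0 := by positivity
  have ht0 : (t : ℝ) ≠ 0 := by positivity
  have hLt : 1 ≤ L * t := Nat.mul_pos hL ht
  by_cases hz : Real.sin (z / 2) = 0
  · have h1 : Real.sin ((L : ℝ) * z / 2) = 0 := by
      have := ker_sin_sq_le L z
      rw [hz] at this
      have h2 : Real.sin ((L : ℝ) * z / 2) ^ 2 = 0 := le_antisymm (by simpa using this) (sq_nonneg _)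
      exact pow_eq_zero_iff (two_ne_zero) |>.1 h2
    rw [ker_cos_of_sin_half hz, ker_cos_of_sin_half h1, ker_Q_one _ hLt, ker_Q_one _ ht, ker_Q_one _ hL, one_mul]
  · by_cases hz2 : Real.sin ((L : ℝ) * z / 2) = 0
    · rw [ker_Q_spec _ hLt z hz, ker_Q_spec _ hL z hz, hz2]
      have h1 : Real.sin (((L * t : ℕ) : ℝ) * z / 2) = 0 := by
        have := ker_sin_sq_le t ((L : ℝ) * z)
        rw [hz2] at this
        have h2 : Real.sin ((t : ℝ) * ((L : ℝ) * z) / 2) ^ 2 = 0 := le_antisymm (by simpa using this) (sq_nonneg _)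
        have h3 := pow_eq_zero_iff (two_ne_zero) |>.1 h2
        have e : ((L * t : ℕ) : ℝ) * z / 2 = (t : ℝ) * ((L : ℝ) * z) / 2 := by push_cast; ring
        rw [e, h3]
      rw [h1]
      simp [pp]
    · rw [ker_Q_spec _ hLt z hz, ker_Q_spec _ hL z hz, ker_Q_spec _ ht _ hz2, ← mul_pow]
      congr 1
      have e : ((L * t : ℕ) : ℝ) * z / 2 = (t : ℝ) * ((L : ℝ) * z) / 2 := by push_cast; ring
      rw [e]
      push_cast
      field_simp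

theorem ker_sc_Q_eq (t : ℕ) (y : ℝ) : (Q t).eval y = (((t : ℝ) ^ 2)⁻¹ * (Fej t).eval y) ^ 32 := by
  simp only [Q, eval_pow, eval_mul, eval_C, pp]

theorem ker_sc_qq_one (c x : ℝ) : qq c 1 x = 1 := by
  rw [ker_qq_eq]
  simp [Q, Fej]

theorem ker_sc_sym_aux (A B q M X x t : ℝ) (hx0 : 0 < x) (h1 : x ≤ X) (h2 : X ≤ 5 / 2 * x) (h3 : X - x ≤ X ^ 2 / 12)
    (ht0 : 0 ≤ t) (hM0 : 0 ≤ M) (hM1 : M ≤ 1) (hMt : M * t ≤ 256) (hA0 : 0 ≤ A) (hB0 : 0 ≤ B) (hAM : A ≤ M ^ 32)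
    (hBM : B ≤ M ^ 32) (hAB : |A - B| ≤ 5 / 24 * (t * M ^ 31) * X) (hq1 : q ≤ 1) (hq2 : 1 - q ≤ X) :
    |A / x - B * q / X| ≤ 257 ^ 3 / (1 + t) ^ 2 := by
  have hX0 : 0 < X := lt_of_lt_of_le hx0 h1
  have hMt1 : M * (1 + t) ≤ 257 := by linarith
  have hM32 : 0 ≤ M ^ 32 := by positivity
  have edec : A / x - B * q / X = A * ((X - x) / (x * X)) + (A - B) / X + B * ((1 - q) / X) := by
    field_simp
    ring
  have hT1 : |A * ((X - x) / (x * X))| ≤ 5 / 24 * M ^ 32 := by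
    have h5 : 0 ≤ (X - x) / (x * X) := div_nonneg (by linarith) (by positivity)
    have h6 : (X - x) / (x * X) ≤ 5 / 24 := by
      rw [div_le_iff₀ (by positivity)]
      nlinarith
    rw [abs_of_nonneg (mul_nonneg hA0 h5)]
    calc A * ((X - x) / (x * X)) ≤ M ^ 32 * (5 / 24) := mul_le_mul hAM h6 h5 hM32
      _ = _ := by ring
  have hT2 : |(A - B) / X| ≤ 5 / 24 * (t * M ^ 31) := by
    rw [abs_div, abs_of_pos hX0, div_le_iff₀ hX0]
    exact hAB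
  have hT3 : |B * ((1 - q) / X)| ≤ M ^ 32 := by
    have h5 : 0 ≤ (1 - q) / X := div_nonneg (by linarith) hX0.le
    have h6 : (1 - q) / X ≤ 1 := (div_le_one hX0).2 hq2
    rw [abs_of_nonneg (mul_nonneg hB0 h5)]
    calc B * ((1 - q) / X) ≤ M ^ 32 * 1 := mul_le_mul hBM h6 h5 hM32
      _ = _ := by ring
  have hsum : |A / x - B * q / X| ≤ 29 / 24 * M ^ 32 + 5 / 24 * (t * M ^ 31) := by
    rw [edec]
    have := abs_add_three (A * ((X - x) / (x * X))) ((A - B) / X) (B * ((1 - q) / X))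
    linarith
  have h1t : 0 < 1 + t := by linarith
  rw [le_div_iff₀ (by positivity)]
  obtain ⟨w, hw⟩ : ∃ w, w = M * (1 + t) := ⟨_, rfl⟩
  have hw0 : 0 ≤ w := by rw [hw]; positivity
  rw [← hw] at hMt1
  have hM30 : M ^ 30 ≤ 1 := pow_le_one₀ hM0 hM1
  have hM28 : M ^ 28 ≤ 1 := pow_le_one₀ hM0 hM1
  have hw2 : w ^ 2 ≤ 257 ^ 2 := pow_le_pow_left₀ hw0 hMt1 2
  have hw3 : w ^ 3 ≤ 257 ^ 3 := pow_le_pow_left₀ hw0 hMt1 3
  have k1 : M ^ 32 * (1 + t) ^ 2 ≤ 257 ^ 2 := by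
    have e : M ^ 32 * (1 + t) ^ 2 = w ^ 2 * M ^ 30 := by rw [hw]; ring
    rw [e]
    calc w ^ 2 * M ^ 30 ≤ 257 ^ 2 * 1 := mul_le_mul hw2 hM30 (by positivity) (by norm_num)
      _ = _ := by ring
  have k2 : t * M ^ 31 * (1 + t) ^ 2 ≤ 257 ^ 3 := by
    have e : (1 + t) * M ^ 31 * (1 + t) ^ 2 = w ^ 3 * M ^ 28 := by rw [hw]; ring
    have h5 : t * M ^ 31 * (1 + t) ^ 2 ≤ (1 + t) * M ^ 31 * (1 + t) ^ 2 := by
      have : 0 ≤ M ^ 31 * (1 + t) ^ 2 := by positivity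
      nlinarith
    refine h5.trans ?_
    rw [e]
    calc w ^ 3 * M ^ 28 ≤ 257 ^ 3 * 1 := mul_le_mul hw3 hM28 (by positivity) (by norm_num)
      _ = _ := by ring
  calc |A / x - B * q / X| * (1 + t) ^ 2
      ≤ (29 / 24 * M ^ 32 + 5 / 24 * (t * M ^ 31)) * (1 + t) ^ 2 :=
        mul_le_mul_of_nonneg_right hsum (by positivity)
    _ = 29 / 24 * (M ^ 32 * (1 + t) ^ 2) + 5 / 24 * (t * M ^ 31 * (1 + t) ^ 2) := by ring
    _ ≤ 29 / 24 * 257 ^ 2 + 5 / 24 * 257 ^ 3 := by linarith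
    _ ≤ 257 ^ 3 := by norm_num

/-- **symbol comparison**: `x = λ_k` on the torus `N`, `x' = λ'_k` on the torus `L N` -/
theorem ker_sc_sym (ℓ u : ℕ) (hu : 1 ≤ u) (x x' : ℝ) (hx0 : 0 < x) (hx8 : x ≤ 8) (hx'8 : x' ≤ 8)
    (h1 : x ≤ (4 : ℝ) ^ ℓ * x') (h2 : (4 : ℝ) ^ ℓ * x' ≤ 5 / 2 * x)
    (h3 : (4 : ℝ) ^ ℓ * x' - x ≤ ((4 : ℝ) ^ ℓ * x') ^ 2 / 12) :
    |qq 64 u x / x - qq 64 (2 ^ ℓ * u) x' / ((4 : ℝ) ^ ℓ * x')| ≤ 257 ^ 3 / (1 + (u : ℝ) ^ 2 * x) ^ 2 := by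
  have hu0 : (0 : ℝ) < u := by positivity
  have h4 : (0 : ℝ) < (4 : ℝ) ^ ℓ := by positivity
  obtain ⟨X, hX⟩ : ∃ X, X = (4 : ℝ) ^ ℓ * x' := ⟨_, rfl⟩
  rw [← hX] at h1 h2 h3 ⊢
  have hX0 : 0 < X := lt_of_lt_of_le hx0 h1
  have hx'0 : 0 < x' := by
    by_contra hc
    push Not at hc
    have : X ≤ 0 := by rw [hX]; exact mul_nonpos_of_nonneg_of_nonpos h4.le hc
    linarith
  have hX20 : X ≤ 20 := by linarith
  obtain ⟨z, -, -, hcz, hsz⟩ := ker_param 64 x (by norm_num) hx0.le hx8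
  obtain ⟨z', -, -, hcz', hsz'⟩ := ker_param 64 x' (by norm_num) hx'0.le hx'8
  have hL1 : 1 ≤ 2 ^ ℓ := Nat.one_le_two_pow
  -- the angle `β = L z'`
  obtain ⟨β, hβ⟩ : ∃ β : ℝ, β = ((2 ^ ℓ : ℕ) : ℝ) * z' := ⟨_, rfl⟩
  obtain ⟨σ, hσ⟩ : ∃ σ : ℝ, σ = Real.sin (β / 2) ^ 2 := ⟨_, rfl⟩
  have hdb := ker_sc_dbl ℓ (z' / 2)
  have eβ : (2 : ℝ) ^ ℓ * (z' / 2) = β / 2 := by rw [hβ]; push_cast; ring
  rw [eβ, hsz', ← hσ] at hdb
  have e16 : (16 : ℝ) ^ ℓ = (4 : ℝ) ^ ℓ * (4 : ℝ) ^ ℓ := by rw [← mul_pow]; norm_num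
  have hσu : σ ≤ X / 128 := by
    refine hdb.1.trans (le_of_eq ?_)
    rw [hX]; ring
  have hσl : X / 128 - X ^ 2 / 49152 ≤ σ := by
    refine le_trans (le_of_eq ?_) hdb.2
    rw [hX, e16]; ring
  have hcβ : Real.cos β = 1 - 2 * σ := by
    have e : β = 2 * (β / 2) := by ring
    conv_lhs => rw [e]
    rw [Real.cos_two_mul']
    have c1 := Real.sin_sq_add_cos_sq (β / 2)
    rw [hσ]
    linarith
  have hdc : |Real.cos z - Real.cos β| ≤ X ^ 2 / 768 := by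
    rw [hcz, hcβ, abs_le]
    have : 0 ≤ X ^ 2 := sq_nonneg _
    constructor <;> linarith
  -- the symbols
  obtain ⟨ha0, ha1, ha2⟩ := ker_sc_fj u hu z
  obtain ⟨hb0, hb1, hb2⟩ := ker_sc_fj u hu β
  have hlip := ker_sc_Q_lip u hu z β
  have hAe := ker_sc_Q_eq u (Real.cos z)
  have hBe := ker_sc_Q_eq u (Real.cos β)
  obtain ⟨a, ha⟩ : ∃ a, a = ((u : ℝ) ^ 2)⁻¹ * (Fej u).eval (Real.cos z) := ⟨_, rfl⟩
  obtain ⟨b, hb⟩ : ∃ b, b = ((u : ℝ) ^ 2)⁻¹ * (Fej u).eval (Real.cos β) := ⟨_, rfl⟩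
  rw [← ha] at ha0 ha1 ha2 hlip hAe
  rw [← hb] at hb0 hb1 hb2 hlip hBe
  rw [← hσ] at hb2
  rw [hsz] at ha2
  obtain ⟨t, ht⟩ : ∃ t, t = (u : ℝ) ^ 2 * x := ⟨_, rfl⟩
  rw [← ht]
  have ht0 : 0 < t := by rw [ht]; positivity
  have hat : a * t ≤ 256 := by
    have e : a * ((u : ℝ) ^ 2 * (x / (2 * 64))) = a * t / 128 := by rw [ht]; ring
    rw [e] at ha2
    linarith
  have hbt : b * t ≤ 256 := by
    have h5 : x / 256 ≤ σ := by nlinarith
    have h6 : b * ((u : ℝ) ^ 2 * (x / 256)) ≤ b * ((u : ℝ) ^ 2 * σ) :=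
      mul_le_mul_of_nonneg_left (mul_le_mul_of_nonneg_left h5 (by positivity)) hb0
    have e : b * ((u : ℝ) ^ 2 * (x / 256)) = b * t / 256 := by rw [ht]; ring
    rw [e] at h6
    linarith
  obtain ⟨M, haM, hbM, hM1, hMt⟩ : ∃ M, a ≤ M ∧ b ≤ M ∧ M ≤ 1 ∧ M * t ≤ 256 := by
    rcases le_total a b with h | h
    · exact ⟨b, h, le_rfl, hb1, hbt⟩
    · exact ⟨a, le_rfl, h, ha1, hat⟩
  have hM0 : 0 ≤ M := ha0.trans haM
  -- `A`, `B`, `q`
  have eA : qq 64 u x = (Q u).eval (Real.cos z) := by rw [ker_qq_eq, ← hcz]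
  have eBq : qq 64 (2 ^ ℓ * u) x' = (Q u).eval (Real.cos β) * (Q (2 ^ ℓ)).eval (Real.cos z') := by
    rw [ker_qq_eq, ← hcz', ker_sc_Q_fac _ _ hL1 hu z', hβ]
  have eq' : qq 64 (2 ^ ℓ) x' = (Q (2 ^ ℓ)).eval (Real.cos z') := by rw [ker_qq_eq, ← hcz']
  have hq1 : (Q (2 ^ ℓ)).eval (Real.cos z') ≤ 1 := by
    rw [← eq']; exact ker_qq_le_one 64 (by norm_num) _ hL1 x' hx'0.le hx'8
  have hq2 : 1 - (Q (2 ^ ℓ)).eval (Real.cos z') ≤ X := by
    have := ker_qq_tele 64 (by norm_num) 1 le_rfl ℓ x' hx'0.le hx'8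
    rw [ker_sc_qq_one, mul_one, eq'] at this
    refine this.trans (le_of_eq ?_)
    rw [hX]
    have : ((2 : ℝ) ^ ℓ * ((1 : ℕ) : ℝ)) ^ 2 = (4 : ℝ) ^ ℓ := by
      rw [Nat.cast_one, mul_one, ← pow_mul, mul_comm, pow_mul]; norm_num
    rw [this]
  rw [eA, eBq]
  refine ker_sc_sym_aux _ _ _ M X x t hx0 h1 h2 h3 ht0.le hM0 hM1 hMt (ker_Q_nonneg _ _) (ker_Q_nonneg _ _) ?_ ?_ ?_
    hq1 hq2
  · rw [hAe]; exact pow_le_pow_left₀ ha0 haM 32
  · rw [hBe]; exact pow_le_pow_left₀ hb0 hbM 32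
  · refine (hlip M haM hbM).trans ?_
    have h5 : 0 ≤ (u : ℝ) ^ 2 * M ^ 31 := by positivity
    have h6 : 0 ≤ (u : ℝ) ^ 2 * M ^ 31 * X := by positivity
    calc 64 * (u : ℝ) ^ 2 * |Real.cos z - Real.cos β| * M ^ 31
        = 64 * ((u : ℝ) ^ 2 * M ^ 31) * |Real.cos z - Real.cos β| := by ring
      _ ≤ 64 * ((u : ℝ) ^ 2 * M ^ 31) * (X ^ 2 / 768) := mul_le_mul_of_nonneg_left hdc (by positivity)
      _ = ((u : ℝ) ^ 2 * M ^ 31 * X) * (X / 12) := by ring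
      _ ≤ ((u : ℝ) ^ 2 * M ^ 31 * X) * (5 / 24 * x) := mul_le_mul_of_nonneg_left (by linarith) h6
      _ = _ := by rw [ht]; ring

/-! ## 2. The sum with `√λ` -/

theorem ker_sc_lam1_lower (N : ℕ) (j : Fin N) (hj : (j : ℕ) ≠ 0) : 16 / (N : ℝ) ^ 2 ≤ lam1 N j := by
  refine le_trans ?_ (ker_lam1_lower N j)
  have h1 : 1 ≤ min (j : ℕ) (N - (j : ℕ)) := by have := j.2; omega
  have h2 : (1 : ℝ) ≤ ((min (j : ℕ) (N - (j : ℕ)) : ℕ) : ℝ) := by exact_mod_cast h1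
  have h3 : (1 : ℝ) ≤ ((min (j : ℕ) (N - (j : ℕ)) : ℕ) : ℝ) ^ 2 := one_le_pow₀ h2
  gcongr
  linarith

theorem ker_sc_lam_lower (N : ℕ) (k : Fin N × Fin N) (hk : lam N k ≠ 0) : 16 / (N : ℝ) ^ 2 ≤ lam N k := by
  have h1 := ker_lam1_nonneg N k.1
  have h2 := ker_lam1_nonneg N k.2
  rw [Ne, ker_lam_eq_zero, not_and_or] at hk
  unfold lam
  rcases hk with h | h
  · have := ker_sc_lam1_lower N k.1 h
    linarith
  · have := ker_sc_lam1_lower N k.2 h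
    linarith

theorem ker_sc_tm_split (F : Fam) (u : ℕ) (hu : 1 ≤ u) (x : ℝ) :
    tm F u x * Real.sqrt x = (F.shellP u (2 * u)).eval x * Real.sqrt x + tm F (2 * u) x * Real.sqrt x := by
  by_cases hx : x = 0
  · simp [hx]
  · have h1 := ker_shellP_eval F u (2 * u) hu (by omega) x
    have h2 : (F.shellP u (2 * u)).eval x = F.pref.eval x * (qq F.c u x - qq F.c (2 * u) x) / x := by
      rw [eq_div_iff hx, mul_comm, h1]
    rw [h2]
    simp only [tm, hx, if_false, ker_termP_eval]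
    ring

/-- **the sum `N⁻² ∑_k μ_k √λ_k ≤ K / u`** (dyadic pieces + `ker_master`) -/
theorem ker_sc_half (b0 b1 cmax : ℝ) (d : ℕ) : ∃ K : ℝ, 0 ≤ K ∧ ∀ F : Fam, F.Adm b0 b1 d → F.c ≤ cmax →
    ∀ N u : ℕ, 1 ≤ u → u ≤ N →
      ((N : ℝ) ^ 2)⁻¹ * ∑ k : Fin N × Fin N, tm F u (lam N k) * Real.sqrt (lam N k) ≤ K / u := by
  obtain ⟨C1, hC1, h1⟩ := ker_piece_sym b0 b1 cmax d
  obtain ⟨C2, hC2, h2⟩ := ker_tm_sym b0 b1 cmax d
  obtain ⟨C3, hC3, h3⟩ := ker_master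
  refine ⟨2 * (C1 * C3) + C2 * C3, by positivity, ?_⟩
  intro F hF hc N
  have key : ∀ n u : ℕ, 1 ≤ u → u ≤ N → N < 2 ^ n * u →
      ((N : ℝ) ^ 2)⁻¹ * ∑ k : Fin N × Fin N, tm F u (lam N k) * Real.sqrt (lam N k) ≤ (2 * (C1 * C3) + C2 * C3) / u := by
    intro n
    induction n with
    | zero => intro u _ h h'; omega
    | succ n ih =>
      intro u hu huN hn
      have hu0 : (0 : ℝ) < u := by positivity
      have hN0 : (0 : ℝ) < N := by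
        have : 0 < N := by omega
        exact_mod_cast this
      have hNi : (0 : ℝ) ≤ ((N : ℝ) ^ 2)⁻¹ := by positivity
      have hm := h3 N u hu huN
      rcases Nat.lt_or_ge N (2 * u) with hlt | hge
      · -- top scale
        have hlt' : (N : ℝ) ≤ 2 * u := by exact_mod_cast hlt.le
        have hterm : ∀ k : Fin N × Fin N, tm F u (lam N k) * Real.sqrt (lam N k)
            ≤ (N : ℝ) / 4 * (C2 * ((u : ℝ) ^ 2)⁻¹ * ((u : ℝ) ^ 2 / (1 + (u : ℝ) ^ 2 * lam N k) ^ 2)) := by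
          intro k
          have hl0 := ker_lam_nonneg N k
          have hl8 := ker_lam_le N k
          by_cases hk : lam N k = 0
          · rw [hk]; simp only [Real.sqrt_zero, mul_zero]; positivity
          · have hT := ker_tm_nonneg hF u _ hl0 hl8
            have h4 := h2 F hF hc u hu _ hl0 hl8 2 le_rfl (by norm_num)
            rw [abs_of_nonneg hT] at h4
            have h5 := ker_sc_lam_lower N k hk
            have h6 : 4 / (N : ℝ) ≤ Real.sqrt (lam N k) := by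
              apply Real.le_sqrt_of_sq_le
              refine le_trans (le_of_eq ?_) h5
              ring
            have h7 : 1 ≤ (N : ℝ) / 4 * Real.sqrt (lam N k) := by
              have := mul_le_mul_of_nonneg_left h6 (by positivity : (0 : ℝ) ≤ (N : ℝ) / 4)
              refine le_trans (le_of_eq ?_) this
              field_simp
            have hs0 := Real.sqrt_nonneg (lam N k)
            calc tm F u (lam N k) * Real.sqrt (lam N k)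
                = tm F u (lam N k) * Real.sqrt (lam N k) * 1 := by ring
              _ ≤ tm F u (lam N k) * Real.sqrt (lam N k) * ((N : ℝ) / 4 * Real.sqrt (lam N k)) :=
                  mul_le_mul_of_nonneg_left h7 (by positivity)
              _ = (N : ℝ) / 4 * (tm F u (lam N k) * Real.sqrt (lam N k) ^ 2) := by ring
              _ ≤ _ := mul_le_mul_of_nonneg_left h4 (by positivity)
        calc ((N : ℝ) ^ 2)⁻¹ * ∑ k : Fin N × Fin N, tm F u (lam N k) * Real.sqrt (lam N k)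
            ≤ ((N : ℝ) ^ 2)⁻¹ * ∑ k : Fin N × Fin N,
                (N : ℝ) / 4 * (C2 * ((u : ℝ) ^ 2)⁻¹ * ((u : ℝ) ^ 2 / (1 + (u : ℝ) ^ 2 * lam N k) ^ 2)) :=
              mul_le_mul_of_nonneg_left (Finset.sum_le_sum fun k _ => hterm k) hNi
          _ = (N : ℝ) / 4 * (C2 * ((u : ℝ) ^ 2)⁻¹) * (((N : ℝ) ^ 2)⁻¹ * ∑ k : Fin N × Fin N,
                (u : ℝ) ^ 2 / (1 + (u : ℝ) ^ 2 * lam N k) ^ 2) := by
              simp only [← Finset.mul_sum]; ring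
          _ ≤ (N : ℝ) / 4 * (C2 * ((u : ℝ) ^ 2)⁻¹) * C3 := mul_le_mul_of_nonneg_left hm (by positivity)
          _ ≤ (2 * u) / 4 * (C2 * ((u : ℝ) ^ 2)⁻¹) * C3 := by gcongr
          _ = (C2 * C3 / 2) / u := by field_simp; ring
          _ ≤ _ := by
              apply div_le_div_of_nonneg_right _ hu0.le
              have : 0 ≤ C1 * C3 := by positivity
              have : 0 ≤ C2 * C3 := by positivity
              linarith
      · have ih' := ih (2 * u) (by omega) hge (by rw [pow_succ] at hn; linarith)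
        have hpiece : ((N : ℝ) ^ 2)⁻¹ * ∑ k : Fin N × Fin N, (F.shellP u (2 * u)).eval (lam N k) * Real.sqrt (lam N k)
            ≤ C1 * C3 / u := by
          have hterm : ∀ k : Fin N × Fin N, (F.shellP u (2 * u)).eval (lam N k) * Real.sqrt (lam N k)
              ≤ C1 * ((u : ℝ))⁻¹ * ((u : ℝ) ^ 2 / (1 + (u : ℝ) ^ 2 * lam N k) ^ 2) := by
            intro k
            have h4 := h1 F hF hc u hu _ (ker_lam_nonneg N k) (ker_lam_le N k) 1 (by norm_num)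
            rw [pow_one, pow_one] at h4
            refine le_trans ?_ h4
            exact mul_le_mul_of_nonneg_right (le_abs_self _) (Real.sqrt_nonneg _)
          calc ((N : ℝ) ^ 2)⁻¹ * ∑ k : Fin N × Fin N, (F.shellP u (2 * u)).eval (lam N k) * Real.sqrt (lam N k)
              ≤ ((N : ℝ) ^ 2)⁻¹ * ∑ k : Fin N × Fin N,
                  C1 * ((u : ℝ))⁻¹ * ((u : ℝ) ^ 2 / (1 + (u : ℝ) ^ 2 * lam N k) ^ 2) :=
                mul_le_mul_of_nonneg_left (Finset.sum_le_sum fun k _ => hterm k) hNi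
            _ = C1 * ((u : ℝ))⁻¹ * (((N : ℝ) ^ 2)⁻¹ * ∑ k : Fin N × Fin N,
                  (u : ℝ) ^ 2 / (1 + (u : ℝ) ^ 2 * lam N k) ^ 2) := by
                simp only [← Finset.mul_sum]; ring
            _ ≤ C1 * ((u : ℝ))⁻¹ * C3 := mul_le_mul_of_nonneg_left hm (by positivity)
            _ = _ := by field_simp
        have hsplit : ∑ k : Fin N × Fin N, tm F u (lam N k) * Real.sqrt (lam N k)
            = ∑ k : Fin N × Fin N, (F.shellP u (2 * u)).eval (lam N k) * Real.sqrt (lam N k)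
              + ∑ k : Fin N × Fin N, tm F (2 * u) (lam N k) * Real.sqrt (lam N k) := by
          rw [← Finset.sum_add_distrib]
          exact Finset.sum_congr rfl fun k _ => ker_sc_tm_split F u hu _
        rw [hsplit, mul_add]
        push_cast at ih'
        calc _ ≤ C1 * C3 / u + (2 * (C1 * C3) + C2 * C3) / (2 * u) := add_le_add hpiece ih'
          _ = (2 * (C1 * C3) + C2 * C3 / 2) / u := by field_simp; ring
          _ ≤ _ := by
              apply div_le_div_of_nonneg_right _ hu0.le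
              have : 0 ≤ C2 * C3 := by positivity
              linarith
  intro u hu huN
  refine key N u hu huN ?_
  calc N < 2 ^ N := Nat.lt_two_pow_self
    _ ≤ 2 ^ N * u := Nat.le_mul_of_pos_right _ hu

/-! ## 3. Frequencies -/

/-- embedding of the frequencies of the torus `N` into those of the torus `N' ≥ N` (signed representatives `|κ| ≤ N/2`) -/
def scs (N N' : ℕ) (h : N ≤ N') (k : Fin N) : Fin N' :=
  ⟨if 2 * (k : ℕ) ≤ N then (k : ℕ) else (k : ℕ) + (N' - N), by have := k.2; split_ifs <;> omega⟩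

theorem ker_sc_scs_val (N N' : ℕ) (h : N ≤ N') (k : Fin N) :
    ((scs N N' h k : Fin N') : ℕ) = if 2 * (k : ℕ) ≤ N then (k : ℕ) else (k : ℕ) + (N' - N) := rfl

theorem ker_sc_scs_inj (N N' : ℕ) (h : N ≤ N') : Function.Injective (scs N N' h) := by
  intro k k' hk
  have h1 := congrArg (fun j : Fin N' => (j : ℕ)) hk
  simp only [ker_sc_scs_val] at h1
  apply Fin.ext
  have := k.2
  have := k'.2
  split_ifs at h1 <;> omega

theorem ker_sc_scs_min (N N' : ℕ) (h : N ≤ N') (k : Fin N) :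
    min ((scs N N' h k : Fin N') : ℕ) (N' - ((scs N N' h k : Fin N') : ℕ)) = min (k : ℕ) (N - (k : ℕ)) := by
  rw [ker_sc_scs_val]
  have := k.2
  split_ifs <;> omega

theorem ker_sc_scs_range (N N' : ℕ) (h : N ≤ N') (k' : Fin N') (hk : k' ∉ Set.range (scs N N' h)) :
    N ≤ 2 * min (k' : ℕ) (N' - (k' : ℕ)) := by
  by_contra hc
  apply hk
  have h2 := k'.2
  rcases Nat.lt_or_ge (2 * (k' : ℕ)) N with h1 | h1
  · refine ⟨⟨(k' : ℕ), by omega⟩, ?_⟩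
    apply Fin.ext
    rw [ker_sc_scs_val]
    simp only
    rw [if_pos (by omega)]
  · refine ⟨⟨(k' : ℕ) - (N' - N), by omega⟩, ?_⟩
    apply Fin.ext
    rw [ker_sc_scs_val]
    simp only
    rw [if_neg (by omega)]
    omega

theorem ker_sc_lam1_upper (N : ℕ) (j : Fin N) :
    lam1 N j ≤ 4 * Real.pi ^ 2 * ((min (j : ℕ) (N - (j : ℕ)) : ℕ) : ℝ) ^ 2 / (N : ℝ) ^ 2 := by
  have hN : (0 : ℝ) < (N : ℝ) := by
    have := Fin.pos j
    exact_mod_cast this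
  have hj := j.2
  rcases le_total (j : ℕ) (N - (j : ℕ)) with h | h
  · rw [min_eq_left h]
    exact ker_lam1_upper N j
  · rw [min_eq_right h]
    have h1 := ker_lam1_upper N (-j)
    rw [ker_lam1_negfreq] at h1
    rcases ker_neg_val N j with ⟨h2, h3⟩ | h2
    · rw [h3] at h1
      refine h1.trans ?_
      simp only [Nat.cast_zero]
      have : (0:ℝ) ≤ 4 * Real.pi ^ 2 * ((N - (j : ℕ) : ℕ) : ℝ) ^ 2 / (N : ℝ) ^ 2 := by positivity
      simpa using this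
    · have h3 : ((-j : Fin N) : ℕ) = N - (j : ℕ) := by omega
      rw [h3] at h1
      exact h1

/-- `σ k ≡ k mod N` -/
theorem ker_sc_chi1 (N N' L : ℕ) (h : N ≤ N') (hN' : N' = L * N) (k : Fin N) (a : ℤ) :
    chi1 N' (scs N N' h k) ((L : ℤ) * a) = chi1 N k a := by
  have hN : 0 < N := Fin.pos k
  have hNc : (N : ℂ) ≠ 0 := by exact_mod_cast hN.ne'
  have hL : 0 < L := by
    rcases Nat.eq_zero_or_pos L with h0 | h0
    · subst h0; omega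
    · exact h0
  have hLc : (L : ℂ) ≠ 0 := by exact_mod_cast hL.ne'
  unfold chi1
  rw [ker_sc_scs_val]
  split_ifs with h2
  · congr 2
    rw [hN']
    push_cast
    field_simp
  · have e : 2 * (Real.pi : ℂ) * Complex.I * ((((k : ℕ) + (N' - N) : ℕ) : ℂ) * (((L : ℤ) * a : ℤ) : ℂ) / (N' : ℂ))
        = 2 * (Real.pi : ℂ) * Complex.I * (((k : ℕ) : ℂ) * (a : ℂ) / (N : ℂ))
          + (((L - 1 : ℕ) * a : ℤ) : ℂ) * (2 * (Real.pi : ℂ) * Complex.I) := by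
      have e1 : N' - N = (L - 1) * N := by
        rw [hN', Nat.sub_mul, one_mul]
      rw [e1, hN']
      push_cast
      field_simp
    rw [e, Complex.exp_add, Complex.exp_int_mul_two_pi_mul_I, mul_one]

/-- the two eigenvalues as `4 sin² φ`, `4 sin² (L φ)` -/
theorem ker_sc_lam1_angle (N N' L : ℕ) (h : N ≤ N') (hN' : N' = L * N) (k : Fin N) :
    lam1 N k = 4 * Real.sin ((L : ℝ) * (Real.pi * (((scs N N' h k : Fin N') : ℕ) : ℝ) / (N' : ℝ))) ^ 2 := by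
  have hN : 0 < N := Fin.pos k
  have hNc : (N : ℝ) ≠ 0 := by exact_mod_cast hN.ne'
  have hL : 0 < L := by
    rcases Nat.eq_zero_or_pos L with h0 | h0
    · subst h0; omega
    · exact h0
  have hLc : (L : ℝ) ≠ 0 := by exact_mod_cast hL.ne'
  unfold lam1
  rw [ker_sc_scs_val]
  split_ifs with h2
  · congr 3
    rw [hN']
    push_cast
    field_simp
  · have e : (L : ℝ) * (Real.pi * (((k : ℕ) + (N' - N) : ℕ) : ℝ) / (N' : ℝ))
        = Real.pi * ((k : ℕ) : ℝ) / (N : ℝ) + ((L - 1 : ℕ) : ℝ) * Real.pi := by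
      have e1 : N' - N = (L - 1) * N := by
        rw [hN', Nat.sub_mul, one_mul]
      rw [e1, hN']
      push_cast
      field_simp
    rw [e, Real.sin_add_nat_mul_pi, mul_pow, ← pow_mul, mul_comm (L - 1) 2, pow_mul]
    simp

/-- one-dimensional comparison of the eigenvalues, `Y = L² λ'` -/
theorem ker_sc_lam1_cmp (ℓ N N' : ℕ) (h : N ≤ N') (hN' : N' = 2 ^ ℓ * N) (k : Fin N) :
    lam1 N k ≤ (4 : ℝ) ^ ℓ * lam1 N' (scs N N' h k) ∧
      (4 : ℝ) ^ ℓ * lam1 N' (scs N N' h k) - ((4 : ℝ) ^ ℓ * lam1 N' (scs N N' h k)) ^ 2 / 12 ≤ lam1 N k ∧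
      (4 : ℝ) ^ ℓ * lam1 N' (scs N N' h k) ≤ 5 / 2 * lam1 N k := by
  have hN : 0 < N := Fin.pos k
  have hNr : (0 : ℝ) < (N : ℝ) := by exact_mod_cast hN
  have h1 := ker_sc_lam1_angle N N' (2 ^ ℓ) h hN' k
  have h2 := ker_sc_dbl ℓ (Real.pi * (((scs N N' h k : Fin N') : ℕ) : ℝ) / (N' : ℝ))
  push_cast at h1
  have e16 : (16 : ℝ) ^ ℓ = (4 : ℝ) ^ ℓ * (4 : ℝ) ^ ℓ := by rw [← mul_pow]; norm_num
  have h3 : lam1 N' (scs N N' h k) = 4 * Real.sin (Real.pi * (((scs N N' h k : Fin N') : ℕ) : ℝ) / (N' : ℝ)) ^ 2 := rfl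
  refine ⟨?_, ?_, ?_⟩
  · rw [h1, h3]
    linarith [h2.1]
  · rw [h1, h3]
    have := h2.2
    rw [e16] at this
    refine le_trans (le_of_eq ?_) (mul_le_mul_of_nonneg_left this (by norm_num : (0 : ℝ) ≤ 4))
    ring
  · have h4 := ker_sc_lam1_upper N' (scs N N' h k)
    rw [ker_sc_scs_min] at h4
    have h5 := ker_lam1_lower N k
    have hpi : Real.pi ^ 2 ≤ 10 := by
      have := Real.pi_lt_d2
      have := Real.pi_pos
      nlinarith
    have e4 : ((N' : ℕ) : ℝ) ^ 2 = (4 : ℝ) ^ ℓ * (N : ℝ) ^ 2 := by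
      rw [hN']
      push_cast
      rw [mul_pow, ← pow_mul, mul_comm ℓ 2, pow_mul]
      norm_num
    rw [e4] at h4
    have h4pos : (0 : ℝ) < (4 : ℝ) ^ ℓ := by positivity
    set i : ℝ := ((min (k : ℕ) (N - (k : ℕ)) : ℕ) : ℝ) with hi
    have h6 : (4 : ℝ) ^ ℓ * lam1 N' (scs N N' h k) ≤ 4 * Real.pi ^ 2 * i ^ 2 / (N : ℝ) ^ 2 := by
      refine (mul_le_mul_of_nonneg_left h4 h4pos.le).trans (le_of_eq ?_)
      field_simp
    have h7 : 4 * Real.pi ^ 2 * i ^ 2 / (N : ℝ) ^ 2 ≤ 5 / 2 * (16 * i ^ 2 / (N : ℝ) ^ 2) := by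
      rw [← mul_div_assoc]
      apply div_le_div_of_nonneg_right _ (by positivity)
      have : 0 ≤ i ^ 2 := sq_nonneg _
      nlinarith
    linarith

/-- the frequencies which are not images are high -/
theorem ker_sc_lam1_high (ℓ N N' : ℕ) (h : N ≤ N') (hN' : N' = 2 ^ ℓ * N) (hN : 0 < N) (k' : Fin N')
    (hk : k' ∉ Set.range (scs N N' h)) : 4 ≤ (4 : ℝ) ^ ℓ * lam1 N' k' := by
  have hNr : (0 : ℝ) < (N : ℝ) := by exact_mod_cast hN
  have h1 := ker_sc_scs_range N N' h k' hk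
  have h2 := ker_lam1_lower N' k'
  have e4 : ((N' : ℕ) : ℝ) ^ 2 = (4 : ℝ) ^ ℓ * (N : ℝ) ^ 2 := by
    rw [hN']
    push_cast
    rw [mul_pow, ← pow_mul, mul_comm ℓ 2, pow_mul]
    norm_num
  rw [e4] at h2
  have h4pos : (0 : ℝ) < (4 : ℝ) ^ ℓ := by positivity
  have h3 : (N : ℝ) ≤ 2 * ((min (k' : ℕ) (N' - (k' : ℕ)) : ℕ) : ℝ) := by exact_mod_cast h1
  set i : ℝ := ((min (k' : ℕ) (N' - (k' : ℕ)) : ℕ) : ℝ) with hi
  have h5 : (N : ℝ) ^ 2 ≤ (2 * i) ^ 2 := pow_le_pow_left₀ hNr.le h3 2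
  have h6 : 4 ≤ (4 : ℝ) ^ ℓ * (16 * i ^ 2 / ((4 : ℝ) ^ ℓ * (N : ℝ) ^ 2)) := by
    have e : (4 : ℝ) ^ ℓ * (16 * i ^ 2 / ((4 : ℝ) ^ ℓ * (N : ℝ) ^ 2)) = 16 * i ^ 2 / (N : ℝ) ^ 2 := by
      field_simp
    rw [e, le_div_iff₀ (by positivity)]
    nlinarith
  exact h6.trans (mul_le_mul_of_nonneg_left h2 h4pos.le)

/-- `|χ (b) - 1| ≤ |b| √λ` -/
theorem ker_sc_chi1_sub (N : ℕ) (j : Fin N) (b : ℤ) : ‖chi1 N j b - 1‖ ≤ |(b : ℝ)| * Real.sqrt (lam1 N j) := by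
  have h0 : 0 ≤ |(b : ℝ)| * Real.sqrt (lam1 N j) := by positivity
  refine (sq_le_sq₀ (norm_nonneg _) h0).1 ?_
  rw [mul_pow, Real.sq_sqrt (ker_lam1_nonneg N j), sq_abs]
  set θ : ℝ := Real.pi * ((j : ℕ) : ℝ) / (N : ℝ) with hθ
  have h1 : ‖chi1 N j b - 1‖ ^ 2 = 4 * Real.sin ((b : ℝ) * θ) ^ 2 := by
    rw [ker_chi1_eq, ker_norm_exp_sub_one]
    congr 3
    rw [hθ]; ring
  have h2 : |Real.sin ((b : ℝ) * θ)| = |Real.sin (((b.natAbs : ℕ) : ℝ) * θ)| := by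
    rcases Int.natAbs_eq b with hb | hb
    · conv_lhs => rw [hb]
      simp
    · conv_lhs => rw [hb]
      simp
  have h3 := ker_sin_nat_mul_le b.natAbs θ
  rw [← h2] at h3
  have h4 : ((b.natAbs : ℕ) : ℝ) = |(b : ℝ)| := by
    rw [Nat.cast_natAbs, Int.cast_abs]
  rw [h4] at h3
  have h5 := pow_le_pow_left₀ (abs_nonneg _) h3 2
  rw [sq_abs, mul_pow, sq_abs, sq_abs] at h5
  rw [h1]
  unfold lam1
  rw [← hθ]
  linarith

theorem ker_sc_chi_sub (N : ℕ) (k : Fin N × Fin N) (b : ℤ × ℤ) :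
    ‖chi N k b - 1‖ ≤ |(b.1 : ℝ)| * Real.sqrt (lam1 N k.1) + |(b.2 : ℝ)| * Real.sqrt (lam1 N k.2) := by
  unfold chi
  have e : chi1 N k.1 b.1 * chi1 N k.2 b.2 - 1 = chi1 N k.1 b.1 * (chi1 N k.2 b.2 - 1) + (chi1 N k.1 b.1 - 1) := by ring
  rw [e]
  refine (norm_add_le _ _).trans ?_
  rw [norm_mul, ker_chi1_norm, one_mul]
  linarith [ker_sc_chi1_sub N k.1 b.1, ker_sc_chi1_sub N k.2 b.2]

end Claimed.Agent.R285.Ker
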