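import Claimed.Agent.R285.Ker.Dg
import Claimed.Agent.R285.Ker.SclA

/-!
# ROW 285, [B] L8.1 `entry_diag`, leaf L81-DUP: exact duplication, Lipschitz bound, the symbols `qq 64 t` on `[0, 16]`  (architect helper198)

FROM `Ker/Fej.lean`, `Ker/Qb.lean`, `Ker/Sym1.lean`, `Ker/Sym2.lean` (all proved).
PLAN.
* `ker_Fej_dup`: `ker_Fej_spec (2t) z : Fej (2t) (cos z) sin² (z/2) = sin² (2t z/2)`, `ker_Fej_spec t (2z) : Fej t (cos 2z) sin² z = sin² (t 2z/2)`, `sin z = 2 sin (z/2) cos (z/2)`.  If `sin (z/2) ≠ 0` cancel.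
  If `sin (z/2) = 0`: `cos z = 1`, `cos 2z = 1`, `cos² (z/2) = 1`, `ker_Fej_one`: `(2t)² = 4 t²`.
* `ker_Q_dup`: `Q s = (C ((s²)⁻¹) * Fej s) ^ 32`; `((2t)²)⁻¹ · 4 = (t²)⁻¹`; `mul_pow`, `(cos²)^32 = cos^64`.
* `ker_qq_half`: `ker_qq_eq` twice, `x/2/(c/2) = x/c`.
* `ker_qe_dup`: `ker_param 64 x` gives `z`, `cos z = 1 - x/64`; `cos 2z = 2 cos² z - 1 = 1 - (4x - x²/32)/64`, `cos² (z/2) = (1 + cos z)/2 = 1 - x/128` (`Real.cos_sq_half`/`Real.cos_sq`); `ker_qq_eq`, `ker_Q_dup`; `cos^64 = (cos²)^32`.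
* `ker_cos_lip`: `cos A - cos B = -2 sin ((A+B)/2) sin ((A-B)/2)` (`Real.cos_sub_cos`) for `(kθ, kθ')` and `(θ, θ')`; `ker_sin_nat_mul_le k ((θ ± θ')/2)`.
* `ker_Fej_lip`: `ker_Fej_eval`; `∑_{k ∈ Ico 1 t} 2 (t - k) k² ≤ t⁴` (crude: each term `≤ 2 t · t²`, `t - 1` terms: `≤ 2 t⁴`; the statement has the constant `2`).
* `ker_Fej_range`: `ker_Fej_spec`, `ker_sin_nat_mul_le`, case `sin (z/2) = 0` by `ker_Fej_one`.
* `ker_pow_lip`: induction: `a^{n+1} - b^{n+1} = a (a^n - b^n) + (a - b) b^n`.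
* `ker_Q_lip`: `Q t (cos z) = (Fej t (cos z)/t²)^32`, `ker_pow_lip` with `n = 32`, `ker_Fej_lip`: `32 · 2 t⁴/t² = 64 t²`.
* `ker_qe_lip`: `x, x' ∈ [0,16]`: `ker_param 32 (x/2)` gives `cos z = 1 - x/64`; `|cos z - cos z'| = |x - x'|/64`.
* the remaining statements: `ker_qq_half` (`qq 64 t x = qq 32 t (x/2)`) + the statements of `Ker/Sym1.lean` at `c = 32`, `x/2 ≤ 8`.   `ker_qe_one_sub_le`: `ker_qe_lip` with `x' = 0`, `ker_qq_zero`.
* `ker_Hp_eval`: `ker_shellP_eval Fam.entry t (2t)`, `Fam.entry.pref = 1`, `Fam.entry.c = 64` (`simp [Hp, Fam.entry]`).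
-/

set_option autoImplicit false

namespace Claimed.Agent.R285.Ker

open scoped BigOperators
open Polynomial
open Claimed.Agent.R285.RG

theorem ker_Fej_dup (t : ℕ) (z : ℝ) :
    (Fej (2 * t)).eval (Real.cos z) = 4 * (Fej t).eval (Real.cos (2 * z)) * Real.cos (z / 2) ^ 2 := by
  have h1 := ker_Fej_spec (2 * t) z
  have h2 := ker_Fej_spec t (2 * z)
  have e1 : ((2 * t : ℕ) : ℝ) * z / 2 = (t : ℝ) * (2 * z) / 2 := by push_cast; ring
  have e2 : 2 * z / 2 = 2 * (z / 2) := by ring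
  rw [e1] at h1
  rw [e2, Real.sin_two_mul] at h2
  by_cases hz : Real.sin (z / 2) = 0
  · have hc : Real.cos z = 1 := ker_cos_of_sin_half hz
    have hc2 : Real.cos (2 * z) = 1 := by
      rw [Real.cos_two_mul, hc]
      norm_num
    have hcc : Real.cos (z / 2) ^ 2 = 1 := by
      have c1 := Real.sin_sq_add_cos_sq (z / 2)
      rw [hz] at c1
      linarith
    rw [hc, hc2, hcc, ker_Fej_one, ker_Fej_one]
    push_cast
    ring
  · have hs : Real.sin (z / 2) ^ 2 ≠ 0 := pow_ne_zero 2 hz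
    apply mul_right_cancel₀ hs
    rw [h1, ← h2]
    ring

theorem ker_Q_dup (t : ℕ) (ht : 1 ≤ t) (z : ℝ) :
    (Q (2 * t)).eval (Real.cos z) = (Q t).eval (Real.cos (2 * z)) * Real.cos (z / 2) ^ 64 := by
  have ht0 : (t : ℝ) ≠ 0 := by positivity
  simp only [Q, eval_pow, eval_mul, eval_C]
  rw [ker_Fej_dup]
  have e : Real.cos (z / 2) ^ 64 = (Real.cos (z / 2) ^ 2) ^ pp := by
    rw [← pow_mul]
    rfl
  rw [e, ← mul_pow]
  congr 1
  push_cast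
  field_simp
  ring

theorem ker_qq_half (c : ℝ) (t : ℕ) (x : ℝ) : qq c t x = qq (c / 2) t (x / 2) := by
  rw [ker_qq_eq, ker_qq_eq, div_div_div_cancel_right₀ (two_ne_zero)]

/-- **exact duplication**: scale `2t` at `x` = scale `t` at `4x - x²/32`, up to the factor `(1 - x/128)^32` -/
theorem ker_qe_dup (t : ℕ) (ht : 1 ≤ t) (x : ℝ) (h0 : 0 ≤ x) (h8 : x ≤ 8) :
    qq 64 (2 * t) x = qq 64 t (4 * x - x ^ 2 / 32) * (1 - x / 128) ^ 32 := by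
  obtain ⟨z, -, -, hcos, hsin⟩ := ker_param 64 x (by norm_num) h0 h8
  have hc2 : Real.cos (2 * z) = 1 - (4 * x - x ^ 2 / 32) / 64 := by
    rw [Real.cos_two_mul, hcos]
    ring
  have hcc : Real.cos (z / 2) ^ 2 = 1 - x / 128 := by
    have c1 := Real.sin_sq_add_cos_sq (z / 2)
    rw [hsin] at c1
    linarith
  rw [ker_qq_eq, ker_qq_eq, ← hcos, ← hc2, ker_Q_dup t ht z, ← hcc, ← pow_mul]

theorem ker_cos_lip (k : ℕ) (θ θ' : ℝ) :
    |Real.cos (k * θ) - Real.cos (k * θ')| ≤ (k : ℝ) ^ 2 * |Real.cos θ - Real.cos θ'| :=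
  ker_sc_cos_lip k θ θ'

theorem ker_Fej_lip (t : ℕ) (z z' : ℝ) :
    |(Fej t).eval (Real.cos z) - (Fej t).eval (Real.cos z')| ≤ 2 * (t : ℝ) ^ 4 * |Real.cos z - Real.cos z'| :=
  ker_sc_fej_lip t z z'

theorem ker_Fej_range (t : ℕ) (z : ℝ) :
    0 ≤ (Fej t).eval (Real.cos z) ∧ (Fej t).eval (Real.cos z) ≤ (t : ℝ) ^ 2 := by
  rcases Nat.eq_zero_or_pos t with rfl | ht
  · simp [ker_Fej_eval]
  · obtain ⟨h0, h1, -⟩ := ker_sc_fj t ht z
    have ht2 : (0 : ℝ) < (t : ℝ) ^ 2 := by positivity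
    constructor
    · by_contra hc
      push Not at hc
      have := mul_neg_of_pos_of_neg (inv_pos.2 ht2) hc
      linarith
    · rwa [inv_mul_le_iff₀ ht2, mul_one] at h1

theorem ker_pow_lip (a b : ℝ) (ha0 : 0 ≤ a) (ha1 : a ≤ 1) (hb0 : 0 ≤ b) (hb1 : b ≤ 1) (n : ℕ) :
    |a ^ n - b ^ n| ≤ n * |a - b| := by
  induction n with
  | zero => simp
  | succ n ih =>
    have e : a ^ (n + 1) - b ^ (n + 1) = a * (a ^ n - b ^ n) + (a - b) * b ^ n := by ring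
    rw [e]
    refine (abs_add_le _ _).trans ?_
    rw [abs_mul, abs_mul, abs_of_nonneg ha0, abs_of_nonneg (pow_nonneg hb0 n)]
    have h1 : a * |a ^ n - b ^ n| ≤ |a ^ n - b ^ n| := mul_le_of_le_one_left (abs_nonneg _) ha1
    have h2 : |a - b| * b ^ n ≤ |a - b| := mul_le_of_le_one_right (abs_nonneg _) (pow_le_one₀ hb0 hb1)
    push_cast
    linarith

theorem ker_Q_lip (t : ℕ) (ht : 1 ≤ t) (z z' : ℝ) :
    |(Q t).eval (Real.cos z) - (Q t).eval (Real.cos z')| ≤ 64 * (t : ℝ) ^ 2 * |Real.cos z - Real.cos z'| := by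
  have h := ker_sc_Q_lip t ht z z' 1 (ker_sc_fj t ht z).2.1 (ker_sc_fj t ht z').2.1
  simpa using h

/-- Lipschitz bound at the natural scale -/
theorem ker_qe_lip (t : ℕ) (ht : 1 ≤ t) (x x' : ℝ) (h0 : 0 ≤ x) (h1 : x ≤ 16) (h0' : 0 ≤ x') (h1' : x' ≤ 16) :
    |qq 64 t x - qq 64 t x'| ≤ (t : ℝ) ^ 2 * |x - x'| := by
  obtain ⟨z, -, -, hz, -⟩ := ker_param 32 (x / 2) (by norm_num) (by linarith) (by linarith)
  obtain ⟨z', -, -, hz', -⟩ := ker_param 32 (x' / 2) (by norm_num) (by linarith) (by linarith)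
  have e1 : qq 64 t x = (Q t).eval (Real.cos z) := by
    rw [ker_qq_eq, hz]; congr 1; ring
  have e2 : qq 64 t x' = (Q t).eval (Real.cos z') := by
    rw [ker_qq_eq, hz']; congr 1; ring
  rw [e1, e2]
  refine (ker_Q_lip t ht z z').trans (le_of_eq ?_)
  rw [hz, hz']
  have e3 : 1 - x / 2 / 32 - (1 - x' / 2 / 32) = -((x - x') / 64) := by ring
  rw [e3, abs_neg, abs_div, abs_of_pos (by norm_num : (0 : ℝ) < 64)]
  ring

theorem ker_qe_one_sub_le (t : ℕ) (ht : 1 ≤ t) (x : ℝ) (h0 : 0 ≤ x) (h1 : x ≤ 16) : 1 - qq 64 t x ≤ (t : ℝ) ^ 2 * x := by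
  have h := ker_qe_lip t ht 0 x le_rfl (by norm_num) h0 h1
  rw [ker_qq_zero 64 t ht, zero_sub, abs_neg, abs_of_nonneg h0] at h
  exact (le_abs_self _).trans h

theorem ker_qe_le_one (t : ℕ) (ht : 1 ≤ t) (x : ℝ) (h0 : 0 ≤ x) (h1 : x ≤ 16) : qq 64 t x ≤ 1 := by
  rw [ker_qq_half]
  norm_num
  exact ker_qq_le_one 32 (by norm_num) t ht (x / 2) (by linarith) (by linarith)

theorem ker_qe_mul_pow_le (t : ℕ) (ht : 1 ≤ t) (x : ℝ) (h0 : 0 ≤ x) (h1 : x ≤ 16) (n : ℕ) (hn : n ≤ 32) :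
    qq 64 t x * ((t : ℝ) ^ 2 * x / 128) ^ n ≤ 1 := by
  have h := ker_qq_mul_pow_le 32 (by norm_num) t ht (x / 2) (by linarith) (by linarith) n hn
  have e : (t : ℝ) ^ 2 * (x / 2) / (2 * 32) = (t : ℝ) ^ 2 * x / 128 := by ring
  have e2 : qq 64 t x = qq 32 t (x / 2) := by
    rw [ker_qq_half]
    norm_num
  rw [e] at h
  rw [e2]
  exact h

theorem ker_qe_double_le (t : ℕ) (ht : 1 ≤ t) (x : ℝ) (h0 : 0 ≤ x) (h1 : x ≤ 16) : qq 64 (2 * t) x ≤ qq 64 t x := by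
  have e2 : ∀ s : ℕ, qq 64 s x = qq 32 s (x / 2) := by
    intro s
    rw [ker_qq_half]
    norm_num
  rw [e2, e2]
  exact ker_qq_double_le 32 (by norm_num) t ht (x / 2) (by linarith) (by linarith)

theorem ker_Hp_eval (t : ℕ) (ht : 1 ≤ t) (x : ℝ) : x * (Hp t).eval x = qq 64 t x - qq 64 (2 * t) x := by
  have h := ker_shellP_eval Fam.entry t (2 * t) ht (by omega) x
  simpa [Hp, Fam.entry] using h

theorem ker_Hp_nonneg (t : ℕ) (ht : 1 ≤ t) (x : ℝ) (h0 : 0 ≤ x) (h8 : x ≤ 8) : 0 ≤ (Hp t).eval x := by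
  exact ker_piece_nonneg ker_entry_adm t ht x h0 h8

theorem ker_Hp_le (t : ℕ) (ht : 1 ≤ t) (x : ℝ) (h0 : 0 ≤ x) (h8 : x ≤ 8) : (Hp t).eval x ≤ (t : ℝ) ^ 2 := by
  have h := ker_piece_le ker_entry_adm t ht x h0 h8
  rwa [one_mul] at h

end Claimed.Agent.R285.Ker
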