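import Claimed.Agent.R285.Ker.Two
import Claimed.Agent.R285.Ker.Ces

/-!
# ROW 285, [B] L8.1 `entry_diag`, leaf L81-ED: conclusion  (architect helper198)

FROM `ker_two_scale`, `ker_ces`, `ker_shell_diag_dl`.
PLAN.
* `ker_geom_sqrt`: `∑_{j<n} 1/√(2^j u) ≤ 4/√u`: `√(2^j u) = (√2)^j √u` (`Real.sqrt_mul`, `Real.sqrt_pow`‑type: or avoid: `1/√(2^j u) ≤ (3/4)^j/√u` because `(3/4)² = 9/16 ≥ 1/2`: `(3/4)^{2j} 2^j ≥ 1`; `Real.le_sqrt`, `Real.sqrt_le_sqrt`);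
  `∑_{j<n} (3/4)^j ≤ 4` (`geom_sum_eq`/`sum_geometric_le`).
* `ker_dl_drift`: `|dl (2^j u) - dl u| ≤ ∑_{i<j} |dl (2^{i+1} u) - dl (2^i u)| ≤ C ∑_{i<j} 1/√(2^i u) ≤ 4C/√u` (induction on `j`; `2^(i+1) * u = 2 * (2^i * u)`).
* `ker_dl_limit`: `L = log 2/(2π)`, `K₁ = 4C/√u`.  For all `n ≥ 1`: `n |dl u - L| ≤ |∑_{j<n} (dl u - dl (2^j u))| + |∑_{j<n} dl (2^j u) - n L| ≤ n K₁ + K`.  So `|dl u - L| ≤ K₁ + K/n` for all `n`; let `n → ∞`
  (`le_of_forall_pos_le_add` + `exists_nat_gt (K/ε)`).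
* `ker_entry_diag`: `D1 = 64`; `shell .. v v = ∑_{j<ℓ} dl (2^j u)` (`ker_shell_diag_dl`), `ℓ log 2/(2π) = ∑_{j<ℓ} L`, `|∑_{j<ℓ} (dl (2^j u) - L)| ≤ ∑_j 4C/√(2^j u) ≤ 16 C/√u`.
-/

set_option autoImplicit false

namespace Claimed.Agent.R285.Ker

open scoped BigOperators
open Polynomial
open Claimed.Agent.R285.RG

theorem ker_inv_sqrt_le (u : ℕ) (hu : 1 ≤ u) (j : ℕ) :
    1 / Real.sqrt ((2 ^ j * u : ℕ) : ℝ) ≤ (3 / 4 : ℝ) ^ j * (1 / Real.sqrt u) := by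
  have hu0 : (0 : ℝ) < (u : ℝ) := by exact_mod_cast hu
  have hs : 0 < Real.sqrt u := Real.sqrt_pos.mpr hu0
  have h1 : (4 / 3 : ℝ) ^ j * Real.sqrt u ≤ Real.sqrt ((2 ^ j * u : ℕ) : ℝ) := by
    apply Real.le_sqrt_of_sq_le
    rw [mul_pow, Real.sq_sqrt hu0.le, ← pow_mul, mul_comm j 2, pow_mul]
    push_cast
    refine mul_le_mul_of_nonneg_right ?_ hu0.le
    exact pow_le_pow_left₀ (by norm_num) (by norm_num) j
  have h2 : 0 < (4 / 3 : ℝ) ^ j * Real.sqrt u := by positivity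
  calc 1 / Real.sqrt ((2 ^ j * u : ℕ) : ℝ) ≤ 1 / ((4 / 3 : ℝ) ^ j * Real.sqrt u) :=
        one_div_le_one_div_of_le h2 h1
    _ = (3 / 4 : ℝ) ^ j * (1 / Real.sqrt u) := by
        rw [one_div, mul_inv, ← inv_pow, one_div]
        norm_num

theorem ker_geom_sqrt (u : ℕ) (hu : 1 ≤ u) (n : ℕ) :
    ∑ j ∈ Finset.range n, 1 / Real.sqrt ((2 ^ j * u : ℕ) : ℝ) ≤ 4 / Real.sqrt u := by
  have hu0 : (0 : ℝ) < (u : ℝ) := by exact_mod_cast hu
  have hs : 0 < Real.sqrt u := Real.sqrt_pos.mpr hu0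
  refine (Finset.sum_le_sum fun j _ => ker_inv_sqrt_le u hu j).trans ?_
  rw [← Finset.sum_mul]
  have h1 : ∑ j ∈ Finset.range n, (3 / 4 : ℝ) ^ j ≤ 4 := by
    rw [geom_sum_eq (by norm_num)]
    have h2 : (0 : ℝ) ≤ (3 / 4 : ℝ) ^ n := by positivity
    rw [div_le_iff_of_neg (by norm_num)]
    linarith
  calc (∑ j ∈ Finset.range n, (3 / 4 : ℝ) ^ j) * (1 / Real.sqrt u) ≤ 4 * (1 / Real.sqrt u) :=
        mul_le_mul_of_nonneg_right h1 (by positivity)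
    _ = 4 / Real.sqrt u := by ring

theorem ker_dl_drift : ∃ C : ℝ, 0 ≤ C ∧ ∀ u : ℕ, 1 ≤ u → ∀ j : ℕ, |dl (2 ^ j * u) - dl u| ≤ C / Real.sqrt u := by
  obtain ⟨C, hC, h⟩ := ker_two_scale
  refine ⟨C * 4, by positivity, ?_⟩
  intro u hu j
  have key : ∀ j : ℕ, |dl (2 ^ j * u) - dl u| ≤ C * ∑ i ∈ Finset.range j, 1 / Real.sqrt ((2 ^ i * u : ℕ) : ℝ) := by
    intro j
    induction j with
    | zero => simp
    | succ j ih =>
      rw [Finset.sum_range_succ, mul_add]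
      have h1 : 1 ≤ 2 ^ j * u := Nat.mul_pos (by positivity) hu
      have h2 := h (2 ^ j * u) h1
      have h3 : 2 ^ (j + 1) * u = 2 * (2 ^ j * u) := by ring
      rw [h3]
      have h4 : |dl (2 * (2 ^ j * u)) - dl u| ≤ |dl (2 ^ j * u) - dl (2 * (2 ^ j * u))| + |dl (2 ^ j * u) - dl u| := by
        have : dl (2 * (2 ^ j * u)) - dl u = -(dl (2 ^ j * u) - dl (2 * (2 ^ j * u))) + (dl (2 ^ j * u) - dl u) := by ring
        rw [this]
        refine (abs_add_le _ _).trans ?_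
        rw [abs_neg]
      have h5 : C / Real.sqrt ((2 ^ j * u : ℕ) : ℝ) = C * (1 / Real.sqrt ((2 ^ j * u : ℕ) : ℝ)) := by ring
      rw [h5] at h2
      linarith
  refine (key j).trans ?_
  have := mul_le_mul_of_nonneg_left (ker_geom_sqrt u hu j) hC
  refine this.trans (le_of_eq ?_)
  ring

theorem ker_dl_limit : ∃ C : ℝ, 0 ≤ C ∧ ∀ u : ℕ, 1 ≤ u → |dl u - Real.log 2 / (2 * Real.pi)| ≤ C / Real.sqrt u := by
  obtain ⟨C, hC, h⟩ := ker_dl_drift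
  refine ⟨C, hC, ?_⟩
  intro u hu
  obtain ⟨K, hK⟩ := ker_ces u hu
  set L : ℝ := Real.log 2 / (2 * Real.pi) with hL
  set K1 : ℝ := C / Real.sqrt u with hK1
  have hK0 : 0 ≤ K := le_trans (abs_nonneg _) (hK 0)
  have hn : ∀ n : ℕ, (n : ℝ) * |dl u - L| ≤ n * K1 + K := by
    intro n
    have h1 : (n : ℝ) * (dl u - L) = ∑ j ∈ Finset.range n, (dl u - dl (2 ^ j * u))
        + (∑ j ∈ Finset.range n, dl (2 ^ j * u) - n * L) := by
      rw [Finset.sum_sub_distrib, Finset.sum_const, Finset.card_range, nsmul_eq_mul]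
      ring
    have h2 : |∑ j ∈ Finset.range n, (dl u - dl (2 ^ j * u))| ≤ n * K1 := by
      refine (Finset.abs_sum_le_sum_abs _ _).trans ?_
      have : ∀ j ∈ Finset.range n, |dl u - dl (2 ^ j * u)| ≤ K1 := by
        intro j _
        rw [abs_sub_comm]
        exact h u hu j
      refine (Finset.sum_le_sum this).trans (le_of_eq ?_)
      rw [Finset.sum_const, Finset.card_range, nsmul_eq_mul]
    have h3 : (n : ℝ) * |dl u - L| = |(n : ℝ) * (dl u - L)| := by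
      rw [abs_mul, abs_of_nonneg (Nat.cast_nonneg n : (0 : ℝ) ≤ (n : ℝ))]
    rw [h3, h1]
    refine (abs_add_le _ _).trans ?_
    linarith [hK n]
  apply le_of_forall_pos_le_add
  intro ε hε
  obtain ⟨n, hn'⟩ := exists_nat_gt (K / ε)
  have hnpos : (0 : ℝ) < n := lt_of_le_of_lt (by positivity) hn'
  have h4 := hn n
  have h5 : K < n * ε := by
    rwa [div_lt_iff₀ hε] at hn'
  have h6 : (n : ℝ) * |dl u - L| ≤ n * (K1 + ε) := by nlinarith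
  exact le_of_mul_le_mul_left h6 hnpos

/-- **[B] L8.1, entry family, diagonal** (= `B8.entry_diag`, with constants independent of `ℓ`) -/
theorem ker_entry_diag : ∃ C : ℝ, ∀ (ℓ : ℕ) (G : Geom), G.bc = BC.per → ∀ u : ℕ, 1 ≤ u → 64 * (2 ^ ℓ * u) < G.M →
    ∀ v : G.V, |shell G Fam.entry u (2 ^ ℓ * u) v v - ℓ * Real.log 2 / (2 * Real.pi)| ≤ C / Real.sqrt u := by
  obtain ⟨C, hC, h⟩ := ker_dl_limit
  refine ⟨C * 4, ?_⟩
  intro ℓ G hG u hu hM v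
  rw [ker_shell_diag_dl G hG u ℓ hM v]
  have h1 : ∑ j ∈ Finset.range ℓ, dl (2 ^ j * u) - ℓ * Real.log 2 / (2 * Real.pi)
      = ∑ j ∈ Finset.range ℓ, (dl (2 ^ j * u) - Real.log 2 / (2 * Real.pi)) := by
    rw [Finset.sum_sub_distrib, Finset.sum_const, Finset.card_range, nsmul_eq_mul]
    ring
  rw [h1]
  refine (Finset.abs_sum_le_sum_abs _ _).trans ?_
  have h2 : ∀ j ∈ Finset.range ℓ, |dl (2 ^ j * u) - Real.log 2 / (2 * Real.pi)|
      ≤ C * (1 / Real.sqrt ((2 ^ j * u : ℕ) : ℝ)) := by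
    intro j _
    have h3 : 1 ≤ 2 ^ j * u := Nat.mul_pos (by positivity) hu
    refine (h _ h3).trans (le_of_eq ?_)
    ring
  refine (Finset.sum_le_sum h2).trans ?_
  rw [← Finset.mul_sum]
  have := mul_le_mul_of_nonneg_left (ker_geom_sqrt u hu ℓ) hC
  refine this.trans (le_of_eq ?_)
  ring

end Claimed.Agent.R285.Ker
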