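import Claimed.Agent.R285.Ker.Dg

/-!
# ROW 285, [B] L8.1 `entry_diag`, leaf L81-EMB: centred frequencies of the torus `N` inside the torus `2N`  (architect helper198)

`emb N j = j` if `2j < N`, `= j + N` otherwise (the centred representative of `j` mod `N`, read mod `2N`).   Mathlib + `lam1`, `lam` only.
PLAN.  `lam1 K i = 4 sin² (π i / K)`.  Put `φ = π j / (2N)`.
* `ker_emb_lam1`: `lam1 N j = 4 sin² (2φ) = 16 sin² φ cos² φ` (`Real.sin_two_mul`).  If `2j < N`: `a = 4 sin² φ`.  Otherwise `a = 4 sin² (φ + π/2) = 4 cos² φ` (`Real.sin_add_pi_div_two`; `π (j + N)/(2N) = φ + π/2`, `field_simp`).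
  In both cases `a (4 - a) = 16 sin² φ cos² φ` (`Real.sin_sq_add_cos_sq`).
* `ker_emb_le`: `2j < N`: `0 ≤ φ ≤ π/4`, `sin φ ≤ sin (π/4) = √2/2` (`Real.sin_le_sin_of_le_of_le_pi_div_two`, `Real.sin_pi_div_four`), or `cos 2φ ≥ 0` and `2 sin² φ = 1 - cos 2φ`  (easier: `a = 2 - 2 cos (2φ)`,
  `cos (2φ) ≥ 0` for `2φ ∈ [0, π/2]`: `Real.cos_nonneg_of_neg_pi_div_two_le_of_le`).  Otherwise `a = 4 cos² φ = 2 + 2 cos (2φ)`, `2φ ∈ [π/2, π]`: `cos ≤ 0` (`Real.cos_nonpos_of_pi_div_two_le_of_le`).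
* `ker_emb_compl`: `i < N`, not `2i < N`: `lam1 (2N) i = 2 - 2 cos (π i/N)`, `π i / N ∈ [π/2, π]`.  `i ≥ N`, `j = i - N`, `2j < N`: `lam1 = 2 + 2 cos (π j/N)`, `π j/N ∈ [0, π/2]`.
* `ker_emb_sum`: `S = Finset.univ.image (fun k : Fin N × Fin N => (emb N k.1, emb N k.2))`; `∑_{univ} f = ∑_S f + ∑_{Sᶜ} f` (`Finset.sum_add_sum_compl`), `∑_S f = ∑_k f (emb ..)` (`Finset.sum_image`, injectivity);
  on `Sᶜ` one coordinate is outside the range of `emb`, so `lam (2N) k ≥ 2` (`ker_lam1_nonneg`); `card Sᶜ ≤ (2N)²` (`Finset.card_le_univ`, `Fintype.card_prod`, `Fintype.card_fin`), `Finset.abs_sum_le_sum_abs`.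
-/

set_option autoImplicit false

namespace Claimed.Agent.R285.Ker

open scoped BigOperators
open Claimed.Agent.R285.RG

/-- the centred representative of `j` mod `N`, read mod `2N` -/
def emb (N : ℕ) (j : Fin N) : Fin (2 * N) :=
  if 2 * (j : ℕ) < N then ⟨(j : ℕ), by have := j.2; omega⟩ else ⟨(j : ℕ) + N, by have := j.2; omega⟩

theorem ker_emb_val (N : ℕ) (j : Fin N) :
    ((emb N j : Fin (2 * N)) : ℕ) = if 2 * (j : ℕ) < N then (j : ℕ) else (j : ℕ) + N := by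
  unfold emb
  split_ifs <;> rfl

theorem ker_lam1_cos (K : ℕ) (i : Fin K) : lam1 K i = 2 - 2 * Real.cos (2 * (Real.pi * ((i : ℕ) : ℝ) / (K : ℝ))) := by
  unfold lam1
  rw [Real.cos_two_mul']
  have := Real.sin_sq_add_cos_sq (Real.pi * ((i : ℕ) : ℝ) / (K : ℝ))
  linarith

/-- `lam1 (2N) i = 2 - 2 cos (π i / N)` -/
theorem ker_lam1_two (N : ℕ) (i : Fin (2 * N)) : lam1 (2 * N) i = 2 - 2 * Real.cos (Real.pi * ((i : ℕ) : ℝ) / (N : ℝ)) := by
  rw [ker_lam1_cos]
  congr 3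
  have hN : 0 < N := by have := i.2; omega
  have hNr : (N : ℝ) ≠ 0 := by exact_mod_cast hN.ne'
  push_cast
  field_simp

theorem ker_emb_cos (N : ℕ) (j : Fin N) :
    lam1 (2 * N) (emb N j) = if 2 * (j : ℕ) < N then 2 - 2 * Real.cos (Real.pi * ((j : ℕ) : ℝ) / (N : ℝ))
      else 2 + 2 * Real.cos (Real.pi * ((j : ℕ) : ℝ) / (N : ℝ)) := by
  have hN : 0 < N := Fin.pos j
  have hNr : (N : ℝ) ≠ 0 := by exact_mod_cast hN.ne'
  rw [ker_lam1_two, ker_emb_val]
  split_ifs with h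
  · rfl
  · have e : Real.pi * (((j : ℕ) + N : ℕ) : ℝ) / (N : ℝ) = Real.pi * ((j : ℕ) : ℝ) / (N : ℝ) + Real.pi := by
      push_cast
      field_simp
    rw [e, Real.cos_add_pi]
    ring

theorem ker_emb_inj (N : ℕ) : Function.Injective (emb N) := by
  intro j j' h
  have h1 := congrArg (fun i : Fin (2 * N) => (i : ℕ)) h
  simp only [ker_emb_val] at h1
  apply Fin.ext
  have := j.2
  have := j'.2
  split_ifs at h1 <;> omega

theorem ker_emb_zero (N : ℕ) (j : Fin N) (hj : (j : ℕ) = 0) : ((emb N j : Fin (2 * N)) : ℕ) = 0 := by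
  rw [ker_emb_val, hj]
  have := j.2
  rw [if_pos (by omega)]

theorem ker_emb_lam1 (N : ℕ) (j : Fin N) :
    lam1 N j = lam1 (2 * N) (emb N j) * (4 - lam1 (2 * N) (emb N j)) := by
  rw [ker_emb_cos, ker_lam1_cos, Real.cos_two_mul]
  split_ifs <;> ring

theorem ker_emb_le (N : ℕ) (j : Fin N) : lam1 (2 * N) (emb N j) ≤ 2 := by
  have hN : 0 < N := Fin.pos j
  have hNr : (0 : ℝ) < (N : ℝ) := by exact_mod_cast hN
  have hj := j.2
  have hpi := Real.pi_pos
  rw [ker_emb_cos]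
  split_ifs with h
  · have h1 : 0 ≤ Real.cos (Real.pi * ((j : ℕ) : ℝ) / (N : ℝ)) := by
      apply Real.cos_nonneg_of_neg_pi_div_two_le_of_le
      · have : 0 ≤ Real.pi * ((j : ℕ) : ℝ) / (N : ℝ) := by positivity
        linarith
      · rw [div_le_div_iff₀ hNr (by norm_num)]
        have : 2 * ((j : ℕ) : ℝ) ≤ (N : ℝ) := by exact_mod_cast h.le
        nlinarith
    linarith
  · have h1 : Real.cos (Real.pi * ((j : ℕ) : ℝ) / (N : ℝ)) ≤ 0 := by
      apply Real.cos_nonpos_of_pi_div_two_le_of_le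
      · rw [div_le_div_iff₀ (by norm_num) hNr]
        have : (N : ℝ) ≤ 2 * ((j : ℕ) : ℝ) := by exact_mod_cast (not_lt.1 h)
        nlinarith
      · have : Real.pi * ((j : ℕ) : ℝ) / (N : ℝ) ≤ Real.pi := by
          rw [div_le_iff₀ hNr]
          have : ((j : ℕ) : ℝ) ≤ (N : ℝ) := by exact_mod_cast hj.le
          nlinarith
        linarith
    linarith

theorem ker_emb_compl (N : ℕ) (i : Fin (2 * N)) (h : ∀ j : Fin N, emb N j ≠ i) : 2 ≤ lam1 (2 * N) i := by
  have hi := i.2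
  have hN : 0 < N := by omega
  have hNr : (0 : ℝ) < (N : ℝ) := by exact_mod_cast hN
  have hpi := Real.pi_pos
  rw [ker_lam1_two]
  rcases Nat.lt_or_ge (i : ℕ) N with h1 | h1
  · have h2 : ¬ 2 * (i : ℕ) < N := by
      intro hc
      apply h ⟨(i : ℕ), h1⟩
      apply Fin.ext
      rw [ker_emb_val]
      simp only
      rw [if_pos hc]
    have h3 : Real.cos (Real.pi * ((i : ℕ) : ℝ) / (N : ℝ)) ≤ 0 := by
      apply Real.cos_nonpos_of_pi_div_two_le_of_le
      · rw [div_le_div_iff₀ (by norm_num) hNr]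
        have : (N : ℝ) ≤ 2 * ((i : ℕ) : ℝ) := by exact_mod_cast (not_lt.1 h2)
        nlinarith
      · have : Real.pi * ((i : ℕ) : ℝ) / (N : ℝ) ≤ Real.pi := by
          rw [div_le_iff₀ hNr]
          have : ((i : ℕ) : ℝ) ≤ (N : ℝ) := by exact_mod_cast h1.le
          nlinarith
        linarith
    linarith
  · have h2 : 2 * ((i : ℕ) - N) < N := by
      by_contra hc
      apply h ⟨(i : ℕ) - N, by omega⟩
      apply Fin.ext
      rw [ker_emb_val]
      simp only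
      rw [if_neg hc]
      omega
    obtain ⟨j, hj⟩ : ∃ j : ℕ, (i : ℕ) = j + N := ⟨(i : ℕ) - N, by omega⟩
    have h2' : 2 * j < N := by omega
    have e : Real.pi * ((i : ℕ) : ℝ) / (N : ℝ) = Real.pi * (j : ℝ) / (N : ℝ) + Real.pi := by
      rw [hj]
      push_cast
      field_simp
    rw [e, Real.cos_add_pi]
    have h3 : 0 ≤ Real.cos (Real.pi * (j : ℝ) / (N : ℝ)) := by
      apply Real.cos_nonneg_of_neg_pi_div_two_le_of_le
      · have : 0 ≤ Real.pi * (j : ℝ) / (N : ℝ) := by positivity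
        linarith
      · rw [div_le_div_iff₀ hNr (by norm_num)]
        have : 2 * (j : ℝ) ≤ (N : ℝ) := by exact_mod_cast h2'.le
        nlinarith
    linarith

theorem ker_emb_sum (N : ℕ) (f : Fin (2 * N) × Fin (2 * N) → ℝ) (B : ℝ) (hB : 0 ≤ B)
    (hf : ∀ k, 2 ≤ lam (2 * N) k → |f k| ≤ B) :
    |∑ k, f k - ∑ k : Fin N × Fin N, f (emb N k.1, emb N k.2)| ≤ ((2 * N : ℕ) : ℝ) ^ 2 * B := by
  classical
  have hinj : Function.Injective (fun k : Fin N × Fin N => (emb N k.1, emb N k.2)) := by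
    intro k k' hk
    simp only [Prod.mk.injEq] at hk
    exact Prod.ext (ker_emb_inj N hk.1) (ker_emb_inj N hk.2)
  have hsplit : ∑ k, f k = ∑ k : Fin N × Fin N, f (emb N k.1, emb N k.2)
      + ∑ k ∈ (Finset.univ.image (fun k : Fin N × Fin N => (emb N k.1, emb N k.2)))ᶜ, f k := by
    rw [← Finset.sum_image (f := f) (fun x _ y _ hxy => hinj hxy), Finset.sum_add_sum_compl]
  rw [hsplit, add_sub_cancel_left]
  refine (Finset.abs_sum_le_sum_abs _ _).trans ?_
  have h1 : ∀ k ∈ (Finset.univ.image (fun k : Fin N × Fin N => (emb N k.1, emb N k.2)))ᶜ, |f k| ≤ B := by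
    intro k hk
    apply hf
    rw [Finset.mem_compl, Finset.mem_image] at hk
    have c1 := ker_lam1_nonneg (2 * N) k.1
    have c2 := ker_lam1_nonneg (2 * N) k.2
    have : (∀ j : Fin N, emb N j ≠ k.1) ∨ (∀ j : Fin N, emb N j ≠ k.2) := by
      by_contra hc
      push Not at hc
      obtain ⟨⟨j1, hj1⟩, ⟨j2, hj2⟩⟩ := hc
      exact hk ⟨(j1, j2), Finset.mem_univ _, Prod.ext hj1 hj2⟩
    unfold lam
    rcases this with h2 | h2
    · have := ker_emb_compl N k.1 h2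
      linarith
    · have := ker_emb_compl N k.2 h2
      linarith
  refine (Finset.sum_le_sum h1).trans ?_
  rw [Finset.sum_const, nsmul_eq_mul]
  refine mul_le_mul_of_nonneg_right ?_ hB
  have h2 : ((Finset.univ.image (fun k : Fin N × Fin N => (emb N k.1, emb N k.2)))ᶜ).card ≤ (2 * N) ^ 2 := by
    refine (Finset.card_le_univ _).trans (le_of_eq ?_)
    simp [Fintype.card_prod, sq]
  exact_mod_cast h2

end Claimed.Agent.R285.Ker
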