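import Claimed.Agent.R285.Ker.Defs

/-!
# ROW 285, [B] L4.1, leaf L41-FEJ: the Fejér identity, `Q_spec`, `Q_double`  (cut by helper198)

PLAN (Mathlib only).  `Fej t = C t + 2 * ∑_{k ∈ Ico 1 t} C (t - k) * T ℝ k`, `Polynomial.Chebyshev.T_real_cos : (T ℝ n).eval (cos θ) = cos (n θ)` (`n : ℤ`; check the exact form with `#check`).
* `ker_Fej_eval`: `simp [Fej, eval_finset_sum, ..]`.
* `ker_dirichlet`: `(1 + 2 ∑_{k ∈ Ico 1 (t+1)} cos (k z)) sin (z/2) = sin ((t + 1/2) z)`, induction on `t` (`Finset.sum_Ico_succ_top`), `2 cos a sin b = sin (a + b) - sin (a - b)` (`Real.sin_add`, `Real.sin_sub`).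
* `ker_Fej_spec`: induction on `t`.  `Fej (t+1) (cos z) - Fej t (cos z) = 1 + 2 ∑_{k ∈ Ico 1 (t+1)} cos (k z)`; `sin² ((t+1) z/2) - sin² (t z/2) = sin ((t + 1/2) z) sin (z/2)`
  (`Real.sin_sq_sub..`/ product formulas: `sin² A - sin² B = sin (A + B) sin (A - B)`).
* `ker_Fej_one`: `cos 0 = 1`: `t + 2 ∑_{k=1}^{t-1} (t - k) = t²` (induction; `Finset.sum_Ico_succ_top`), or from `ker_Fej_eval` at `z = 0`.
* `ker_Q_one`: `((t²)⁻¹ t²) ^ pp = 1`.
* `ker_Q_spec`: `Q t (cos z) = ((t²)⁻¹ Fej t (cos z)) ^ 32`, `Fej t (cos z) = (sin (t z/2) / sin (z/2))²` by `ker_Fej_spec`, `field_simp`, `pow_mul`.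
* `ker_Q_double`: if `sin (z/2) ≠ 0`: `sin (2t z/2) = 2 sin (t z/2) cos (t z/2)` (`Real.sin_two_mul`) in `ker_Q_spec`.  If `sin (z/2) = 0`: `cos z = 1 - 2 sin² (z/2) = 1`, both `Q` are `1`;
  `sin (t z / 2) = 0` (`ker_Fej_spec` with `sin (z/2) = 0`), so `cos² (t z/2) = 1`, `cos ^ 64 = (cos²) ^ 32 = 1`.
-/

set_option autoImplicit false

namespace Claimed.Agent.R285.Ker

open scoped BigOperators
open Polynomial
open Claimed.Agent.R285.RG

theorem ker_Fej_eval (t : ℕ) (z : ℝ) :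
    (Fej t).eval (Real.cos z) = (t : ℝ) + 2 * ∑ k ∈ Finset.Ico 1 t, ((t : ℝ) - k) * Real.cos (k * z) := by
  simp only [Fej, eval_add, eval_C, eval_mul, eval_ofNat, eval_finsetSum, Chebyshev.T_real_cos,
    Int.cast_natCast]

theorem ker_dirichlet (t : ℕ) (z : ℝ) :
    (1 + 2 * ∑ k ∈ Finset.Ico 1 (t + 1), Real.cos (k * z)) * Real.sin (z / 2) = Real.sin (((t : ℝ) + 1 / 2) * z) := by
  induction t with
  | zero =>
    simp only [zero_add, Finset.Ico_self, Finset.sum_empty, mul_zero, add_zero, one_mul,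
      Nat.cast_zero]
    congr 1
    ring
  | succ t ih =>
    rw [Finset.sum_Ico_succ_top (by omega)]
    have e1 : (((t + 1 : ℕ) : ℝ) + 1 / 2) * z = ((t + 1 : ℕ) : ℝ) * z + z / 2 := by ring
    have e2 : ((t : ℝ) + 1 / 2) * z = ((t + 1 : ℕ) : ℝ) * z - z / 2 := by push_cast; ring
    rw [e2, Real.sin_sub] at ih
    rw [e1, Real.sin_add]
    linear_combination ih

/-- the increment of the Fejér sums. -/
theorem ker_fej_incr (c : ℕ → ℝ) (t : ℕ) :
    ((t + 1 : ℕ) : ℝ) + 2 * ∑ k ∈ Finset.Ico 1 (t + 1), (((t + 1 : ℕ) : ℝ) - k) * c k =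
      ((t : ℝ) + 2 * ∑ k ∈ Finset.Ico 1 t, ((t : ℝ) - k) * c k) +
        (1 + 2 * ∑ k ∈ Finset.Ico 1 (t + 1), c k) := by
  have h1 : ∑ k ∈ Finset.Ico 1 (t + 1), (((t + 1 : ℕ) : ℝ) - k) * c k =
      ∑ k ∈ Finset.Ico 1 (t + 1), ((t : ℝ) - k) * c k + ∑ k ∈ Finset.Ico 1 (t + 1), c k := by
    rw [← Finset.sum_add_distrib]
    refine Finset.sum_congr rfl fun k _ => ?_
    push_cast
    ring
  have h2 : ∑ k ∈ Finset.Ico 1 (t + 1), ((t : ℝ) - k) * c k =
      ∑ k ∈ Finset.Ico 1 t, ((t : ℝ) - k) * c k := by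
    rcases Nat.eq_zero_or_pos t with rfl | ht
    · simp
    · rw [Finset.sum_Ico_succ_top ht]
      simp
  rw [h1, h2]
  push_cast
  ring

theorem ker_Fej_spec (t : ℕ) (z : ℝ) :
    (Fej t).eval (Real.cos z) * Real.sin (z / 2) ^ 2 = Real.sin (t * z / 2) ^ 2 := by
  induction t with
  | zero => simp [ker_Fej_eval]
  | succ t ih =>
    rw [ker_Fej_eval] at ih ⊢
    rw [ker_fej_incr (fun k => Real.cos (k * z)) t]
    have hd := ker_dirichlet t z
    have e1 : ((t : ℝ) + 1 / 2) * z = ((t + 1 : ℕ) : ℝ) * z / 2 + (t : ℝ) * z / 2 := by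
      push_cast; ring
    have e2 : z / 2 = ((t + 1 : ℕ) : ℝ) * z / 2 - (t : ℝ) * z / 2 := by push_cast; ring
    have h3 : Real.sin (((t : ℝ) + 1 / 2) * z) * Real.sin (z / 2) =
        Real.sin (((t + 1 : ℕ) : ℝ) * z / 2) ^ 2 - Real.sin ((t : ℝ) * z / 2) ^ 2 := by
      rw [e1]
      conv_lhs => rw [e2]
      rw [Real.sin_add, Real.sin_sub]
      have c1 := Real.sin_sq_add_cos_sq (((t + 1 : ℕ) : ℝ) * z / 2)
      have c2 := Real.sin_sq_add_cos_sq ((t : ℝ) * z / 2)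
      generalize Real.sin (((t + 1 : ℕ) : ℝ) * z / 2) = a at *
      generalize Real.cos (((t + 1 : ℕ) : ℝ) * z / 2) = b at *
      generalize Real.sin ((t : ℝ) * z / 2) = c at *
      generalize Real.cos ((t : ℝ) * z / 2) = e at *
      have hb : b ^ 2 = 1 - a ^ 2 := by linarith
      have he : e ^ 2 = 1 - c ^ 2 := by linarith
      calc (a * e + b * c) * (a * e - b * c) = a ^ 2 * e ^ 2 - b ^ 2 * c ^ 2 := by ring
        _ = a ^ 2 - c ^ 2 := by rw [hb, he]; ring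
    linear_combination ih + Real.sin (z / 2) * hd + h3

theorem ker_Fej_one (t : ℕ) : (Fej t).eval 1 = (t : ℝ) ^ 2 := by
  have h := ker_Fej_eval t 0
  rw [Real.cos_zero] at h
  rw [h]
  clear h
  simp only [mul_zero, Real.cos_zero]
  induction t with
  | zero => simp
  | succ t ih =>
    rw [ker_fej_incr (fun _ => 1) t, ih]
    simp
    ring

theorem ker_Q_one (t : ℕ) (ht : 1 ≤ t) : (Q t).eval 1 = 1 := by
  have ht0 : (t : ℝ) ≠ 0 := by positivity
  simp only [Q, eval_pow, eval_mul, eval_C, ker_Fej_one]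
  rw [inv_mul_cancel₀ (pow_ne_zero 2 ht0), one_pow]

theorem ker_Q_spec (t : ℕ) (ht : 1 ≤ t) (z : ℝ) (hz : Real.sin (z / 2) ≠ 0) :
    (Q t).eval (Real.cos z) = (Real.sin (t * z / 2) / (t * Real.sin (z / 2))) ^ (2 * pp) := by
  have ht0 : (t : ℝ) ≠ 0 := by positivity
  simp only [Q, eval_pow, eval_mul, eval_C]
  rw [pow_mul]
  congr 1
  have h := ker_Fej_spec t z
  rw [div_pow, ← h, mul_pow]
  field_simp

theorem ker_Q_double (t : ℕ) (ht : 1 ≤ t) (z : ℝ) :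
    (Q (2 * t)).eval (Real.cos z) = (Q t).eval (Real.cos z) * Real.cos (t * z / 2) ^ (2 * pp) := by
  have ht0 : (t : ℝ) ≠ 0 := by positivity
  by_cases hz : Real.sin (z / 2) = 0
  · have hc : Real.cos z = 1 := by
      have : z = 2 * (z / 2) := by ring
      rw [this, Real.cos_two_mul']
      have c1 := Real.sin_sq_add_cos_sq (z / 2)
      rw [hz] at c1 ⊢
      nlinarith
    have hs : Real.sin (t * z / 2) ^ 2 = 0 := by
      rw [← ker_Fej_spec t z, hz]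
      simp
    have hcc : Real.cos (t * z / 2) ^ 2 = 1 := by
      have c1 := Real.sin_sq_add_cos_sq (t * z / 2)
      linarith
    rw [hc, ker_Q_one _ (by omega), ker_Q_one _ ht, pow_mul, hcc, one_pow, one_mul]
  · rw [ker_Q_spec _ (by omega) z hz, ker_Q_spec _ ht z hz, ← mul_pow]
    congr 1
    have e : ((2 * t : ℕ) : ℝ) * z / 2 = 2 * ((t : ℝ) * z / 2) := by push_cast; ring
    rw [e, Real.sin_two_mul]
    push_cast
    field_simp

end Claimed.Agent.R285.Ker
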