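import Claimed.Agent.R285.Ker.Fej

/-!
# ROW 285, [B] L4.1, leaf L41-QB: bounds of `Q_t (cos z)`  (cut by helper198)

FROM `Ker/Fej.lean` (`ker_Q_spec`, `ker_Q_double`, `ker_Q_one`, `ker_Fej_spec`).   `pp = 32` (`unfold pp`/`norm_num [pp]`), `θ = t z / 2`.
PLAN.
* `ker_Q_nonneg`: `Q t = (..) ^ 32`, `Even.pow_nonneg`.
* `ker_sin_nat_mul_le`: induction, `sin ((t+1) θ) = sin (tθ) cos θ + cos (tθ) sin θ`, `|cos| ≤ 1`.
* `ker_Q_le_one`: `sin (z/2) = 0`: `cos z = 1` (`Real.cos_eq_one_sub..`: `cos z = 1 - 2 sin² (z/2)`, from `Real.cos_sq_half`/`Real.cos_two_mul`), `ker_Q_one`.  Otherwise `ker_Q_spec`, `|ratio| ≤ 1`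
  (`ker_sin_nat_mul_le` with `θ = z/2`, `t * z / 2 = t * (z/2)`), `pow_le_one₀` on `ratio² `.
* `ker_Q_decay`: `sin (z/2) = 0`: the second factor is `0`.  Otherwise `Q · (t² sin²)^{32} = sin (θ)^{64} ≤ 1`.
* `ker_D_nonneg`, `ker_D_upper`: `Q_t - Q_{2t} = Q_t (1 - (cos² θ)^{32})`, `cos² θ = 1 - σ`, `σ = sin² θ ∈ [0,1]`; `0 ≤ (1-σ)^{32} ≤ 1`; Bernoulli `1 - 32 σ ≤ (1 - σ)^{32}` (`one_add_mul_le_pow`, `-2 ≤ -σ`);
  `0 ≤ Q_t ≤ 1`; `σ ≤ t² sin² (z/2)` by `ker_sin_nat_mul_le`.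
* `ker_D_lower`: `y = z/2 ∈ [0, π/2]`: `(2/π) y ≤ sin y ≤ y` (`Real.mul_le_sin`, `Real.sin_le`).  `t sin y ≤ 1` gives `θ = t y ≤ π/2`, so `sin θ ≥ (2/π) θ ≥ (2/π) t sin y ≥ 0`.  If `sin y = 0` use `ker_D_nonneg`.
  Otherwise ratio `≥ 2/π`, `Q_t ≥ (2/π)^{64}`, `1 - (cos² θ)^{32} ≥ 1 - cos² θ = sin² θ ≥ (2/π)² t² sin² y`.
-/

set_option autoImplicit false

namespace Claimed.Agent.R285.Ker

open scoped BigOperators
open Polynomial
open Claimed.Agent.R285.RG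

theorem ker_Q_nonneg (t : ℕ) (y : ℝ) : 0 ≤ (Q t).eval y := by
  simp only [Q, eval_pow]
  exact Even.pow_nonneg ⟨16, rfl⟩ _

theorem ker_sin_nat_mul_le (t : ℕ) (θ : ℝ) : |Real.sin (t * θ)| ≤ t * |Real.sin θ| := by
  induction t with
  | zero => simp
  | succ t ih =>
    have e : ((t + 1 : ℕ) : ℝ) * θ = (t : ℝ) * θ + θ := by push_cast; ring
    rw [e, Real.sin_add]
    have h1 := abs_add_le (Real.sin (t * θ) * Real.cos θ) (Real.cos (t * θ) * Real.sin θ)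
    rw [abs_mul, abs_mul] at h1
    have h2 : |Real.sin (t * θ)| * |Real.cos θ| ≤ |Real.sin (t * θ)| :=
      mul_le_of_le_one_right (abs_nonneg _) (Real.abs_cos_le_one _)
    have h3 : |Real.cos (t * θ)| * |Real.sin θ| ≤ |Real.sin θ| :=
      mul_le_of_le_one_left (abs_nonneg _) (Real.abs_cos_le_one _)
    push_cast
    linarith

theorem ker_cos_of_sin_half {z : ℝ} (hz : Real.sin (z / 2) = 0) : Real.cos z = 1 := by
  have : z = 2 * (z / 2) := by ring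
  rw [this, Real.cos_two_mul']
  have c1 := Real.sin_sq_add_cos_sq (z / 2)
  rw [hz] at c1 ⊢
  nlinarith

/-- `sin² (t z / 2) ≤ t² sin² (z / 2)`. -/
theorem ker_sin_sq_le (t : ℕ) (z : ℝ) :
    Real.sin (t * z / 2) ^ 2 ≤ (t : ℝ) ^ 2 * Real.sin (z / 2) ^ 2 := by
  have h := ker_sin_nat_mul_le t (z / 2)
  have e : (t : ℝ) * (z / 2) = t * z / 2 := by ring
  rw [e] at h
  have h2 := pow_le_pow_left₀ (abs_nonneg _) h 2
  rw [sq_abs, mul_pow, sq_abs] at h2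
  exact h2

/-- `Q_t (cos z) (t² sin² (z/2))^{32} = (sin² (t z / 2))^{32}`. -/
theorem ker_Q_mul (t : ℕ) (ht : 1 ≤ t) (z : ℝ) :
    (Q t).eval (Real.cos z) * ((t : ℝ) ^ 2 * Real.sin (z / 2) ^ 2) ^ pp =
      (Real.sin (t * z / 2) ^ 2) ^ pp := by
  have ht0 : (t : ℝ) ≠ 0 := by positivity
  simp only [Q, eval_pow, eval_mul, eval_C]
  rw [← mul_pow, ← ker_Fej_spec t z]
  congr 1
  field_simp

theorem ker_sin_sq_pow_le (x : ℝ) : (Real.sin x ^ 2) ^ pp ≤ 1 :=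
  pow_le_one₀ (sq_nonneg _) (Real.sin_sq_le_one x)

theorem ker_Q_le_one (t : ℕ) (ht : 1 ≤ t) (z : ℝ) : (Q t).eval (Real.cos z) ≤ 1 := by
  have ht0 : (0 : ℝ) < t := by positivity
  by_cases hz : Real.sin (z / 2) = 0
  · rw [ker_cos_of_sin_half hz, ker_Q_one t ht]
  · have hpos : 0 < (t : ℝ) ^ 2 * Real.sin (z / 2) ^ 2 := by positivity
    have h1 := ker_Q_mul t ht z
    have h2 : (Real.sin (t * z / 2) ^ 2) ^ pp ≤ ((t : ℝ) ^ 2 * Real.sin (z / 2) ^ 2) ^ pp :=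
      pow_le_pow_left₀ (sq_nonneg _) (ker_sin_sq_le t z) _
    have h3 : 0 < ((t : ℝ) ^ 2 * Real.sin (z / 2) ^ 2) ^ pp := pow_pos hpos _
    rw [← h1] at h2
    exact le_of_mul_le_mul_right (by linarith) h3

theorem ker_Q_decay (t : ℕ) (ht : 1 ≤ t) (z : ℝ) :
    (Q t).eval (Real.cos z) * ((t : ℝ) ^ 2 * Real.sin (z / 2) ^ 2) ^ pp ≤ 1 := by
  rw [ker_Q_mul t ht z]
  exact ker_sin_sq_pow_le _

theorem ker_cos_pow_le (x : ℝ) : Real.cos x ^ (2 * pp) ≤ 1 := by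
  rw [pow_mul]
  exact pow_le_one₀ (sq_nonneg _) (Real.cos_sq_le_one x)

theorem ker_D_nonneg (t : ℕ) (ht : 1 ≤ t) (z : ℝ) : (Q (2 * t)).eval (Real.cos z) ≤ (Q t).eval (Real.cos z) := by
  rw [ker_Q_double t ht z]
  exact mul_le_of_le_one_right (ker_Q_nonneg t _) (ker_cos_pow_le _)

theorem ker_D_upper (t : ℕ) (ht : 1 ≤ t) (z : ℝ) :
    (Q t).eval (Real.cos z) - (Q (2 * t)).eval (Real.cos z) ≤ 32 * ((t : ℝ) ^ 2 * Real.sin (z / 2) ^ 2) := by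
  rw [ker_Q_double t ht z]
  set σ := Real.sin (t * z / 2) ^ 2 with hσ
  have hc : Real.cos (t * z / 2) ^ 2 = 1 + -σ := by
    have c1 := Real.sin_sq_add_cos_sq (t * z / 2)
    linarith
  have hσ1 : σ ≤ 1 := Real.sin_sq_le_one _
  have hb := one_add_mul_le_pow (a := -σ) (by linarith) pp
  have hpp : ((pp : ℕ) : ℝ) = 32 := by norm_num [pp]
  rw [hpp] at hb
  have h1 := ker_cos_pow_le (t * z / 2)
  have h2 : Real.cos (t * z / 2) ^ (2 * pp) = (1 + -σ) ^ pp := by rw [pow_mul, hc]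
  have h3 := ker_Q_le_one t ht z
  have h4 := ker_Q_nonneg t (Real.cos z)
  have h5 := ker_sin_sq_le t z
  rw [h2] at h1 ⊢
  have h6 : (Q t).eval (Real.cos z) * (1 - (1 + -σ) ^ pp) ≤ 1 * (1 - (1 + -σ) ^ pp) :=
    mul_le_mul_of_nonneg_right h3 (by linarith)
  nlinarith

theorem ker_D_lower (t : ℕ) (ht : 1 ≤ t) (z : ℝ) (hz0 : 0 ≤ z) (hz1 : z ≤ Real.pi)
    (h : (t : ℝ) ^ 2 * Real.sin (z / 2) ^ 2 ≤ 1) :
    (2 / Real.pi) ^ 66 * ((t : ℝ) ^ 2 * Real.sin (z / 2) ^ 2) ≤ (Q t).eval (Real.cos z) - (Q (2 * t)).eval (Real.cos z) := by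
  have ht0 : (0 : ℝ) < t := by positivity
  have hpi := Real.pi_pos
  have hy0 : 0 ≤ z / 2 := by linarith
  have hy1 : z / 2 ≤ Real.pi / 2 := by linarith
  have hs0 : 0 ≤ Real.sin (z / 2) := Real.sin_nonneg_of_nonneg_of_le_pi hy0 (by linarith)
  rcases hs0.eq_or_lt with hs | hs
  · rw [← hs]
    have := ker_D_nonneg t ht z
    simp only [ne_eq, OfNat.ofNat_ne_zero, not_false_eq_true, zero_pow, mul_zero]
    linarith
  · have hts : (t : ℝ) * Real.sin (z / 2) ≤ 1 := by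
      have h1 : ((t : ℝ) * Real.sin (z / 2)) ^ 2 ≤ 1 := by rw [mul_pow]; exact h
      have h2 : 0 ≤ (t : ℝ) * Real.sin (z / 2) := by positivity
      nlinarith
    have hj := Real.mul_le_sin hy0 hy1
    have hc0 : 0 < 2 / Real.pi := by positivity
    have hθ0 : 0 ≤ (t : ℝ) * z / 2 := by positivity
    have hθ1 : (t : ℝ) * z / 2 ≤ Real.pi / 2 := by
      have h1 : (t : ℝ) * (2 / Real.pi * (z / 2)) ≤ 1 :=
        (mul_le_mul_of_nonneg_left hj ht0.le).trans hts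
      have h2 : (t : ℝ) * (2 / Real.pi * (z / 2)) = ((t : ℝ) * z / 2) * (2 / Real.pi) := by ring
      rw [h2, ← le_div_iff₀ hc0] at h1
      have h3 : 1 / (2 / Real.pi) = Real.pi / 2 := by field_simp
      rw [h3] at h1
      exact h1
    have hj2 := Real.mul_le_sin hθ0 hθ1
    have hsl : Real.sin (z / 2) ≤ z / 2 := Real.sin_le hy0
    have hkey : 2 / Real.pi * ((t : ℝ) * Real.sin (z / 2)) ≤ Real.sin (t * z / 2) := by
      refine le_trans ?_ hj2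
      refine mul_le_mul_of_nonneg_left ?_ hc0.le
      have : (t : ℝ) * z / 2 = t * (z / 2) := by ring
      rw [this]
      exact mul_le_mul_of_nonneg_left hsl ht0.le
    have hts0 : 0 < (t : ℝ) * Real.sin (z / 2) := by positivity
    have hQ : (2 / Real.pi) ^ 64 ≤ (Q t).eval (Real.cos z) := by
      rw [ker_Q_spec t ht z hs.ne']
      have : 2 * pp = 64 := by norm_num [pp]
      rw [this]
      refine pow_le_pow_left₀ hc0.le ?_ 64
      rw [le_div_iff₀ hts0]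
      exact hkey
    have hsq : (2 / Real.pi) ^ 2 * ((t : ℝ) ^ 2 * Real.sin (z / 2) ^ 2) ≤
        Real.sin (t * z / 2) ^ 2 := by
      have := pow_le_pow_left₀ (by positivity) hkey 2
      rw [mul_pow, mul_pow] at this
      exact this
    have hcs : Real.cos (t * z / 2) ^ (2 * pp) ≤ Real.cos (t * z / 2) ^ 2 := by
      rw [pow_mul]
      exact pow_le_of_le_one (sq_nonneg _) (Real.cos_sq_le_one _) (by norm_num [pp])
    have hc1 := Real.sin_sq_add_cos_sq (t * z / 2)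
    rw [ker_Q_double t ht z]
    have h7 : (2 / Real.pi) ^ 2 * ((t : ℝ) ^ 2 * Real.sin (z / 2) ^ 2) ≤
        1 - Real.cos (t * z / 2) ^ (2 * pp) := by linarith
    have h8 : 0 ≤ (2 / Real.pi) ^ 2 * ((t : ℝ) ^ 2 * Real.sin (z / 2) ^ 2) := by positivity
    have h9 := mul_le_mul hQ h7 h8 (ker_Q_nonneg t _)
    calc (2 / Real.pi) ^ 66 * ((t : ℝ) ^ 2 * Real.sin (z / 2) ^ 2)
        = (2 / Real.pi) ^ 64 * ((2 / Real.pi) ^ 2 * ((t : ℝ) ^ 2 * Real.sin (z / 2) ^ 2)) := by ring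
      _ ≤ _ := h9
      _ = _ := by ring

end Claimed.Agent.R285.Ker
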