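import Claimed.Agent.R285.Ker.SclA

/-!
# ROW 285, post BP-F5-L53, leaf L53-K4 `scale_cov` (helper127): the comparison of the tori `N` and `L N`

Nothing is sorried here.  `scD N m a = N⁻² ∑_k m (λ_k) (1 - χ_k (a))` is `D (x, y) = (Γ (x,x) + Γ (y,y))/2 - Γ (x,y)`, `a = x - y`, for the operator with multiplier `m` on the torus `N` (`ker_sc_D`).
`ker_sc_main`: `|D'_{Lu} (a') - D_u (a)| ≤ C/u` if `|a' - L a|_∞ ≤ L`, `C` universal.   `ker_sc_grad`: `|Γ (x + e, y) - Γ (x, y)| ≤ K/u`.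
-/

set_option autoImplicit false

namespace Claimed.Agent.R285.Ker

open scoped BigOperators
open Polynomial
open Claimed.Agent.R285.RG

/-- `D (a) = N⁻² ∑_k m (λ_k) (1 - χ_k (a))` -/
noncomputable def scD (N : ℕ) (m : ℝ → ℝ) (a : ℤ × ℤ) : ℂ :=
  (((N : ℕ) : ℂ) ^ 2)⁻¹ * ∑ k : Fin N × Fin N, ((m (lam N k) : ℝ) : ℂ) * (1 - chi N k a)

/-- the embedding of the frequencies, two dimensions -/
def scs2 (N N' : ℕ) (h : N ≤ N') (k : Fin N × Fin N) : Fin N' × Fin N' := (scs N N' h k.1, scs N N' h k.2)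

theorem ker_sc_scs2_inj (N N' : ℕ) (h : N ≤ N') : Function.Injective (scs2 N N' h) := by
  intro k k' hk
  simp only [scs2, Prod.mk.injEq] at hk
  exact Prod.ext (ker_sc_scs_inj N N' h hk.1) (ker_sc_scs_inj N N' h hk.2)

theorem ker_sc_tm_entry (u : ℕ) (x : ℝ) : tm Fam.entry u x = if x = 0 then 0 else qq 64 u x / x := by
  simp [tm, ker_termP_eval, Fam.entry]

theorem ker_sc_lam_cmp (ℓ N N' : ℕ) (h : N ≤ N') (hN' : N' = 2 ^ ℓ * N) (k : Fin N × Fin N) :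
    lam N k ≤ (4 : ℝ) ^ ℓ * lam N' (scs2 N N' h k) ∧
      (4 : ℝ) ^ ℓ * lam N' (scs2 N N' h k) - lam N k ≤ ((4 : ℝ) ^ ℓ * lam N' (scs2 N N' h k)) ^ 2 / 12 ∧
      (4 : ℝ) ^ ℓ * lam N' (scs2 N N' h k) ≤ 5 / 2 * lam N k := by
  obtain ⟨a1, a2, a3⟩ := ker_sc_lam1_cmp ℓ N N' h hN' k.1
  obtain ⟨b1, b2, b3⟩ := ker_sc_lam1_cmp ℓ N N' h hN' k.2
  have c1 := ker_lam1_nonneg N' (scs N N' h k.1)
  have c2 := ker_lam1_nonneg N' (scs N N' h k.2)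
  have h4 : (0 : ℝ) < (4 : ℝ) ^ ℓ := by positivity
  simp only [lam, scs2]
  obtain ⟨Y1, hY1⟩ : ∃ Y, Y = (4 : ℝ) ^ ℓ * lam1 N' (scs N N' h k.1) := ⟨_, rfl⟩
  obtain ⟨Y2, hY2⟩ : ∃ Y, Y = (4 : ℝ) ^ ℓ * lam1 N' (scs N N' h k.2) := ⟨_, rfl⟩
  have d1 : 0 ≤ Y1 := by rw [hY1]; positivity
  have d2 : 0 ≤ Y2 := by rw [hY2]; positivity
  rw [mul_add, ← hY1, ← hY2]
  rw [← hY1] at a1 a2 a3
  rw [← hY2] at b1 b2 b3
  refine ⟨by linarith, ?_, by linarith⟩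
  nlinarith [mul_nonneg d1 d2]

/-- comparison of the multipliers -/
theorem ker_sc_mult (ℓ N N' u : ℕ) (hu : 1 ≤ u) (h : N ≤ N') (hN' : N' = 2 ^ ℓ * N) (k : Fin N × Fin N) :
    |tm Fam.entry (2 ^ ℓ * u) (lam N' (scs2 N N' h k)) / (4 : ℝ) ^ ℓ - tm Fam.entry u (lam N k)|
      ≤ 257 ^ 3 / (1 + (u : ℝ) ^ 2 * lam N k) ^ 2 := by
  obtain ⟨a1, a2, a3⟩ := ker_sc_lam_cmp ℓ N N' h hN' k
  have c1 := ker_lam_nonneg N k
  have c2 := ker_lam_nonneg N' (scs2 N N' h k)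
  have h4 : (0 : ℝ) < (4 : ℝ) ^ ℓ := by positivity
  rw [ker_sc_tm_entry, ker_sc_tm_entry]
  by_cases hk : lam N k = 0
  · have hk' : lam N' (scs2 N N' h k) = 0 := by
      rw [hk, mul_zero] at a3
      have : lam N' (scs2 N N' h k) ≤ 0 := by
        by_contra hc
        push Not at hc
        have := mul_pos h4 hc
        linarith
      linarith
    rw [if_pos hk, if_pos hk']
    simp only [zero_div, sub_zero, abs_zero]
    positivity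
  · have hk0 : 0 < lam N k := lt_of_le_of_ne c1 (Ne.symm hk)
    have hk' : lam N' (scs2 N N' h k) ≠ 0 := by
      intro hc
      rw [hc, mul_zero] at a1
      linarith
    rw [if_neg hk, if_neg hk', abs_sub_comm, div_div, mul_comm (lam N' (scs2 N N' h k))]
    exact ker_sc_sym ℓ u hu _ _ hk0 (ker_lam_le N k) (ker_lam_le N' _) a1 a3 a2

theorem ker_sc_chi (N N' L : ℕ) (h : N ≤ N') (hN' : N' = L * N) (k : Fin N × Fin N) (a : ℤ × ℤ) :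
    chi N' (scs2 N N' h k) ((L : ℤ) * a.1, (L : ℤ) * a.2) = chi N k a := by
  simp only [chi, scs2, ker_sc_chi1 N N' L h hN']

/-- comparison of the characters -/
theorem ker_sc_angle (ℓ N N' : ℕ) (h : N ≤ N') (hN' : N' = 2 ^ ℓ * N) (k : Fin N × Fin N) (a a' : ℤ × ℤ)
    (h1 : |a'.1 - 2 ^ ℓ * a.1| ≤ 2 ^ ℓ) (h2 : |a'.2 - 2 ^ ℓ * a.2| ≤ 2 ^ ℓ) :
    ‖chi N k a - chi N' (scs2 N N' h k) a'‖ ≤ 4 * Real.sqrt (lam N k) := by
  have e1 := ker_sc_chi N N' (2 ^ ℓ) h hN' k a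
  push_cast at e1
  have e2 : a' = ((2 : ℤ) ^ ℓ * a.1, (2 : ℤ) ^ ℓ * a.2) + (a'.1 - 2 ^ ℓ * a.1, a'.2 - 2 ^ ℓ * a.2) := by
    ext <;> simp
  rw [← e1]
  conv_lhs => rw [e2]
  rw [ker_chi_add]
  set b : ℤ × ℤ := (a'.1 - 2 ^ ℓ * a.1, a'.2 - 2 ^ ℓ * a.2) with hb
  have e3 : chi N' (scs2 N N' h k) ((2 : ℤ) ^ ℓ * a.1, (2 : ℤ) ^ ℓ * a.2)
      - chi N' (scs2 N N' h k) ((2 : ℤ) ^ ℓ * a.1, (2 : ℤ) ^ ℓ * a.2) * chi N' (scs2 N N' h k) b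
      = - (chi N' (scs2 N N' h k) ((2 : ℤ) ^ ℓ * a.1, (2 : ℤ) ^ ℓ * a.2) * (chi N' (scs2 N N' h k) b - 1)) := by ring
  rw [e3, norm_neg, norm_mul, ker_chi_norm, one_mul]
  refine (ker_sc_chi_sub N' _ b).trans ?_
  have key : ∀ (j : Fin N) (c : ℤ), |c| ≤ 2 ^ ℓ → lam1 N j ≤ lam N k →
      |(c : ℝ)| * Real.sqrt (lam1 N' (scs N N' h j)) ≤ 2 * Real.sqrt (lam N k) := by
    intro j c hc hj
    have hc' : |(c : ℝ)| ≤ (2 : ℝ) ^ ℓ := by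
      have : ((|c| : ℤ) : ℝ) ≤ (((2 : ℤ) ^ ℓ : ℤ) : ℝ) := by exact_mod_cast hc
      rw [Int.cast_abs] at this
      simpa using this
    have h3 := (ker_sc_lam1_cmp ℓ N N' h hN' j).2.2
    have e4 : (2 : ℝ) ^ ℓ = Real.sqrt ((4 : ℝ) ^ ℓ) := by
      have : (4 : ℝ) ^ ℓ = ((2 : ℝ) ^ ℓ) ^ 2 := by rw [← pow_mul, mul_comm, pow_mul]; norm_num
      rw [this, Real.sqrt_sq (by positivity)]
    have e5 : (2 : ℝ) * Real.sqrt (lam N k) = Real.sqrt (4 * lam N k) := by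
      rw [Real.sqrt_mul (by norm_num)]
      congr 1
      have : (4 : ℝ) = 2 ^ 2 := by norm_num
      rw [this, Real.sqrt_sq (by norm_num)]
    calc |(c : ℝ)| * Real.sqrt (lam1 N' (scs N N' h j))
        ≤ (2 : ℝ) ^ ℓ * Real.sqrt (lam1 N' (scs N N' h j)) := mul_le_mul_of_nonneg_right hc' (Real.sqrt_nonneg _)
      _ = Real.sqrt ((4 : ℝ) ^ ℓ * lam1 N' (scs N N' h j)) := by
          rw [e4, ← Real.sqrt_mul (by positivity)]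
      _ ≤ Real.sqrt (4 * lam N k) := by
          apply Real.sqrt_le_sqrt
          have := ker_lam1_nonneg N j
          linarith
      _ = _ := e5.symm
  have k1 := key k.1 b.1 h1 (by unfold lam; linarith [ker_lam1_nonneg N k.2])
  have k2 := key k.2 b.2 h2 (by unfold lam; linarith [ker_lam1_nonneg N k.1])
  simp only [scs2]
  linarith

theorem ker_sc_compl (ℓ N N' : ℕ) (h : N ≤ N') (hN' : N' = 2 ^ ℓ * N) (hN : 0 < N) (κ : Fin N' × Fin N')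
    (hκ : κ ∈ (Finset.univ.image (scs2 N N' h))ᶜ) : 4 ≤ (4 : ℝ) ^ ℓ * lam N' κ := by
  have h4 : (0 : ℝ) < (4 : ℝ) ^ ℓ := by positivity
  have c1 := ker_lam1_nonneg N' κ.1
  have c2 := ker_lam1_nonneg N' κ.2
  rw [Finset.mem_compl, Finset.mem_image] at hκ
  have : κ.1 ∉ Set.range (scs N N' h) ∨ κ.2 ∉ Set.range (scs N N' h) := by
    by_contra hc
    push Not at hc
    obtain ⟨⟨k1, hk1⟩, ⟨k2, hk2⟩⟩ := hc
    exact hκ ⟨(k1, k2), Finset.mem_univ _, Prod.ext hk1 hk2⟩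
  unfold lam
  rw [mul_add]
  rcases this with h1 | h1
  · have := ker_sc_lam1_high ℓ N N' h hN' hN κ.1 h1
    have : 0 ≤ (4 : ℝ) ^ ℓ * lam1 N' κ.2 := by positivity
    linarith
  · have := ker_sc_lam1_high ℓ N N' h hN' hN κ.2 h1
    have : 0 ≤ (4 : ℝ) ^ ℓ * lam1 N' κ.1 := by positivity
    linarith

/-- **scale covariance of `D`**, abstract form; the constant is universal -/
theorem ker_sc_main : ∃ C : ℝ, 0 ≤ C ∧ ∀ ℓ N N' u : ℕ, 1 ≤ u → u ≤ N → N' = 2 ^ ℓ * N → ∀ a a' : ℤ × ℤ,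
    |a'.1 - 2 ^ ℓ * a.1| ≤ 2 ^ ℓ → |a'.2 - 2 ^ ℓ * a.2| ≤ 2 ^ ℓ →
    ‖scD N' (tm Fam.entry (2 ^ ℓ * u)) a' - scD N (tm Fam.entry u) a‖ ≤ C / u := by
  obtain ⟨K, hK, hK'⟩ := ker_sc_half 1 1 64 0
  obtain ⟨C2, hC2, h2⟩ := ker_tm_sym 1 1 64 0
  obtain ⟨C3, hC3, h3⟩ := ker_master
  refine ⟨2 * 257 ^ 3 * C3 + 4 * K + C2 * C3 / 2, by positivity, ?_⟩
  intro ℓ N N' u hu huN hN' a a' ha1 ha2
  have hF := ker_entry_adm
  have hc : Fam.entry.c ≤ 64 := le_refl _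
  have hN : 0 < N := by omega
  have hL : 1 ≤ 2 ^ ℓ := Nat.one_le_two_pow
  have hle : N ≤ N' := by rw [hN']; exact Nat.le_mul_of_pos_left _ hL
  have hu0 : (0 : ℝ) < u := by positivity
  have hu1 : (1 : ℝ) ≤ u := by exact_mod_cast hu
  have hNr : (0 : ℝ) < N := by exact_mod_cast hN
  have h4 : (0 : ℝ) < (4 : ℝ) ^ ℓ := by positivity
  have hN'r : ((N' : ℕ) : ℝ) ^ 2 = (4 : ℝ) ^ ℓ * (N : ℝ) ^ 2 := by
    rw [hN']
    push_cast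
    rw [mul_pow, ← pow_mul, mul_comm ℓ 2, pow_mul]
    norm_num
  have hN'c : ((N' : ℕ) : ℂ) ^ 2 = (4 : ℂ) ^ ℓ * (N : ℂ) ^ 2 := by exact_mod_cast hN'r
  obtain ⟨m, hm⟩ : ∃ m, m = tm Fam.entry u := ⟨_, rfl⟩
  obtain ⟨m', hm'⟩ : ∃ m', m' = tm Fam.entry (2 ^ ℓ * u) := ⟨_, rfl⟩
  rw [← hm, ← hm']
  have hm0 : ∀ k, 0 ≤ m (lam N k) := fun k => by
    rw [hm]; exact ker_tm_nonneg hF u _ (ker_lam_nonneg N k) (ker_lam_le N k)
  have hm'0 : ∀ κ, 0 ≤ m' (lam N' κ) := fun κ => by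
    rw [hm']; exact ker_tm_nonneg hF _ _ (ker_lam_nonneg N' κ) (ker_lam_le N' κ)
  -- splitting of the big sum
  have hsplit : ∑ κ : Fin N' × Fin N', ((m' (lam N' κ) : ℝ) : ℂ) * (1 - chi N' κ a')
      = ∑ k : Fin N × Fin N, ((m' (lam N' (scs2 N N' hle k)) : ℝ) : ℂ) * (1 - chi N' (scs2 N N' hle k) a')
        + ∑ κ ∈ (Finset.univ.image (scs2 N N' hle))ᶜ, ((m' (lam N' κ) : ℝ) : ℂ) * (1 - chi N' κ a') := by
    rw [← Finset.sum_image (f := fun κ => ((m' (lam N' κ) : ℝ) : ℂ) * (1 - chi N' κ a'))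
      (fun x _ y _ hxy => ker_sc_scs2_inj N N' hle hxy), Finset.sum_add_sum_compl]
  have edec : scD N' m' a' - scD N m a
      = (((N : ℕ) : ℂ) ^ 2)⁻¹ * ∑ k : Fin N × Fin N,
          ((((m' (lam N' (scs2 N N' hle k)) / (4 : ℝ) ^ ℓ - m (lam N k) : ℝ) : ℂ)) * (1 - chi N' (scs2 N N' hle k) a')
            + ((m (lam N k) : ℝ) : ℂ) * (chi N k a - chi N' (scs2 N N' hle k) a'))
        + (((N' : ℕ) : ℂ) ^ 2)⁻¹ * ∑ κ ∈ (Finset.univ.image (scs2 N N' hle))ᶜ,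
            ((m' (lam N' κ) : ℝ) : ℂ) * (1 - chi N' κ a') := by
    unfold scD
    rw [hsplit, mul_add]
    have e1 : (((N' : ℕ) : ℂ) ^ 2)⁻¹ * ∑ k : Fin N × Fin N,
          ((m' (lam N' (scs2 N N' hle k)) : ℝ) : ℂ) * (1 - chi N' (scs2 N N' hle k) a')
        = (((N : ℕ) : ℂ) ^ 2)⁻¹ * ∑ k : Fin N × Fin N,
          ((m' (lam N' (scs2 N N' hle k)) / (4 : ℝ) ^ ℓ : ℝ) : ℂ) * (1 - chi N' (scs2 N N' hle k) a') := by
      rw [hN'c, mul_inv, mul_comm ((4 : ℂ) ^ ℓ)⁻¹, mul_assoc, Finset.mul_sum]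
      congr 1
      refine Finset.sum_congr rfl fun k _ => ?_
      push_cast
      ring
    rw [e1]
    have e2 : ∀ x y z : ℂ, x + z - y = (x - y) + z := fun x y z => by ring
    rw [e2, ← mul_sub, ← Finset.sum_sub_distrib]
    congr 2
    refine Finset.sum_congr rfl fun k _ => ?_
    push_cast
    ring
  -- first sum
  have hterm : ∀ k : Fin N × Fin N,
      ‖(((m' (lam N' (scs2 N N' hle k)) / (4 : ℝ) ^ ℓ - m (lam N k) : ℝ) : ℂ)) * (1 - chi N' (scs2 N N' hle k) a')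
            + ((m (lam N k) : ℝ) : ℂ) * (chi N k a - chi N' (scs2 N N' hle k) a')‖
        ≤ 2 * 257 ^ 3 * ((u : ℝ) ^ 2)⁻¹ * ((u : ℝ) ^ 2 / (1 + (u : ℝ) ^ 2 * lam N k) ^ 2)
          + 4 * (m (lam N k) * Real.sqrt (lam N k)) := by
    intro k
    refine (norm_add_le _ _).trans (add_le_add ?_ ?_)
    · rw [norm_mul, Complex.norm_real, Real.norm_eq_abs]
      have b1 := ker_sc_mult ℓ N N' u hu hle hN' k
      rw [← hm, ← hm'] at b1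
      have b2 : ‖1 - chi N' (scs2 N N' hle k) a'‖ ≤ 2 := by
        refine (norm_sub_le _ _).trans ?_
        rw [ker_chi_norm, norm_one]
        norm_num
      have hl := ker_lam_nonneg N k
      calc |m' (lam N' (scs2 N N' hle k)) / (4 : ℝ) ^ ℓ - m (lam N k)| * ‖1 - chi N' (scs2 N N' hle k) a'‖
          ≤ (257 ^ 3 / (1 + (u : ℝ) ^ 2 * lam N k) ^ 2) * 2 := mul_le_mul b1 b2 (norm_nonneg _) (by positivity)
        _ = _ := by field_simp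
    · rw [norm_mul, Complex.norm_real, Real.norm_eq_abs, abs_of_nonneg (hm0 k)]
      have b1 := ker_sc_angle ℓ N N' hle hN' k a a' ha1 ha2
      calc m (lam N k) * ‖chi N k a - chi N' (scs2 N N' hle k) a'‖
          ≤ m (lam N k) * (4 * Real.sqrt (lam N k)) := mul_le_mul_of_nonneg_left b1 (hm0 k)
        _ = _ := by ring
  have hS1 : ‖(((N : ℕ) : ℂ) ^ 2)⁻¹ * ∑ k : Fin N × Fin N,
          ((((m' (lam N' (scs2 N N' hle k)) / (4 : ℝ) ^ ℓ - m (lam N k) : ℝ) : ℂ)) * (1 - chi N' (scs2 N N' hle k) a')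
            + ((m (lam N k) : ℝ) : ℂ) * (chi N k a - chi N' (scs2 N N' hle k) a'))‖
      ≤ 2 * 257 ^ 3 * ((u : ℝ) ^ 2)⁻¹ * C3 + 4 * (K / u) := by
    rw [norm_mul]
    have e0 : ‖(((N : ℕ) : ℂ) ^ 2)⁻¹‖ = ((N : ℝ) ^ 2)⁻¹ := by
      rw [norm_inv, norm_pow, Complex.norm_natCast]
    rw [e0]
    have hNi : (0 : ℝ) ≤ ((N : ℝ) ^ 2)⁻¹ := by positivity
    have b3 := h3 N u hu huN
    have b4 := hK' Fam.entry hF hc N u hu huN
    rw [← hm] at b4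
    calc ((N : ℝ) ^ 2)⁻¹ * ‖∑ k : Fin N × Fin N,
          ((((m' (lam N' (scs2 N N' hle k)) / (4 : ℝ) ^ ℓ - m (lam N k) : ℝ) : ℂ)) * (1 - chi N' (scs2 N N' hle k) a')
            + ((m (lam N k) : ℝ) : ℂ) * (chi N k a - chi N' (scs2 N N' hle k) a'))‖
        ≤ ((N : ℝ) ^ 2)⁻¹ * ∑ k : Fin N × Fin N,
            (2 * 257 ^ 3 * ((u : ℝ) ^ 2)⁻¹ * ((u : ℝ) ^ 2 / (1 + (u : ℝ) ^ 2 * lam N k) ^ 2)
              + 4 * (m (lam N k) * Real.sqrt (lam N k))) :=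
          mul_le_mul_of_nonneg_left ((norm_sum_le _ _).trans (Finset.sum_le_sum fun k _ => hterm k)) hNi
      _ = 2 * 257 ^ 3 * ((u : ℝ) ^ 2)⁻¹ * (((N : ℝ) ^ 2)⁻¹ * ∑ k : Fin N × Fin N,
              (u : ℝ) ^ 2 / (1 + (u : ℝ) ^ 2 * lam N k) ^ 2)
            + 4 * (((N : ℝ) ^ 2)⁻¹ * ∑ k : Fin N × Fin N, m (lam N k) * Real.sqrt (lam N k)) := by
          rw [Finset.sum_add_distrib, ← Finset.mul_sum, ← Finset.mul_sum]
          ring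
      _ ≤ _ := by
          refine add_le_add (mul_le_mul_of_nonneg_left b3 (by positivity)) ?_
          linarith
  -- second sum
  have hu' : 1 ≤ 2 ^ ℓ * u := Nat.mul_pos hL hu
  have hu'N : 2 ^ ℓ * u ≤ N' := by rw [hN']; exact Nat.mul_le_mul_left _ huN
  have eLu : (((2 ^ ℓ * u : ℕ) : ℝ)) ^ 2 = (4 : ℝ) ^ ℓ * (u : ℝ) ^ 2 := by
    push_cast
    rw [mul_pow, ← pow_mul, mul_comm ℓ 2, pow_mul]
    norm_num
  have hterm2 : ∀ κ ∈ (Finset.univ.image (scs2 N N' hle))ᶜ,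
      ‖((m' (lam N' κ) : ℝ) : ℂ) * (1 - chi N' κ a')‖
        ≤ (4 : ℝ) ^ ℓ / 2 * (C2 * ((((2 ^ ℓ * u : ℕ) : ℝ)) ^ 2)⁻¹
            * ((((2 ^ ℓ * u : ℕ) : ℝ)) ^ 2 / (1 + (((2 ^ ℓ * u : ℕ) : ℝ)) ^ 2 * lam N' κ) ^ 2)) := by
    intro κ hκ
    have b1 := ker_sc_compl ℓ N N' hle hN' hN κ hκ
    have b2 : ‖1 - chi N' κ a'‖ ≤ 2 := by
      refine (norm_sub_le _ _).trans ?_
      rw [ker_chi_norm, norm_one]
      norm_num
    have hl := ker_lam_nonneg N' κ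
    have b3 := h2 Fam.entry hF hc _ hu' _ hl (ker_lam_le N' κ) 2 le_rfl (by norm_num)
    rw [← hm', abs_of_nonneg (hm'0 κ), Real.sq_sqrt hl] at b3
    rw [norm_mul, Complex.norm_real, Real.norm_eq_abs, abs_of_nonneg (hm'0 κ)]
    calc m' (lam N' κ) * ‖1 - chi N' κ a'‖ ≤ m' (lam N' κ) * 2 := mul_le_mul_of_nonneg_left b2 (hm'0 κ)
      _ = m' (lam N' κ) / 2 * 4 := by ring
      _ ≤ m' (lam N' κ) / 2 * ((4 : ℝ) ^ ℓ * lam N' κ) :=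
          mul_le_mul_of_nonneg_left b1 (by have := hm'0 κ; positivity)
      _ = (4 : ℝ) ^ ℓ / 2 * (m' (lam N' κ) * lam N' κ) := by ring
      _ ≤ _ := mul_le_mul_of_nonneg_left b3 (by positivity)
  have hS2 : ‖(((N' : ℕ) : ℂ) ^ 2)⁻¹ * ∑ κ ∈ (Finset.univ.image (scs2 N N' hle))ᶜ,
            ((m' (lam N' κ) : ℝ) : ℂ) * (1 - chi N' κ a')‖ ≤ C2 * C3 / 2 * ((u : ℝ) ^ 2)⁻¹ := by
    rw [norm_mul]
    have e0 : ‖(((N' : ℕ) : ℂ) ^ 2)⁻¹‖ = ((N' : ℝ) ^ 2)⁻¹ := by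
      rw [norm_inv, norm_pow, Complex.norm_natCast]
    rw [e0]
    have hNi : (0 : ℝ) ≤ ((N' : ℝ) ^ 2)⁻¹ := by positivity
    have b3 := h3 N' _ hu' hu'N
    calc ((N' : ℝ) ^ 2)⁻¹ * ‖∑ κ ∈ (Finset.univ.image (scs2 N N' hle))ᶜ,
            ((m' (lam N' κ) : ℝ) : ℂ) * (1 - chi N' κ a')‖
        ≤ ((N' : ℝ) ^ 2)⁻¹ * ∑ κ ∈ (Finset.univ.image (scs2 N N' hle))ᶜ,
            (4 : ℝ) ^ ℓ / 2 * (C2 * ((((2 ^ ℓ * u : ℕ) : ℝ)) ^ 2)⁻¹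
            * ((((2 ^ ℓ * u : ℕ) : ℝ)) ^ 2 / (1 + (((2 ^ ℓ * u : ℕ) : ℝ)) ^ 2 * lam N' κ) ^ 2)) :=
          mul_le_mul_of_nonneg_left ((norm_sum_le _ _).trans (Finset.sum_le_sum hterm2)) hNi
      _ ≤ ((N' : ℝ) ^ 2)⁻¹ * ∑ κ : Fin N' × Fin N',
            (4 : ℝ) ^ ℓ / 2 * (C2 * ((((2 ^ ℓ * u : ℕ) : ℝ)) ^ 2)⁻¹
            * ((((2 ^ ℓ * u : ℕ) : ℝ)) ^ 2 / (1 + (((2 ^ ℓ * u : ℕ) : ℝ)) ^ 2 * lam N' κ) ^ 2)) := by
          refine mul_le_mul_of_nonneg_left (Finset.sum_le_univ_sum_of_nonneg fun κ => ?_) hNi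
          have hl := ker_lam_nonneg N' κ
          positivity
      _ = (4 : ℝ) ^ ℓ / 2 * (C2 * ((((2 ^ ℓ * u : ℕ) : ℝ)) ^ 2)⁻¹) * (((N' : ℝ) ^ 2)⁻¹ * ∑ κ : Fin N' × Fin N',
            (((2 ^ ℓ * u : ℕ) : ℝ)) ^ 2 / (1 + (((2 ^ ℓ * u : ℕ) : ℝ)) ^ 2 * lam N' κ) ^ 2) := by
          simp only [← Finset.mul_sum]
          ring
      _ ≤ (4 : ℝ) ^ ℓ / 2 * (C2 * ((((2 ^ ℓ * u : ℕ) : ℝ)) ^ 2)⁻¹) * C3 :=
          mul_le_mul_of_nonneg_left b3 (by positivity)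
      _ = _ := by
          rw [eLu]
          field_simp
  rw [edec]
  refine (norm_add_le _ _).trans ((add_le_add hS1 hS2).trans ?_)
  have hui : ((u : ℝ) ^ 2)⁻¹ ≤ 1 / u := by
    rw [one_div]
    apply inv_anti₀ hu0
    nlinarith
  have hui0 : (0 : ℝ) ≤ ((u : ℝ) ^ 2)⁻¹ := by positivity
  calc 2 * 257 ^ 3 * ((u : ℝ) ^ 2)⁻¹ * C3 + 4 * (K / u) + C2 * C3 / 2 * ((u : ℝ) ^ 2)⁻¹
      = (2 * 257 ^ 3 * C3 + C2 * C3 / 2) * ((u : ℝ) ^ 2)⁻¹ + 4 * K * (1 / u) := by ring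
    _ ≤ (2 * 257 ^ 3 * C3 + C2 * C3 / 2) * (1 / u) + 4 * K * (1 / u) := by
        have : 0 ≤ 2 * 257 ^ 3 * C3 + C2 * C3 / 2 := by positivity
        linarith [mul_le_mul_of_nonneg_left hui this]
    _ = _ := by ring

/-- `D (x, y)` of an operator with multiplier `m` on a torus -/
theorem ker_sc_D (G : Geom) (hG : G.bc = BC.per) {Γ : Matrix G.V G.V ℝ} {m : ℝ → ℝ} (h : HasMul G Γ m) (x y : G.V) :
    ((((Γ x x + Γ y y) / 2 - Γ x y : ℝ)) : ℂ) = scD G.M m (G.ι x - G.ι y) := by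
  obtain ⟨bc, M, hM⟩ := G
  simp only at hG
  subst hG
  have key : ∀ v w : Geom.V ⟨BC.per, M, hM⟩, ((Γ v w : ℝ) : ℂ) = (((M : ℕ) : ℂ) ^ 2)⁻¹ * ∑ k : Fin M × Fin M,
      ((m (lam M k) : ℝ) : ℂ) * chi M k (Geom.ι _ v - Geom.ι _ w) := by
    intro v w
    have h1 := h (Geom.ι _ v) (Geom.ι _ w)
    rw [ker_pi_iota, ker_pi_iota] at h1
    rw [h1]
    simp [gker, per, imgs, rf, rf1]
    exact Or.inl rfl
  push_cast
  rw [key x x, key y y, key x y]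
  simp only [sub_self, ker_chi_zero, mul_one]
  unfold scD
  simp only [mul_sub, mul_one, Finset.sum_sub_distrib]
  ring

/-- the diagonal of an operator with a multiplier on a torus -/
theorem ker_sc_diag (G : Geom) (hG : G.bc = BC.per) {Γ : Matrix G.V G.V ℝ} {m : ℝ → ℝ} (h : HasMul G Γ m) (x y : G.V) :
    Γ x x = Γ y y := by
  obtain ⟨bc, M, hM⟩ := G
  simp only at hG
  subst hG
  have key : ∀ v : Geom.V ⟨BC.per, M, hM⟩, ((Γ v v : ℝ) : ℂ) = (((M : ℕ) : ℂ) ^ 2)⁻¹ * ∑ k : Fin M × Fin M,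
      ((m (lam M k) : ℝ) : ℂ) := by
    intro v
    have h1 := h (Geom.ι _ v) (Geom.ι _ v)
    rw [ker_pi_iota] at h1
    rw [h1]
    simp [gker, per, imgs, rf, rf1, ker_chi_zero]
    exact Or.inl rfl
  have := (key x).trans (key y).symm
  exact_mod_cast this

/-- **gradient of a terminal covariance**: `|∇_e Γ (x, y)| ≤ K / u`, both boundary conventions, `K` depends only on the admissibility constants -/
theorem ker_sc_grad (b0 b1 cmax : ℝ) (d : ℕ) : ∃ K : ℝ, 0 ≤ K ∧ ∀ (G : Geom) (F : Fam), F.Adm b0 b1 d → F.c ≤ cmax →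
    ∀ u : ℕ, 1 ≤ u → u ≤ per G → ∀ Γ, IsTerminal G F u Γ → ∀ (e : Fin 4) (x y : ℤ × ℤ),
      |Γ (G.π (x + dir e)) (G.π y) - Γ (G.π x) (G.π y)| ≤ K / u := by
  obtain ⟨K, hK, hK'⟩ := ker_sc_half b0 b1 cmax d
  refine ⟨4 * K, by positivity, ?_⟩
  intro G F hF hc u hu huN Γ hΓ e x y
  have h := ker_terminal_mul hF u hΓ
  have h1 := ker_kdif_abs h (fun _ : Fin 1 => e) (Fin.elim0 : Fin 0 → Fin 4) x y
  have e1 : kdif G (fun _ : Fin 1 => e) (Fin.elim0 : Fin 0 → Fin 4) Γ x y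
      = Γ (G.π (x + dir e)) (G.π y) - Γ (G.π x) (G.π y) := by
    simp only [kdif, ker_difs_nil, ker_difs_succ, dif]
  rw [e1] at h1
  refine h1.trans ?_
  have h2 := hK' F hF hc (per G) u hu huN
  have e2 : ∑ k : Fin (per G) × Fin (per G), |tm F u (lam (per G) k)| * Real.sqrt (lam (per G) k) ^ (1 + 0)
      = ∑ k : Fin (per G) × Fin (per G), tm F u (lam (per G) k) * Real.sqrt (lam (per G) k) := by
    refine Finset.sum_congr rfl fun k _ => ?_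
    rw [abs_of_nonneg (ker_tm_nonneg hF u _ (ker_lam_nonneg _ k) (ker_lam_le _ k)), pow_one]
  rw [e2]
  calc 4 * ((((per G : ℕ) : ℝ) ^ 2)⁻¹ * ∑ k : Fin (per G) × Fin (per G), tm F u (lam (per G) k) * Real.sqrt (lam (per G) k))
      ≤ 4 * (K / u) := by linarith
    _ = _ := by ring

end Claimed.Agent.R285.Ker
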