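import Claimed.Agent.R285.Ker.Qb

/-!
# ROW 285, [B] L4.1, leaf L41-SYM1: the symbols `qq c t x = Q_t (1 - x / c)` on `[0, 8]`  (cut by helper198)

FROM `Ker/Qb.lean`, `Ker/Fej.lean`.
PLAN.
* `ker_qq_eq`: `simp [qq, Qs, Polynomial.eval_comp]`, `ring_nf`.
* `ker_param`: `z = Real.arccos (1 - x / c)`; `-1 ≤ 1 - x/c ≤ 1` since `0 ≤ x/c ≤ 1/2`; `Real.cos_arccos`, `Real.arccos_nonneg`, `Real.arccos_le_pi`; `sin² (z/2) = (1 - cos z)/2` (`Real.sin_sq_half`? else from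
  `Real.cos_sq_half` + `Real.sin_sq_add_cos_sq`).
* all bounds: `obtain ⟨z, _, _, hcos, hsin⟩ := ker_param ..`, rewrite `qq` by `ker_qq_eq`, `← hcos`, apply the statement of `Ker/Qb.lean`, rewrite `hsin`.
  `diff_le`: `32 t² x/(2c) = 16 t² x / c ≤ t² x`.    `diff_ge`: `t² x/(2c) ≤ 32/32 = 1`.
* `ker_qq_pow_le`: induction on `ℓ` with `double_le` (`2^(ℓ+1) * t = 2 * (2^ℓ * t)`).
* `ker_qq_mul_pow_le`: `w = t² x/(2c) ≥ 0`.  If `w ≤ 1`: `qq ≤ 1`, `w^n ≤ 1`.  If `w > 1`: `qq w^n ≤ qq w^{32} ≤ 1` (`pow_le_pow_right₀`).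
-/

set_option autoImplicit false

namespace Claimed.Agent.R285.Ker

open scoped BigOperators
open Polynomial
open Claimed.Agent.R285.RG

theorem ker_qq_eq (c : ℝ) (t : ℕ) (x : ℝ) : qq c t x = (Q t).eval (1 - x / c) := by
  simp only [qq, Qs, eval_comp, eval_sub, eval_one, eval_mul, eval_C, eval_X]
  congr 2
  ring

theorem ker_param (c x : ℝ) (hc : 16 ≤ c) (h0 : 0 ≤ x) (h8 : x ≤ 8) :
    ∃ z : ℝ, 0 ≤ z ∧ z ≤ Real.pi ∧ Real.cos z = 1 - x / c ∧ Real.sin (z / 2) ^ 2 = x / (2 * c) := by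
  have hc0 : 0 < c := by linarith
  have h1 : 0 ≤ x / c := div_nonneg h0 hc0.le
  have h2 : x / c ≤ 1 := by
    rw [div_le_one hc0]
    linarith
  have hcos : Real.cos (Real.arccos (1 - x / c)) = 1 - x / c :=
    Real.cos_arccos (by linarith) (by linarith)
  refine ⟨Real.arccos (1 - x / c), Real.arccos_nonneg _, Real.arccos_le_pi _, hcos, ?_⟩
  set z := Real.arccos (1 - x / c)
  have e : z = 2 * (z / 2) := by ring
  have h3 : Real.cos z = 1 - 2 * Real.sin (z / 2) ^ 2 := by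
    conv_lhs => rw [e]
    rw [Real.cos_two_mul']
    have c1 := Real.sin_sq_add_cos_sq (z / 2)
    linarith
  have h4 : Real.sin (z / 2) ^ 2 = x / c / 2 := by linarith
  rw [h4]
  field_simp

theorem ker_qq_zero (c : ℝ) (t : ℕ) (ht : 1 ≤ t) : qq c t 0 = 1 := by
  rw [ker_qq_eq]
  simp [ker_Q_one t ht]

theorem ker_qq_nonneg (c : ℝ) (t : ℕ) (x : ℝ) : 0 ≤ qq c t x := by
  rw [ker_qq_eq]
  exact ker_Q_nonneg _ _

theorem ker_qq_le_one (c : ℝ) (hc : 16 ≤ c) (t : ℕ) (ht : 1 ≤ t) (x : ℝ) (h0 : 0 ≤ x) (h8 : x ≤ 8) : qq c t x ≤ 1 := by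
  obtain ⟨z, -, -, hcos, -⟩ := ker_param c x hc h0 h8
  rw [ker_qq_eq, ← hcos]
  exact ker_Q_le_one t ht z

theorem ker_qq_decay (c : ℝ) (hc : 16 ≤ c) (t : ℕ) (ht : 1 ≤ t) (x : ℝ) (h0 : 0 ≤ x) (h8 : x ≤ 8) :
    qq c t x * ((t : ℝ) ^ 2 * x / (2 * c)) ^ 32 ≤ 1 := by
  obtain ⟨z, -, -, hcos, hsin⟩ := ker_param c x hc h0 h8
  have h := ker_Q_decay t ht z
  rw [hsin, hcos, ← ker_qq_eq] at h
  have e : (t : ℝ) ^ 2 * x / (2 * c) = (t : ℝ) ^ 2 * (x / (2 * c)) := by ring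
  rw [e]
  exact h

theorem ker_qq_mul_pow_le (c : ℝ) (hc : 16 ≤ c) (t : ℕ) (ht : 1 ≤ t) (x : ℝ) (h0 : 0 ≤ x) (h8 : x ≤ 8) (n : ℕ)
    (hn : n ≤ 32) : qq c t x * ((t : ℝ) ^ 2 * x / (2 * c)) ^ n ≤ 1 := by
  have hc0 : 0 < c := by linarith
  have hw : 0 ≤ (t : ℝ) ^ 2 * x / (2 * c) := by positivity
  have hq0 := ker_qq_nonneg c t x
  rcases le_or_gt ((t : ℝ) ^ 2 * x / (2 * c)) 1 with h | h
  · exact mul_le_one₀ (ker_qq_le_one c hc t ht x h0 h8) (pow_nonneg hw _) (pow_le_one₀ hw h)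
  · exact (mul_le_mul_of_nonneg_left (pow_le_pow_right₀ h.le hn) hq0).trans
      (ker_qq_decay c hc t ht x h0 h8)

theorem ker_qq_double_le (c : ℝ) (hc : 16 ≤ c) (t : ℕ) (ht : 1 ≤ t) (x : ℝ) (h0 : 0 ≤ x) (h8 : x ≤ 8) :
    qq c (2 * t) x ≤ qq c t x := by
  obtain ⟨z, -, -, hcos, -⟩ := ker_param c x hc h0 h8
  rw [ker_qq_eq, ker_qq_eq, ← hcos]
  exact ker_D_nonneg t ht z

theorem ker_qq_pow_le (c : ℝ) (hc : 16 ≤ c) (t : ℕ) (ht : 1 ≤ t) (ℓ : ℕ) (x : ℝ) (h0 : 0 ≤ x) (h8 : x ≤ 8) :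
    qq c (2 ^ ℓ * t) x ≤ qq c t x := by
  induction ℓ with
  | zero => simp
  | succ ℓ ih =>
    have e : 2 ^ (ℓ + 1) * t = 2 * (2 ^ ℓ * t) := by ring
    rw [e]
    exact (ker_qq_double_le c hc _ (Nat.mul_pos (by positivity) ht) x h0 h8).trans ih

theorem ker_qq_diff_le (c : ℝ) (hc : 16 ≤ c) (t : ℕ) (ht : 1 ≤ t) (x : ℝ) (h0 : 0 ≤ x) (h8 : x ≤ 8) :
    qq c t x - qq c (2 * t) x ≤ (t : ℝ) ^ 2 * x := by
  have hc0 : 0 < c := by linarith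
  obtain ⟨z, -, -, hcos, hsin⟩ := ker_param c x hc h0 h8
  have h := ker_D_upper t ht z
  rw [hsin, hcos, ← ker_qq_eq, ← ker_qq_eq] at h
  refine h.trans ?_
  have e : 32 * ((t : ℝ) ^ 2 * (x / (2 * c))) = ((t : ℝ) ^ 2 * x) * (16 / c) := by
    field_simp
    ring
  rw [e]
  exact mul_le_of_le_one_right (by positivity) ((div_le_one hc0).2 hc)

theorem ker_qq_diff_ge (c : ℝ) (hc : 16 ≤ c) (t : ℕ) (ht : 1 ≤ t) (x : ℝ) (h0 : 0 ≤ x) (h8 : x ≤ 8)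
    (h : (t : ℝ) ^ 2 * x ≤ 32) : (2 / Real.pi) ^ 66 * ((t : ℝ) ^ 2 * x / (2 * c)) ≤ qq c t x - qq c (2 * t) x := by
  have hc0 : 0 < c := by linarith
  obtain ⟨z, hz0, hz1, hcos, hsin⟩ := ker_param c x hc h0 h8
  have e : (t : ℝ) ^ 2 * x / (2 * c) = (t : ℝ) ^ 2 * (x / (2 * c)) := by ring
  have h1 : (t : ℝ) ^ 2 * Real.sin (z / 2) ^ 2 ≤ 1 := by
    rw [hsin, ← e, div_le_one (by positivity)]
    linarith
  have h2 := ker_D_lower t ht z hz0 hz1 h1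
  rw [hsin, hcos, ← ker_qq_eq, ← ker_qq_eq, ← e] at h2
  exact h2

end Claimed.Agent.R285.Ker
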