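import Claimed.Agent.R285.Ker.Sym1

/-!
# ROW 285, [B] L4.1, leaf L41-SYM2: primary bounds of the multipliers `shellP`, `lowP`, `termP / x` on `[0, 8]`  (cut by helper198)

FROM `Ker/Sym1.lean` (+ `ker_Q_one`).   `F.Adm b0 b1 d`: `16 ≤ F.c`, `0 < b0 ≤ pref ≤ b1` on `[0,8]`.
PLAN.
* eval identities: `X * divX p = p - C (p.coeff 0)` (`Polynomial.X_mul_divX`, or `Polynomial.divX_mul_X_add p : divX p * X + C (p.coeff 0) = p`; evaluate), `coeff_zero_eq_eval_zero`, `ker_qq_zero` (unfold `qq`).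
* value at `x = 0`: `ker_eval_zero_le`, `ker_le_eval_zero`: `P.continuous`, `le_of_tendsto`/`ge_of_tendsto` along `𝓝[>] 0` (`P.continuous.continuousAt.tendsto.mono_left nhdsWithin_le_nhds`,
  eventually `0 < x ≤ 8`: `Ioc_mem_nhdsGT`/`Ioo_mem_nhdsGT`); or by contradiction with `ContinuousAt`.
* pieces, `H = (F.shellP t (2t)).eval x`, for `x > 0`: `H = pref (qq t - qq 2t) / x`: `nonneg` (`ker_qq_double_le`), `le` (`ker_qq_diff_le`), `ge` (`ker_qq_diff_ge`, `2c ≤ 2 cmax`); then `x = 0` by the closure lemmas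
  (for `ge`: if `x = 0`, apply `ker_le_eval_zero'` on `(0, min 8 (32/t²)]`: the statement below has a radius `ρ`).
  `decay`: `H x = pref (qq t - qq 2t) ≤ b1 qq t`, `ker_qq_decay`.
* shells: `x h = pref (qq u - qq (2^ℓ u))`.  `nonneg`: `ker_qq_pow_le`.  `le`: `h = ∑_j pieces ≤ b1 ∑_j (2^j u)² ≤ b1 (2^ℓ u)²`: use hypothesis-free induction on `ℓ` through `x h_{ℓ+1} = x h_ℓ + x H_{2^ℓ u}` for `x > 0`
  (`(2^ℓ u)² + (2^ℓ u)² ≤ (2^{ℓ+1} u)²`), closure at `0`.   `pow`: `h x^r = x^{r-1} pref (qq u - qq S) ≤ b1 x^{r-1} qq u`, `x = w (2c)/u²`, `w = u² x/(2c)`, `ker_qq_mul_pow_le` with `n = r - 1`,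
  `(2c)^{r-1} ≤ (2 cmax)^5` (`1 ≤ 2c ≤ 2cmax`, `r - 1 ≤ 5`).
* `tm F u x = termP(x)/x` (`0` at `x = 0`): `tm x^r = x^{r-1} pref qq u`: same computation.
-/

set_option autoImplicit false

namespace Claimed.Agent.R285.Ker

open scoped BigOperators
open Polynomial
open Claimed.Agent.R285.RG

/-- the multiplier of the terminal covariance -/
noncomputable def tm (F : Fam) (u : ℕ) (x : ℝ) : ℝ := if x = 0 then 0 else (F.termP u).eval x / x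

theorem ker_divX_eval (p : ℝ[X]) (x : ℝ) : x * (divX p).eval x = p.eval x - p.eval 0 := by
  have h := congrArg (fun q : ℝ[X] => q.eval x) (divX_mul_X_add p)
  simp only [eval_add, eval_mul, eval_X, eval_C] at h
  rw [coeff_zero_eq_eval_zero] at h
  linarith

theorem ker_shellP_eval (F : Fam) (m S : ℕ) (hm : 1 ≤ m) (hS : 1 ≤ S) (x : ℝ) :
    x * (F.shellP m S).eval x = F.pref.eval x * (qq F.c m x - qq F.c S x) := by
  have h := ker_divX_eval (Qs F.c m - Qs F.c S) x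
  have h1 := ker_qq_zero F.c m hm
  have h2 := ker_qq_zero F.c S hS
  simp only [qq] at h1 h2 ⊢
  simp only [eval_sub, h1, h2] at h
  simp only [Fam.shellP, eval_mul]
  linear_combination (F.pref.eval x) * h

theorem ker_lowP_eval (F : Fam) (u : ℕ) (hu : 1 ≤ u) (x : ℝ) :
    x * (F.lowP u).eval x = F.pref.eval x * (1 - qq F.c u x) := by
  have h := ker_divX_eval (1 - Qs F.c u) x
  have h1 := ker_qq_zero F.c u hu
  simp only [qq] at h1 ⊢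
  simp only [eval_sub, eval_one, h1] at h
  simp only [Fam.lowP, eval_mul]
  linear_combination (F.pref.eval x) * h

theorem ker_termP_eval (F : Fam) (u : ℕ) (x : ℝ) : (F.termP u).eval x = F.pref.eval x * qq F.c u x := by
  simp only [Fam.termP, eval_mul, qq]

theorem ker_eval_zero_le (P : ℝ[X]) (B ρ : ℝ) (hρ : 0 < ρ) (h : ∀ x : ℝ, 0 < x → x ≤ ρ → P.eval x ≤ B) : P.eval 0 ≤ B := by
  have hc : Filter.Tendsto (fun x => P.eval x) (nhdsWithin 0 (Set.Ioi 0)) (nhds (P.eval 0)) :=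
    (P.continuous.tendsto 0).mono_left nhdsWithin_le_nhds
  refine le_of_tendsto hc ?_
  filter_upwards [Ioc_mem_nhdsGT hρ] with x hx using h x hx.1 hx.2

theorem ker_le_eval_zero (P : ℝ[X]) (B ρ : ℝ) (hρ : 0 < ρ) (h : ∀ x : ℝ, 0 < x → x ≤ ρ → B ≤ P.eval x) : B ≤ P.eval 0 := by
  have hc : Filter.Tendsto (fun x => P.eval x) (nhdsWithin 0 (Set.Ioi 0)) (nhds (P.eval 0)) :=
    (P.continuous.tendsto 0).mono_left nhdsWithin_le_nhds
  refine ge_of_tendsto hc ?_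
  filter_upwards [Ioc_mem_nhdsGT hρ] with x hx using h x hx.1 hx.2

variable {F : Fam} {b0 b1 : ℝ} {d : ℕ}

theorem ker_b1_pos (hF : F.Adm b0 b1 d) : 0 < b1 := by
  have h := hF.bd 0 le_rfl (by norm_num)
  linarith [hF.b0_pos]

theorem ker_pref_pos (hF : F.Adm b0 b1 d) {x : ℝ} (h0 : 0 ≤ x) (h8 : x ≤ 8) : 0 < F.pref.eval x :=
  lt_of_lt_of_le hF.b0_pos (hF.bd x h0 h8).1

/-- lower bounds on `(0, ρ]` extend to `[0, ρ]`. -/
theorem ker_ge_closure (P : ℝ[X]) (B ρ : ℝ) (hρ : 0 < ρ) (h : ∀ x : ℝ, 0 < x → x ≤ ρ → B ≤ P.eval x)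
    (x : ℝ) (h0 : 0 ≤ x) (h8 : x ≤ ρ) : B ≤ P.eval x := by
  rcases h0.eq_or_lt with rfl | hx
  · exact ker_le_eval_zero P B ρ hρ h
  · exact h x hx h8

/-- upper bounds on `(0, ρ]` extend to `[0, ρ]`. -/
theorem ker_le_closure (P : ℝ[X]) (B ρ : ℝ) (hρ : 0 < ρ) (h : ∀ x : ℝ, 0 < x → x ≤ ρ → P.eval x ≤ B)
    (x : ℝ) (h0 : 0 ≤ x) (h8 : x ≤ ρ) : P.eval x ≤ B := by
  rcases h0.eq_or_lt with rfl | hx
  · exact ker_eval_zero_le P B ρ hρ h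
  · exact h x hx h8

theorem ker_piece_nonneg (hF : F.Adm b0 b1 d) (t : ℕ) (ht : 1 ≤ t) (x : ℝ) (h0 : 0 ≤ x) (h8 : x ≤ 8) :
    0 ≤ (F.shellP t (2 * t)).eval x := by
  refine ker_ge_closure _ 0 8 (by norm_num) (fun y hy hy8 => ?_) x h0 h8
  have h1 := ker_shellP_eval F t (2 * t) ht (by omega) y
  have h2 := ker_qq_double_le F.c hF.c_ge t ht y hy.le hy8
  have h3 : 0 ≤ y * (F.shellP t (2 * t)).eval y := by
    rw [h1]
    exact mul_nonneg (ker_pref_pos hF hy.le hy8).le (by linarith)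
  exact nonneg_of_mul_nonneg_right h3 hy

theorem ker_piece_le (hF : F.Adm b0 b1 d) (t : ℕ) (ht : 1 ≤ t) (x : ℝ) (h0 : 0 ≤ x) (h8 : x ≤ 8) :
    (F.shellP t (2 * t)).eval x ≤ b1 * (t : ℝ) ^ 2 := by
  refine ker_le_closure _ _ 8 (by norm_num) (fun y hy hy8 => ?_) x h0 h8
  have h1 := ker_shellP_eval F t (2 * t) ht (by omega) y
  have h2 := ker_qq_double_le F.c hF.c_ge t ht y hy.le hy8
  have h3 := ker_qq_diff_le F.c hF.c_ge t ht y hy.le hy8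
  have h4 : y * (F.shellP t (2 * t)).eval y ≤ y * (b1 * (t : ℝ) ^ 2) := by
    rw [h1]
    calc F.pref.eval y * (qq F.c t y - qq F.c (2 * t) y) ≤ b1 * ((t : ℝ) ^ 2 * y) :=
          mul_le_mul (hF.bd y hy.le hy8).2 h3 (by linarith) (ker_b1_pos hF).le
      _ = y * (b1 * (t : ℝ) ^ 2) := by ring
  exact le_of_mul_le_mul_left h4 hy

theorem ker_piece_decay (hF : F.Adm b0 b1 d) (t : ℕ) (ht : 1 ≤ t) (x : ℝ) (h0 : 0 ≤ x) (h8 : x ≤ 8) :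
    (F.shellP t (2 * t)).eval x * x * ((t : ℝ) ^ 2 * x / (2 * F.c)) ^ 32 ≤ b1 := by
  have hc0 : 0 < F.c := by linarith [hF.c_ge]
  have h1 := ker_shellP_eval F t (2 * t) ht (by omega) x
  have h2 := ker_qq_nonneg F.c (2 * t) x
  have h3 := ker_qq_nonneg F.c t x
  have h4 := ker_qq_decay F.c hF.c_ge t ht x h0 h8
  have hw : 0 ≤ ((t : ℝ) ^ 2 * x / (2 * F.c)) ^ 32 := by positivity
  have h5 : (F.shellP t (2 * t)).eval x * x ≤ b1 * qq F.c t x := by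
    rw [mul_comm, h1]
    exact mul_le_mul (hF.bd x h0 h8).2 (by linarith) (by
      linarith [ker_qq_double_le F.c hF.c_ge t ht x h0 h8]) (ker_b1_pos hF).le
  calc (F.shellP t (2 * t)).eval x * x * ((t : ℝ) ^ 2 * x / (2 * F.c)) ^ 32
      ≤ b1 * qq F.c t x * ((t : ℝ) ^ 2 * x / (2 * F.c)) ^ 32 := mul_le_mul_of_nonneg_right h5 hw
    _ = b1 * (qq F.c t x * ((t : ℝ) ^ 2 * x / (2 * F.c)) ^ 32) := by ring
    _ ≤ b1 * 1 := mul_le_mul_of_nonneg_left h4 (ker_b1_pos hF).le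
    _ = b1 := mul_one _

theorem ker_piece_ge (hF : F.Adm b0 b1 d) (cmax : ℝ) (hc : F.c ≤ cmax) (t : ℕ) (ht : 1 ≤ t) (x : ℝ) (h0 : 0 ≤ x)
    (h8 : x ≤ 8) (h : (t : ℝ) ^ 2 * x ≤ 32) :
    b0 * (2 / Real.pi) ^ 66 / (2 * cmax) * (t : ℝ) ^ 2 ≤ (F.shellP t (2 * t)).eval x := by
  have hc0 : 0 < F.c := by linarith [hF.c_ge]
  have ht0 : (0 : ℝ) < (t : ℝ) ^ 2 := by positivity
  have hpi := Real.pi_pos
  have hρ : 0 < min (8 : ℝ) (32 / (t : ℝ) ^ 2) := lt_min (by norm_num) (by positivity)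
  refine ker_ge_closure _ _ _ hρ (fun y hy hyρ => ?_) x h0 (le_min h8 ?_)
  · have hy8 : y ≤ 8 := hyρ.trans (min_le_left _ _)
    have hy32 : (t : ℝ) ^ 2 * y ≤ 32 := by
      have := hyρ.trans (min_le_right _ _)
      rw [le_div_iff₀ ht0] at this
      linarith
    have h1 := ker_shellP_eval F t (2 * t) ht (by omega) y
    have h3 := ker_qq_diff_ge F.c hF.c_ge t ht y hy.le hy8 hy32
    have h4 : y * (b0 * (2 / Real.pi) ^ 66 / (2 * cmax) * (t : ℝ) ^ 2) ≤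
        y * (F.shellP t (2 * t)).eval y := by
      rw [h1]
      have h5 : (2 / Real.pi) ^ 66 * ((t : ℝ) ^ 2 * y / (2 * cmax)) ≤
          (2 / Real.pi) ^ 66 * ((t : ℝ) ^ 2 * y / (2 * F.c)) := by
        refine mul_le_mul_of_nonneg_left ?_ (by positivity)
        exact div_le_div_of_nonneg_left (by positivity) (by positivity) (by linarith)
      calc y * (b0 * (2 / Real.pi) ^ 66 / (2 * cmax) * (t : ℝ) ^ 2)
          = b0 * ((2 / Real.pi) ^ 66 * ((t : ℝ) ^ 2 * y / (2 * cmax))) := by ring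
        _ ≤ F.pref.eval y * (qq F.c t y - qq F.c (2 * t) y) :=
          mul_le_mul (hF.bd y hy.le hy8).1 (h5.trans h3) (by
            have : 0 < cmax := by linarith
            positivity) (ker_pref_pos hF hy.le hy8).le
    exact le_of_mul_le_mul_left h4 hy
  · rw [le_div_iff₀ ht0]
    linarith

theorem ker_shell_nonneg (hF : F.Adm b0 b1 d) (u : ℕ) (hu : 1 ≤ u) (ℓ : ℕ) (x : ℝ) (h0 : 0 ≤ x) (h8 : x ≤ 8) :
    0 ≤ (F.shellP u (2 ^ ℓ * u)).eval x := by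
  refine ker_ge_closure _ 0 8 (by norm_num) (fun y hy hy8 => ?_) x h0 h8
  have h1 := ker_shellP_eval F u (2 ^ ℓ * u) hu (Nat.mul_pos (by positivity) hu) y
  have h2 := ker_qq_pow_le F.c hF.c_ge u hu ℓ y hy.le hy8
  have h3 : 0 ≤ y * (F.shellP u (2 ^ ℓ * u)).eval y := by
    rw [h1]
    exact mul_nonneg (ker_pref_pos hF hy.le hy8).le (by linarith)
  exact nonneg_of_mul_nonneg_right h3 hy

theorem ker_qq_tele (c : ℝ) (hc : 16 ≤ c) (u : ℕ) (hu : 1 ≤ u) (ℓ : ℕ) (x : ℝ) (h0 : 0 ≤ x) (h8 : x ≤ 8) :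
    qq c u x - qq c (2 ^ ℓ * u) x ≤ ((2 : ℝ) ^ ℓ * (u : ℝ)) ^ 2 * x := by
  induction ℓ with
  | zero =>
    simp only [pow_zero, one_mul, sub_self]
    positivity
  | succ ℓ ih =>
    have e : 2 ^ (ℓ + 1) * u = 2 * (2 ^ ℓ * u) := by ring
    have h1 := ker_qq_diff_le c hc (2 ^ ℓ * u) (Nat.mul_pos (by positivity) hu) x h0 h8
    rw [e]
    push_cast at h1
    have h2 : 0 ≤ ((2 : ℝ) ^ ℓ * (u : ℝ)) ^ 2 * x := by positivity
    have e2 : ((2 : ℝ) ^ (ℓ + 1) * (u : ℝ)) ^ 2 * x = 4 * (((2 : ℝ) ^ ℓ * (u : ℝ)) ^ 2 * x) := by ring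
    rw [e2]
    linarith

theorem ker_shell_le (hF : F.Adm b0 b1 d) (u : ℕ) (hu : 1 ≤ u) (ℓ : ℕ) (x : ℝ) (h0 : 0 ≤ x) (h8 : x ≤ 8) :
    (F.shellP u (2 ^ ℓ * u)).eval x ≤ b1 * ((2 : ℝ) ^ ℓ * (u : ℝ)) ^ 2 := by
  refine ker_le_closure _ _ 8 (by norm_num) (fun y hy hy8 => ?_) x h0 h8
  have h1 := ker_shellP_eval F u (2 ^ ℓ * u) hu (Nat.mul_pos (by positivity) hu) y
  have h2 := ker_qq_pow_le F.c hF.c_ge u hu ℓ y hy.le hy8
  have h3 := ker_qq_tele F.c hF.c_ge u hu ℓ y hy.le hy8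
  have h4 : y * (F.shellP u (2 ^ ℓ * u)).eval y ≤ y * (b1 * ((2 : ℝ) ^ ℓ * (u : ℝ)) ^ 2) := by
    rw [h1]
    calc F.pref.eval y * (qq F.c u y - qq F.c (2 ^ ℓ * u) y)
        ≤ b1 * (((2 : ℝ) ^ ℓ * (u : ℝ)) ^ 2 * y) :=
          mul_le_mul (hF.bd y hy.le hy8).2 h3 (by linarith) (ker_b1_pos hF).le
      _ = y * (b1 * ((2 : ℝ) ^ ℓ * (u : ℝ)) ^ 2) := by ring
  exact le_of_mul_le_mul_left h4 hy

/-- `qq u x^n ≤ (2 cmax)^5 u^{-2n}`, `n ≤ 5`. -/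
theorem ker_qq_xpow (c : ℝ) (hc16 : 16 ≤ c) (cmax : ℝ) (hc : c ≤ cmax) (u : ℕ) (hu : 1 ≤ u) (x : ℝ)
    (h0 : 0 ≤ x) (h8 : x ≤ 8) (n : ℕ) (hn : n ≤ 5) :
    qq c u x * x ^ n ≤ (2 * cmax) ^ 5 * (((u : ℝ) ^ (2 * n)))⁻¹ := by
  have hc0 : 0 < c := by linarith
  have hu0 : (0 : ℝ) < u := by positivity
  have h1 := ker_qq_mul_pow_le c hc16 u hu x h0 h8 n (by omega)
  have e : x ^ n = ((u : ℝ) ^ 2 * x / (2 * c)) ^ n * ((2 * c) ^ n * (((u : ℝ) ^ (2 * n)))⁻¹) := by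
    rw [pow_mul, div_pow, mul_pow]
    field_simp
  have h2 : (2 * c) ^ n ≤ (2 * cmax) ^ 5 :=
    (pow_le_pow_left₀ (by positivity) (by linarith) n).trans
      (pow_le_pow_right₀ (by linarith) hn)
  have h3 : 0 ≤ (2 * c) ^ n * (((u : ℝ) ^ (2 * n)))⁻¹ := by positivity
  calc qq c u x * x ^ n
      = (qq c u x * ((u : ℝ) ^ 2 * x / (2 * c)) ^ n) * ((2 * c) ^ n * (((u : ℝ) ^ (2 * n)))⁻¹) := by
        rw [e]; ring
    _ ≤ 1 * ((2 * c) ^ n * (((u : ℝ) ^ (2 * n)))⁻¹) := mul_le_mul_of_nonneg_right h1 h3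
    _ ≤ (2 * cmax) ^ 5 * (((u : ℝ) ^ (2 * n)))⁻¹ := by
        rw [one_mul]
        exact mul_le_mul_of_nonneg_right h2 (by positivity)

theorem ker_shell_pow (hF : F.Adm b0 b1 d) (cmax : ℝ) (hc : F.c ≤ cmax) (u : ℕ) (hu : 1 ≤ u) (ℓ : ℕ) (x : ℝ) (h0 : 0 ≤ x)
    (h8 : x ≤ 8) (r : ℕ) (hr1 : 1 ≤ r) (hr6 : r ≤ 6) :
    (F.shellP u (2 ^ ℓ * u)).eval x * x ^ r ≤ b1 * (2 * cmax) ^ 5 * (((u : ℝ) ^ (2 * (r - 1))))⁻¹ := by
  obtain ⟨n, rfl⟩ : ∃ n, r = n + 1 := ⟨r - 1, by omega⟩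
  rw [Nat.add_sub_cancel]
  have h1 := ker_shellP_eval F u (2 ^ ℓ * u) hu (Nat.mul_pos (by positivity) hu) x
  have h2 := ker_qq_pow_le F.c hF.c_ge u hu ℓ x h0 h8
  have h3 := ker_qq_nonneg F.c (2 ^ ℓ * u) x
  have h4 := ker_qq_xpow F.c hF.c_ge cmax hc u hu x h0 h8 n (by omega)
  have h5 : F.pref.eval x * (qq F.c u x - qq F.c (2 ^ ℓ * u) x) ≤ b1 * qq F.c u x :=
    mul_le_mul (hF.bd x h0 h8).2 (by linarith) (by linarith) (ker_b1_pos hF).le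
  calc (F.shellP u (2 ^ ℓ * u)).eval x * x ^ (n + 1)
      = (x * (F.shellP u (2 ^ ℓ * u)).eval x) * x ^ n := by ring
    _ ≤ (b1 * qq F.c u x) * x ^ n := by
        rw [h1]
        exact mul_le_mul_of_nonneg_right h5 (by positivity)
    _ = b1 * (qq F.c u x * x ^ n) := by ring
    _ ≤ b1 * ((2 * cmax) ^ 5 * (((u : ℝ) ^ (2 * n)))⁻¹) :=
        mul_le_mul_of_nonneg_left h4 (ker_b1_pos hF).le
    _ = _ := by ring

theorem ker_low_nonneg (hF : F.Adm b0 b1 d) (u : ℕ) (hu : 1 ≤ u) (x : ℝ) (h0 : 0 ≤ x) (h8 : x ≤ 8) :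
    0 ≤ (F.lowP u).eval x := by
  refine ker_ge_closure _ 0 8 (by norm_num) (fun y hy hy8 => ?_) x h0 h8
  have h1 := ker_lowP_eval F u hu y
  have h2 := ker_qq_le_one F.c hF.c_ge u hu y hy.le hy8
  have h3 : 0 ≤ y * (F.lowP u).eval y := by
    rw [h1]
    exact mul_nonneg (ker_pref_pos hF hy.le hy8).le (by linarith)
  exact nonneg_of_mul_nonneg_right h3 hy

theorem ker_tm_nonneg (hF : F.Adm b0 b1 d) (u : ℕ) (x : ℝ) (h0 : 0 ≤ x) (h8 : x ≤ 8) : 0 ≤ tm F u x := by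
  unfold tm
  split_ifs with hx
  · exact le_rfl
  · rw [ker_termP_eval]
    exact div_nonneg (mul_nonneg (ker_pref_pos hF h0 h8).le (ker_qq_nonneg _ _ _)) h0

theorem ker_tm_mul (F : Fam) (u : ℕ) (x : ℝ) : x * tm F u x = if x = 0 then 0 else (F.termP u).eval x := by
  unfold tm
  split_ifs with hx
  · simp
  · field_simp

theorem ker_tm_pow (hF : F.Adm b0 b1 d) (cmax : ℝ) (hc : F.c ≤ cmax) (u : ℕ) (hu : 1 ≤ u) (x : ℝ) (h0 : 0 ≤ x)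
    (h8 : x ≤ 8) (r : ℕ) (hr1 : 1 ≤ r) (hr6 : r ≤ 6) :
    tm F u x * x ^ r ≤ b1 * (2 * cmax) ^ 5 * (((u : ℝ) ^ (2 * (r - 1))))⁻¹ := by
  obtain ⟨n, rfl⟩ : ∃ n, r = n + 1 := ⟨r - 1, by omega⟩
  rw [Nat.add_sub_cancel]
  have hcm : 0 < cmax := by linarith [hF.c_ge]
  have hb1 := ker_b1_pos hF
  have h4 := ker_qq_xpow F.c hF.c_ge cmax hc u hu x h0 h8 n (by omega)
  have h5 : x * tm F u x ≤ b1 * qq F.c u x := by
    rw [ker_tm_mul]
    split_ifs with hx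
    · exact mul_nonneg hb1.le (ker_qq_nonneg _ _ _)
    · rw [ker_termP_eval]
      exact mul_le_mul_of_nonneg_right (hF.bd x h0 h8).2 (ker_qq_nonneg _ _ _)
  calc tm F u x * x ^ (n + 1) = (x * tm F u x) * x ^ n := by ring
    _ ≤ (b1 * qq F.c u x) * x ^ n := mul_le_mul_of_nonneg_right h5 (by positivity)
    _ = b1 * (qq F.c u x * x ^ n) := by ring
    _ ≤ b1 * ((2 * cmax) ^ 5 * (((u : ℝ) ^ (2 * n)))⁻¹) := mul_le_mul_of_nonneg_left h4 hb1.le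
    _ = _ := by ring

end Claimed.Agent.R285.Ker
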