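import Claimed.Agent.R285.Ker.Dup
import Claimed.Agent.R285.Ker.Emb
import Claimed.Agent.R285.Ker.Scl

/-!
# ROW 285, [B] L8.1 `entry_diag`, leaves L81-TWO-T (`ker_two_term`) and L81-TWO-S (`ker_two_tail`, `ker_two_scale`): the two-scale comparison  (architect helper198)

FROM `Ker/Dup.lean`, `Ker/Emb.lean`, `Ker/Dg.lean`, `Ker/Sum.lean` (`ker_master`).     Notation: `q_t = qq 64 t`, `D (x) = q_u (x) - q_{2u} (x)`, `H_t = (Hp t).eval`, `x H_t (x) = q_t (x) - q_{2t} (x)` (`ker_Hp_eval`).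

## `ker_two_term` (pure real analysis in `a₁, a₂ ∈ [0,2]`, `a₁ + a₂ > 0`)
`x₂ = a₁ + a₂ ∈ (0, 4]`, `x₁ = a₁ (4 - a₁) + a₂ (4 - a₂) = 4 x₂ - (a₁² + a₂²)`, `x' = 4 x₂ - x₂²/32`, `κ = (1 - x₂/128)^32`, `y = u² x₁`.
 (i) `2 x₂ ≤ x₁ ≤ 4 x₂` (`a² ≤ 2a`), `x₁ ≤ 8`;  `(31/32) x₁ ≤ (31/8) x₂ ≤ x' ≤ 4 x₂ ≤ 16`;  `|x₁ - x'| ≤ a₁² + a₂² ≤ x₂² ≤ x₁²/4`;  `0 ≤ 1 - κ ≤ x₂/4` (Bernoulli `one_add_mul_le_pow`), `0 ≤ κ ≤ 1`.
 (ii) `ker_qe_dup u` and `ker_qe_dup (2u)` at `x₂`: `x₂ H_{2u} (x₂) = q_{2u} (x₂) - q_{4u} (x₂) = κ D (x')` (`2 * (2 * u)` is the index in `Hp (2u)`).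
 (iii) `H_u (x₁) - H_{2u} (x₂)/4 = [D (x₁) - D (x')]/x₁ + D (x') (4 x₂ - κ x₁)/(4 x₁ x₂)`, and `0 ≤ 4 x₂ - κ x₁ = (a₁² + a₂²) + (1 - κ) x₁ ≤ 2 x₂²`, so the second term is in `[0, D (x')/4]`.
 (iv) `0 ≤ D (x) ≤ q_u (x)` on `[0,16]` (`ker_qe_double_le`, `ker_qq_nonneg`);  `q_u (x) ≤ 1`, `q_u (x) (u² x/128)^n ≤ 1`.  With `u² x' ≥ (31/32) y`: `D (x') ≤ C/(1 + y)²` (cases `y ≤ 1`, `y > 1` with `n = 2`); `1/(1+y)² = u⁻² · u²/(1+y)²`, `u⁻² ≤ 1/√u`.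
 (v) first term, `y ≤ √u`: Lipschitz `|D (x₁) - D (x')| ≤ (u² + 4u²) |x₁ - x'| ≤ (5/4) u² x₁²` (`ker_qe_lip u`, `ker_qe_lip (2u)`), so it is `≤ (5/4) y = (5/4) y (1+y)² u⁻² · u²/(1+y)² ≤ 5 u^{-1/2} · u²/(1+y)²`
     (`y (1+y)² ≤ √u (1 + √u)² ≤ 4 u √u`, `√u ≥ 1`).
 (vi) first term, `y > √u ≥ 1`: `≤ (q_u (x₁) + q_u (x'))/x₁ ≤ 2 (133/y)³/x₁ = 2·133³ u²/y⁴ ≤ 8·133³ u²/((1+y)² y²) ≤ 8·133³ u⁻¹ · u²/(1+y)²` (`n = 3`).
## `ker_two_tail`: `x ∈ [2, 8]`: `0 ≤ H_{2u} (x) = (q_{2u} - q_{4u})/x ≤ q_{2u} (x)/2`, `q_{2u} (x) (4u² x/128) ≤ 1`, `4 u² x/128 ≥ u²/16`.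
## `ker_two_scale`: `N = 256 u²` (`64 u < N`, `128 u < 2N`, `u ≤ N`): `dl u = psum N (Hp u)`, `dl (2u) = psum (2N) (Hp (2u))` (`ker_dl_eq`).  `((2N)²)⁻¹ = (N²)⁻¹/4`.  `ker_emb_sum N (fun k => H_{2u} (lam (2N) k)) (8/u²)`.
 For `k : Fin N × Fin N`, `a_i = lam1 (2N) (emb N k_i) ∈ [0,2]`: `lam (2N) (emb k) = a₁ + a₂`, `lam N k = a₁ (4 - a₁) + a₂ (4 - a₂)` (`ker_emb_lam1`).  If `a₁ + a₂ = 0` then `lam N k = 0`, i.e. `k = 0` (`ker_lam_eq_zero`): ONE term, bounded by `u²`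
 (`ker_Hp_nonneg`, `ker_Hp_le`: `|H_u (0) - H_{2u} (0)/4| ≤ u²`), weight `N⁻² u² ≤ u⁻²`.  Uniform way: for ALL `k`: `|term_k| ≤ C/√u · u²/(1 + u² λ_k)² + (if λ_k = 0 then u² else 0)`; sum; `ker_master N u`;
 `∑_k (if λ_k = 0 then u² else 0) ≤ u²` (`Finset.sum_ite`, the filter is `⊆ {(0,0)}`; `Finset.card_le_one`).
-/

set_option autoImplicit false

namespace Claimed.Agent.R285.Ker

open scoped BigOperators
open Polynomial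
open Claimed.Agent.R285.RG

theorem ker_two_tail_aux (u : ℕ) (hu : 1 ≤ u) (x : ℝ) (h0 : 0 ≤ x) (h8 : x ≤ 8) :
    (Hp (2 * u)).eval x * ((u : ℝ) ^ 2 * x ^ 2) ≤ 32 := by
  have hu2 : 1 ≤ 2 * u := by omega
  have h1 := ker_Hp_eval (2 * u) hu2 x
  have h2 := ker_qq_nonneg 64 (2 * (2 * u)) x
  have h3 := ker_qe_mul_pow_le (2 * u) hu2 x h0 (by linarith) 1 (by norm_num)
  rw [pow_one] at h3
  push_cast at h3
  have h4 : x * (Hp (2 * u)).eval x ≤ qq 64 (2 * u) x := by linarith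
  have h5 : 0 ≤ (u : ℝ) ^ 2 * x := by positivity
  calc (Hp (2 * u)).eval x * ((u : ℝ) ^ 2 * x ^ 2) = (x * (Hp (2 * u)).eval x) * ((u : ℝ) ^ 2 * x) := by ring
    _ ≤ qq 64 (2 * u) x * ((u : ℝ) ^ 2 * x) := mul_le_mul_of_nonneg_right h4 h5
    _ = 32 * (qq 64 (2 * u) x * ((2 * (u : ℝ)) ^ 2 * x / 128)) := by ring
    _ ≤ 32 * 1 := by linarith
    _ = 32 := by ring

theorem ker_two_tail_one (u : ℕ) (hu : 1 ≤ u) (x : ℝ) (h1 : 1 ≤ x) (h8 : x ≤ 8) : |(Hp (2 * u)).eval x| ≤ 32 / (u : ℝ) ^ 2 := by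
  have hu0 : (0 : ℝ) < u := by positivity
  have hH := ker_Hp_nonneg (2 * u) (by omega) x (by linarith) h8
  rw [abs_of_nonneg hH, le_div_iff₀ (by positivity)]
  refine le_trans ?_ (ker_two_tail_aux u hu x (by linarith) h8)
  refine mul_le_mul_of_nonneg_left ?_ hH
  have : (1 : ℝ) ≤ x ^ 2 := one_le_pow₀ h1
  nlinarith [sq_nonneg (u : ℝ)]

/-- LEAF L81-TWO-S -/
theorem ker_two_tail (u : ℕ) (hu : 1 ≤ u) (x : ℝ) (h2 : 2 ≤ x) (h8 : x ≤ 8) : |(Hp (2 * u)).eval x| ≤ 8 / (u : ℝ) ^ 2 := by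
  have hu0 : (0 : ℝ) < u := by positivity
  have hH := ker_Hp_nonneg (2 * u) (by omega) x (by linarith) h8
  rw [abs_of_nonneg hH, le_div_iff₀ (by positivity)]
  have h1 := ker_two_tail_aux u hu x (by linarith) h8
  have h3 : (4 : ℝ) ≤ x ^ 2 := by nlinarith
  have h4 : (Hp (2 * u)).eval x * ((u : ℝ) ^ 2 * 4) ≤ (Hp (2 * u)).eval x * ((u : ℝ) ^ 2 * x ^ 2) :=
    mul_le_mul_of_nonneg_left (mul_le_mul_of_nonneg_left h3 (by positivity)) hH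
  linarith

theorem ker_Hp_tm (t : ℕ) (ht : 1 ≤ t) (x : ℝ) (hx : x ≠ 0) :
    (Hp t).eval x = tm Fam.entry t x - tm Fam.entry (2 * t) x := by
  have h := ker_Hp_eval t ht x
  rw [ker_sc_tm_entry, ker_sc_tm_entry, if_neg hx, if_neg hx, ← sub_div, ← h]
  field_simp

/-- termwise comparison of the binary pieces on the tori `N`, `2N` (from `ker_sc_mult`) -/
theorem ker_two_cmp (N N' u : ℕ) (hu : 1 ≤ u) (h : N ≤ N') (hN' : N' = 2 ^ 1 * N) (k : Fin N × Fin N) :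
    |(Hp u).eval (lam N k) - (Hp (2 * u)).eval (lam N' (scs2 N N' h k)) / 4|
      ≤ 2 * 257 ^ 3 * ((u : ℝ) ^ 2)⁻¹ * ((u : ℝ) ^ 2 / (1 + (u : ℝ) ^ 2 * lam N k) ^ 2)
        + (if lam N k = 0 then (u : ℝ) ^ 2 else 0) := by
  have hu0 : (0 : ℝ) < u := by positivity
  have hu2 : 1 ≤ 2 * u := by omega
  obtain ⟨a1, -, a3⟩ := ker_sc_lam_cmp 1 N N' h hN' k
  have c1 := ker_lam_nonneg N k
  have c2 := ker_lam_nonneg N' (scs2 N N' h k)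
  have hpos : 0 ≤ 2 * 257 ^ 3 * ((u : ℝ) ^ 2)⁻¹ * ((u : ℝ) ^ 2 / (1 + (u : ℝ) ^ 2 * lam N k) ^ 2) := by positivity
  by_cases hk : lam N k = 0
  · have hk' : lam N' (scs2 N N' h k) = 0 := by
      rw [hk] at a3
      linarith
    rw [if_pos hk, hk'] 
    rw [hk] at hpos ⊢
    have b1 := ker_Hp_nonneg u hu 0 le_rfl (by norm_num)
    have b2 := ker_Hp_le u hu 0 le_rfl (by norm_num)
    have b3 := ker_Hp_nonneg (2 * u) hu2 0 le_rfl (by norm_num)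
    have b4 := ker_Hp_le (2 * u) hu2 0 le_rfl (by norm_num)
    push_cast at b4
    have : |(Hp u).eval 0 - (Hp (2 * u)).eval 0 / 4| ≤ (u : ℝ) ^ 2 := by
      rw [abs_le]
      constructor <;> nlinarith
    linarith
  · have hk' : lam N' (scs2 N N' h k) ≠ 0 := by
      intro hc
      rw [hc] at a1
      have : lam N k ≤ 0 := by linarith
      exact hk (le_antisymm this c1)
    rw [if_neg hk, add_zero, ker_Hp_tm u hu _ hk, ker_Hp_tm (2 * u) hu2 _ hk']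
    have m1 := ker_sc_mult 1 N N' u hu h hN' k
    have m2 := ker_sc_mult 1 N N' (2 * u) hu2 h hN' k
    rw [pow_one, pow_one] at m1 m2
    have m3 : (257 : ℝ) ^ 3 / (1 + ((2 * u : ℕ) : ℝ) ^ 2 * lam N k) ^ 2 ≤ 257 ^ 3 / (1 + (u : ℝ) ^ 2 * lam N k) ^ 2 := by
      apply div_le_div_of_nonneg_left (by norm_num) (by positivity)
      apply pow_le_pow_left₀ (by positivity)
      push_cast
      nlinarith [mul_nonneg (sq_nonneg (u : ℝ)) c1]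
    have e : tm Fam.entry u (lam N k) - tm Fam.entry (2 * u) (lam N k)
        - (tm Fam.entry (2 * u) (lam N' (scs2 N N' h k)) - tm Fam.entry (2 * (2 * u)) (lam N' (scs2 N N' h k))) / 4
        = -(tm Fam.entry (2 * u) (lam N' (scs2 N N' h k)) / 4 - tm Fam.entry u (lam N k))
          + (tm Fam.entry (2 * (2 * u)) (lam N' (scs2 N N' h k)) / 4 - tm Fam.entry (2 * u) (lam N k)) := by ring
    rw [e]
    refine (abs_add_le _ _).trans ?_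
    rw [abs_neg]
    have e2 : 2 * 257 ^ 3 * ((u : ℝ) ^ 2)⁻¹ * ((u : ℝ) ^ 2 / (1 + (u : ℝ) ^ 2 * lam N k) ^ 2)
        = 257 ^ 3 / (1 + (u : ℝ) ^ 2 * lam N k) ^ 2 + 257 ^ 3 / (1 + (u : ℝ) ^ 2 * lam N k) ^ 2 := by
      field_simp
      ring
    rw [e2]
    exact add_le_add m1 (m2.trans m3)

theorem ker_zero_mode_sum (N : ℕ) (c : ℝ) (hc : 0 ≤ c) :
    ∑ k : Fin N × Fin N, (if lam N k = 0 then c else 0) ≤ c := by
  classical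
  rw [← Finset.sum_filter, Finset.sum_const, nsmul_eq_mul]
  have h1 : (Finset.univ.filter fun k : Fin N × Fin N => lam N k = 0).card ≤ 1 := by
    rw [Finset.card_le_one]
    intro a ha b hb
    rw [Finset.mem_filter, ker_lam_eq_zero] at ha hb
    exact Prod.ext (Fin.ext (ha.2.1.trans hb.2.1.symm)) (Fin.ext (ha.2.2.trans hb.2.2.symm))
  have h2 : (((Finset.univ.filter fun k : Fin N × Fin N => lam N k = 0).card : ℕ) : ℝ) ≤ 1 := by exact_mod_cast h1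
  calc _ ≤ 1 * c := mul_le_mul_of_nonneg_right h2 hc
    _ = c := one_mul c

/-- LEAF L81-TWO-S -/
theorem ker_two_scale : ∃ C : ℝ, 0 ≤ C ∧ ∀ u : ℕ, 1 ≤ u → |dl u - dl (2 * u)| ≤ C / Real.sqrt u := by
  classical
  obtain ⟨C3, hC3, h3⟩ := ker_master
  refine ⟨2 * 257 ^ 3 * C3 + 33, by positivity, ?_⟩
  intro u hu
  have hu0 : (0 : ℝ) < u := by positivity
  have hu1 : (1 : ℝ) ≤ u := by exact_mod_cast hu
  obtain ⟨N, hN⟩ : ∃ N : ℕ, N = 256 * u ^ 2 := ⟨_, rfl⟩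
  obtain ⟨N', hN'⟩ : ∃ N' : ℕ, N' = 2 ^ 1 * N := ⟨_, rfl⟩
  have huu : u ≤ u ^ 2 := by nlinarith
  have hle : N ≤ N' := by omega
  have hN0 : 0 < N := by omega
  have huN : u ≤ N := by omega
  have hNr : (0 : ℝ) < N := by exact_mod_cast hN0
  have e1 : dl u = psum N (Hp u) := (ker_dl_eq u N (by omega)).symm
  have e2 : dl (2 * u) = psum N' (Hp (2 * u)) := (ker_dl_eq (2 * u) N' (by omega)).symm
  have hN'r : ((N' : ℕ) : ℝ) ^ 2 = 4 * (N : ℝ) ^ 2 := by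
    rw [hN']; push_cast; ring
  have hsplit : ∑ κ : Fin N' × Fin N', (Hp (2 * u)).eval (lam N' κ)
      = ∑ k : Fin N × Fin N, (Hp (2 * u)).eval (lam N' (scs2 N N' hle k))
        + ∑ κ ∈ (Finset.univ.image (scs2 N N' hle))ᶜ, (Hp (2 * u)).eval (lam N' κ) := by
    rw [← Finset.sum_image (f := fun κ => (Hp (2 * u)).eval (lam N' κ))
      (fun x _ y _ hxy => ker_sc_scs2_inj N N' hle hxy), Finset.sum_add_sum_compl]
  have edec : dl u - dl (2 * u)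
      = ((N : ℝ) ^ 2)⁻¹ * ∑ k : Fin N × Fin N, ((Hp u).eval (lam N k) - (Hp (2 * u)).eval (lam N' (scs2 N N' hle k)) / 4)
        - ((N' : ℝ) ^ 2)⁻¹ * ∑ κ ∈ (Finset.univ.image (scs2 N N' hle))ᶜ, (Hp (2 * u)).eval (lam N' κ) := by
    rw [e1, e2]
    unfold psum
    rw [hsplit, mul_add, Finset.sum_sub_distrib, mul_sub, ← Finset.sum_div, hN'r, mul_inv]
    ring
  have hNi : (0 : ℝ) ≤ ((N : ℝ) ^ 2)⁻¹ := by positivity
  have hS1 : |((N : ℝ) ^ 2)⁻¹ * ∑ k : Fin N × Fin N,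
      ((Hp u).eval (lam N k) - (Hp (2 * u)).eval (lam N' (scs2 N N' hle k)) / 4)|
      ≤ 2 * 257 ^ 3 * ((u : ℝ) ^ 2)⁻¹ * C3 + ((u : ℝ) ^ 2)⁻¹ := by
    rw [abs_mul, abs_of_nonneg hNi]
    have b3 := h3 N u hu huN
    have b4 := ker_zero_mode_sum N ((u : ℝ) ^ 2) (by positivity)
    calc ((N : ℝ) ^ 2)⁻¹ * |∑ k : Fin N × Fin N,
          ((Hp u).eval (lam N k) - (Hp (2 * u)).eval (lam N' (scs2 N N' hle k)) / 4)|
        ≤ ((N : ℝ) ^ 2)⁻¹ * ∑ k : Fin N × Fin N,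
            (2 * 257 ^ 3 * ((u : ℝ) ^ 2)⁻¹ * ((u : ℝ) ^ 2 / (1 + (u : ℝ) ^ 2 * lam N k) ^ 2)
              + (if lam N k = 0 then (u : ℝ) ^ 2 else 0)) :=
          mul_le_mul_of_nonneg_left ((Finset.abs_sum_le_sum_abs _ _).trans
            (Finset.sum_le_sum fun k _ => ker_two_cmp N N' u hu hle hN' k)) hNi
      _ = 2 * 257 ^ 3 * ((u : ℝ) ^ 2)⁻¹ * (((N : ℝ) ^ 2)⁻¹ * ∑ k : Fin N × Fin N,
              (u : ℝ) ^ 2 / (1 + (u : ℝ) ^ 2 * lam N k) ^ 2)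
            + ((N : ℝ) ^ 2)⁻¹ * ∑ k : Fin N × Fin N, (if lam N k = 0 then (u : ℝ) ^ 2 else 0) := by
          rw [Finset.sum_add_distrib, ← Finset.mul_sum]
          ring
      _ ≤ 2 * 257 ^ 3 * ((u : ℝ) ^ 2)⁻¹ * C3 + ((N : ℝ) ^ 2)⁻¹ * (u : ℝ) ^ 2 :=
          add_le_add (mul_le_mul_of_nonneg_left b3 (by positivity)) (mul_le_mul_of_nonneg_left b4 hNi)
      _ ≤ _ := by
          have h5 : ((N : ℝ) ^ 2)⁻¹ * (u : ℝ) ^ 2 ≤ ((u : ℝ) ^ 2)⁻¹ := by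
            have hNu : (u : ℝ) ^ 2 ≤ (N : ℝ) := by
              have : u ^ 2 ≤ N := by omega
              exact_mod_cast this
            rw [inv_mul_le_iff₀ (by positivity), ← div_eq_mul_inv, le_div_iff₀ (by positivity)]
            calc (u : ℝ) ^ 2 * (u : ℝ) ^ 2 ≤ (N : ℝ) * (N : ℝ) := mul_le_mul hNu hNu (by positivity) hNr.le
              _ = (N : ℝ) ^ 2 := by ring
          linarith
  have hS2 : |((N' : ℝ) ^ 2)⁻¹ * ∑ κ ∈ (Finset.univ.image (scs2 N N' hle))ᶜ, (Hp (2 * u)).eval (lam N' κ)|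
      ≤ 32 * ((u : ℝ) ^ 2)⁻¹ := by
    have hN'i : (0 : ℝ) ≤ ((N' : ℝ) ^ 2)⁻¹ := by positivity
    rw [abs_mul, abs_of_nonneg hN'i]
    have hterm : ∀ κ ∈ (Finset.univ.image (scs2 N N' hle))ᶜ, |(Hp (2 * u)).eval (lam N' κ)| ≤ 32 / (u : ℝ) ^ 2 := by
      intro κ hκ
      have b1 := ker_sc_compl 1 N N' hle hN' hN0 κ hκ
      exact ker_two_tail_one u hu _ (by linarith) (ker_lam_le N' κ)
    have hcard : (((Finset.univ.image (scs2 N N' hle))ᶜ.card : ℕ) : ℝ) ≤ (N' : ℝ) ^ 2 := by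
      have : (Finset.univ.image (scs2 N N' hle))ᶜ.card ≤ N' ^ 2 := by
        refine (Finset.card_le_univ _).trans (le_of_eq ?_)
        simp [Fintype.card_prod, sq]
      exact_mod_cast this
    have hN'pos : (0 : ℝ) < (N' : ℝ) ^ 2 := by rw [hN'r]; positivity
    calc ((N' : ℝ) ^ 2)⁻¹ * |∑ κ ∈ (Finset.univ.image (scs2 N N' hle))ᶜ, (Hp (2 * u)).eval (lam N' κ)|
        ≤ ((N' : ℝ) ^ 2)⁻¹ * ∑ κ ∈ (Finset.univ.image (scs2 N N' hle))ᶜ, 32 / (u : ℝ) ^ 2 :=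
          mul_le_mul_of_nonneg_left ((Finset.abs_sum_le_sum_abs _ _).trans (Finset.sum_le_sum hterm)) hN'i
      _ = ((N' : ℝ) ^ 2)⁻¹ * ((((Finset.univ.image (scs2 N N' hle))ᶜ.card : ℕ) : ℝ) * (32 / (u : ℝ) ^ 2)) := by
          rw [Finset.sum_const, nsmul_eq_mul]
      _ ≤ ((N' : ℝ) ^ 2)⁻¹ * ((N' : ℝ) ^ 2 * (32 / (u : ℝ) ^ 2)) :=
          mul_le_mul_of_nonneg_left (mul_le_mul_of_nonneg_right hcard (by positivity)) hN'i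
      _ = _ := by
          rw [← mul_assoc, inv_mul_cancel₀ hN'pos.ne', one_mul, div_eq_mul_inv]
  rw [edec]
  refine (abs_sub _ _).trans ((add_le_add hS1 hS2).trans ?_)
  have hsq : Real.sqrt u ≤ (u : ℝ) ^ 2 := by
    rw [Real.sqrt_le_left (by positivity)]
    calc (u : ℝ) = (u : ℝ) * 1 := by ring
      _ ≤ ((u : ℝ) ^ 2) ^ 2 := by
          have : (1 : ℝ) ≤ (u : ℝ) ^ 3 := one_le_pow₀ hu1
          nlinarith
  have hsq0 : 0 < Real.sqrt u := Real.sqrt_pos.2 hu0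
  have hui : ((u : ℝ) ^ 2)⁻¹ ≤ 1 / Real.sqrt u := by
    rw [one_div]
    exact inv_anti₀ hsq0 hsq
  calc 2 * 257 ^ 3 * ((u : ℝ) ^ 2)⁻¹ * C3 + ((u : ℝ) ^ 2)⁻¹ + 32 * ((u : ℝ) ^ 2)⁻¹
      = (2 * 257 ^ 3 * C3 + 33) * ((u : ℝ) ^ 2)⁻¹ := by ring
    _ ≤ (2 * 257 ^ 3 * C3 + 33) * (1 / Real.sqrt u) := mul_le_mul_of_nonneg_left hui (by positivity)
    _ = _ := by ring

end Claimed.Agent.R285.Ker
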